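import Vale.Agent.P347.Quarter.Absorb.Pair

/-! # P347: small tilts and absorbed noise in chi square -/

open MeasureTheory ProbabilityTheory Real
open scoped RealInnerProductSpace

namespace Vale.Agent.P347.Quarter

/-- A small tilt of the Gaussian law is close to it in chi square. -/
theorem tilt_chi : ∃ C c₀ : ℝ, 0 ≤ C ∧ 0 < c₀ ∧ ∀ {d : ℕ} {r : Sp d → ℝ} {A B : ℝ},
    ContDiff ℝ 1 r → 0 ≤ A → 0 ≤ B → (∀ x, ‖fderiv ℝ r x‖ ≤ A + B * ‖x‖) →
    A ^ 2 + B ^ 2 * d + B ^ 2 ≤ c₀ →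
    ∀ φ : Sp d → ℝ, Measurable φ → MemLp φ 2 (gibbs r) →
      Integrable φ (gd d) ∧
      |(∫ x, φ x ∂gd d) - ∫ x, φ x ∂gibbs r| ≤
        C * √(A ^ 2 + B ^ 2 * d + B ^ 2) * √(∫ x, φ x ^ 2 ∂gibbs r) := by
  refine ⟨√(π ^ 2), 1 / π ^ 2, by positivity, by positivity,
    fun {d r A B} hr hA hB hgr hsmall φ _ hφ2 => ?_⟩
  have hpi : 0 < π ^ 2 := by positivity
  rw [le_div_iff₀ hpi] at hsmall
  have hBd : 0 ≤ B ^ 2 * d := by positivity
  have hB4 : π ^ 2 * B ^ 2 ≤ 1 := by nlinarith [sq_nonneg A]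
  obtain ⟨hi', hi, hprod⟩ := mp_grad (ι := Fin d) hr hA hB hB4 hgr
  rw [Fintype.card_fin] at hprod
  have := isProbabilityMeasure_gibbs hi
  set q := π ^ 2 / 4 * A ^ 2 + π ^ 2 / 2 * B ^ 2 * d with hq
  have hq0 : 0 ≤ q := by positivity
  have hqX : 2 * q ≤ π ^ 2 * (A ^ 2 + B ^ 2 * d + B ^ 2) := by
    nlinarith [mul_nonneg hpi.le (sq_nonneg A), mul_nonneg hpi.le (sq_nonneg B)]
  have h1 : ∫⁻ z, tiltD r z ∂gibbs r = 1 := by
    simpa using lintegral_gibbs_tiltD hi (fun _ => 1)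
  have h2 : ∫⁻ z, tiltD r z ^ 2 ∂gibbs r ≤ ENNReal.ofReal (1 + (exp q - 1)) := by
    simp only [pow_two, lintegral_gibbs_tiltD hi, lintegral_gd_tiltD hi']
    exact ENNReal.ofReal_le_ofReal (by linarith)
  have h := chi_pair (measurable_tiltD hr.continuous) h1 (by linarith [one_le_exp hq0]) h2 hφ2
  rw [gibbs_withDensity hi] at h
  refine ⟨h.1, h.2.trans (mul_le_mul_of_nonneg_right ?_ (sqrt_nonneg _))⟩
  rw [← sqrt_mul hpi.le]
  refine sqrt_le_sqrt ((exp_sub_one_le_two_mul hq0 ?_).trans hqX)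
  linarith

/-- Absorption of a random shift by half a Gaussian vector. -/
theorem absorb : ∃ C c₀ : ℝ, 0 ≤ C ∧ 0 < c₀ ∧ ∀ {d : ℕ} {ι : Type} [Fintype ι] {c : ℝ}
    {T : Sp d → Sp d} {r : Sp d → ℝ} {m : Sp d → Eu ι → Sp d} {A B L ε : ℝ},
    Continuous T → ContDiff ℝ 1 r → 0 ≤ A → 0 ≤ B → 0 ≤ L → 0 ≤ ε →
    (∀ x, ‖fderiv ℝ r x‖ ≤ A + B * ‖x‖) →
    Continuous (Function.uncurry m) →
    (∀ x, ContDiff ℝ 1 (m x) ∧ ∀ ω, ‖fderiv ℝ (m x) ω‖ ≤ L) →
    ContDiff ℝ 1 (fun x => ∫ ω, m x ω ∂gam ι) →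
    (∀ x, ‖fderiv ℝ (fun y => ∫ ω, m y ω ∂gam ι) x‖ ≤ L) →
    ∫ x, ‖∫ ω, m x ω ∂gam ι‖ ^ 2 ∂gd d ≤ ε ^ 2 →
    A ^ 2 + B ^ 2 * d + B ^ 2 + L ^ 4 * Fintype.card ι + L ^ 2 + ε ^ 2 ≤ c₀ →
    ∀ φ : Sp d → ℝ, Measurable φ →
      MemLp φ 2 (((gibbs r).prod (gd d)).map fun p => c • T p.1 + (1 / 2 : ℝ) • p.2) →
      Integrable (fun p : (Sp d × Sp d) × Eu ι =>
          φ (c • T p.1.1 + (1 / 2 : ℝ) • p.1.2 + m p.1.1 p.2))
        (((gd d).prod (gd d)).prod (gam ι)) ∧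
      |(∫ p : (Sp d × Sp d) × Eu ι, φ (c • T p.1.1 + (1 / 2 : ℝ) • p.1.2 + m p.1.1 p.2)
            ∂((gd d).prod (gd d)).prod (gam ι)) -
          ∫ p : Sp d × Sp d, φ (c • T p.1 + (1 / 2 : ℝ) • p.2) ∂(gibbs r).prod (gd d)| ≤
        C * √(A ^ 2 + B ^ 2 * d + B ^ 2 + L ^ 4 * Fintype.card ι + L ^ 2 + ε ^ 2) *
          √(∫ p : Sp d × Sp d, φ (c • T p.1 + (1 / 2 : ℝ) • p.2) ^ 2 ∂(gibbs r).prod (gd d)) := by
  refine ⟨√4000, 1 / 4000, by positivity, by positivity, ?_⟩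
  intro d ι _ c T r m A B L ε hT hr hA hB hL hε hgr hm hmw hmb hmbL hmb2 hsmall φ hφ hφ2
  set X := A ^ 2 + B ^ 2 * d + B ^ 2 + L ^ 4 * Fintype.card ι + L ^ 2 + ε ^ 2 with hX
  have hX0 : 0 ≤ X := by positivity
  set n : ℝ := (Fintype.card ι : ℝ)
  have hn : 0 ≤ n := Nat.cast_nonneg _
  have hπ : π ^ 2 ≤ 10 := by nlinarith [pi_lt_d2, pi_pos]
  have hπ0 : 0 ≤ π ^ 2 := sq_nonneg _
  have hsA : 0 ≤ A ^ 2 := sq_nonneg _
  have hsB : 0 ≤ B ^ 2 := sq_nonneg _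
  have hBd : 0 ≤ B ^ 2 * d := by positivity
  have hLn : 0 ≤ L ^ 4 * n := by positivity
  have hsL : 0 ≤ L ^ 2 := sq_nonneg _
  have hsε : 0 ≤ ε ^ 2 := sq_nonneg _
  have hBs : B ^ 2 ≤ 1 / 4000 := le_trans (by rw [hX]; linarith) hsmall
  have hLs : L ^ 2 ≤ 1 / 4000 := le_trans (by rw [hX]; linarith) hsmall
  have hL4 : L ^ 4 ≤ 1 / 4000 := by nlinarith
  obtain ⟨-, hi, -⟩ := mp_grad (ι := Fin d) hr hA hB (by nlinarith) hgr
  have := isProbabilityMeasure_gibbs hi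
  have hgr2 : ∀ x, ‖fderiv ℝ (fun y => 2 * r y) x‖ ≤ 2 * A + 2 * B * ‖x‖ := fun x => by
    rw [fderiv_const_mul (hr.differentiable one_ne_zero x), norm_smul, Real.norm_two]
    linarith [hgr x]
  obtain ⟨hi2, hi2', hprod⟩ := mp_grad (ι := Fin d) (contDiff_const.mul hr)
    (by positivity : 0 ≤ 2 * A) (by positivity : 0 ≤ 2 * B) (by nlinarith) hgr2
  rw [Fintype.card_fin] at hprod
  -- the two moments
  have hP : ∫⁻ x, tiltD r x ^ 2 ∂gd d ≤ ENNReal.ofReal (exp (2000 * X)) := by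
    have hZ : (∫ y, exp (-r y) ∂gd d) ^ 2 ≤ ∫ y, exp (-(2 * r y)) ∂gd d := by
      have e : ∀ y, exp (-r y) ^ 2 = exp (-(2 * r y)) := fun y => by
        rw [← exp_nat_mul]; push_cast; ring_nf
      have hm2 : MemLp (fun y => exp (-r y)) 2 (gd d) :=
        (memLp_two_iff_integrable_sq hi.aestronglyMeasurable).2 (by simpa only [e] using hi2')
      have hv := variance_nonneg (fun y => exp (-r y)) (gd d)
      rw [variance_eq_sub hm2] at hv
      simp only [Pi.pow_apply, e] at hv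
      linarith
    have e : ∀ x, tiltD r x ^ 2
        = ENNReal.ofReal (exp (2 * r x) * (∫ y, exp (-r y) ∂gd d) ^ 2) := fun x => by
      rw [tiltD, ← ENNReal.ofReal_pow (mul_nonneg (exp_pos _).le (integral_nonneg fun _ => (exp_pos _).le)),
        mul_pow, ← exp_nat_mul]
      norm_num
    simp only [e]
    rw [← ofReal_integral_eq_lintegral_ofReal (hi2.mul_const _) (ae_of_all _ fun x => by positivity),
      integral_mul_const]
    refine ENNReal.ofReal_le_ofReal ((mul_le_mul_of_nonneg_left hZ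
      (integral_nonneg fun _ => (exp_pos _).le)).trans (hprod.trans (exp_le_exp.2 ?_)))
    rw [hX]
    nlinarith [mul_le_mul_of_nonneg_right hπ hsA, mul_le_mul_of_nonneg_right hπ hBd]
  have hQ : ∫⁻ x, ∫⁻ y, ∫⁻ ω, ENNReal.ofReal (exp (8 * ⟪m x ω, m x y⟫)) ∂gam ι ∂gam ι ∂gd d
      ≤ ENNReal.ofReal (exp (2000 * X)) := by
    refine (lintegral_mono fun x => lintegral_exp_pair (hmw x).1 hL (hmw x).2
      (by nlinarith) (by nlinarith)).trans ?_
    calc ∫⁻ x, ENNReal.ofReal (exp (9 * ‖∫ ω, m x ω ∂gam ι‖ ^ 2 + 192 * π ^ 2 * L ^ 4 * n)) ∂gd d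
        = ENNReal.ofReal (exp (192 * π ^ 2 * L ^ 4 * n))
            * ∫⁻ x, ENNReal.ofReal (exp (9 * ‖∫ ω, m x ω ∂gam ι‖ ^ 2)) ∂gd d := by
          have hc : Measurable fun x => ENNReal.ofReal (exp (9 * ‖∫ ω, m x ω ∂gam ι‖ ^ 2)) :=
            ENNReal.measurable_ofReal.comp
              (continuous_exp.comp ((hmb.continuous.norm.pow 2).const_smul (9:ℝ))).measurable
          rw [← lintegral_const_mul _ hc]
          refine lintegral_congr fun x => ?_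
          rw [← ENNReal.ofReal_mul (exp_pos _).le, ← exp_add, add_comm]
      _ ≤ ENNReal.ofReal (exp (192 * π ^ 2 * L ^ 4 * n))
            * ENNReal.ofReal (exp (18 * ε ^ 2 + 18 * π ^ 2 * L ^ 2)) := by
          gcongr
          exact lintegral_exp_sq_field hmb hL hmbL (by nlinarith) hmb2
      _ ≤ _ := by
          rw [← ENNReal.ofReal_mul (exp_pos _).le, ← exp_add]
          refine ENNReal.ofReal_le_ofReal (exp_le_exp.2 ?_)
          rw [hX]
          nlinarith [mul_le_mul_of_nonneg_right hπ hLn, mul_le_mul_of_nonneg_right hπ hsL]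
  -- the change of measure
  have hD := measurable_pairD hr.continuous hm
  have h1 : ∫⁻ p, pairD r m p ∂(gibbs r).prod (gd d) = 1 := by
    simpa using lintegral_pairD hr.continuous hm hi (F := fun _ => 1) measurable_const
  have h2 : ∫⁻ p, pairD r m p ^ 2 ∂(gibbs r).prod (gd d)
      ≤ ENNReal.ofReal (1 + (exp (2000 * X) - 1)) := by
    refine (lintegral_pairD_sq hr.continuous hm hi hP hQ (exp_pos _).le (exp_pos _).le).trans ?_
    exact ENNReal.ofReal_le_ofReal (by linarith)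
  have hout : Measurable fun p : Sp d × Sp d => c • T p.1 + (1 / 2 : ℝ) • p.2 :=
    ((hT.comp continuous_fst).const_smul c |>.add (continuous_snd.const_smul (1 / 2 : ℝ))).measurable
  have hf : MemLp (fun p : Sp d × Sp d => φ (c • T p.1 + (1 / 2 : ℝ) • p.2)) 2
      ((gibbs r).prod (gd d)) :=
    (memLp_map_measure_iff hφ.aestronglyMeasurable hout.aemeasurable).1 hφ2
  have h := chi_pair hD h1 (by linarith [one_le_exp (mul_nonneg (by norm_num : (0:ℝ) ≤ 2000) hX0)]) h2 hf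
  rw [← map_shift_eq hr.continuous hm hi] at h
  have hm' : Continuous fun q : (Sp d × Sp d) × Eu ι => m q.1.1 q.2 :=
    hm.comp (continuous_fst.fst.prodMk continuous_snd)
  have hψ : Measurable fun q : (Sp d × Sp d) × Eu ι => (q.1.1, q.1.2 + (2 : ℝ) • m q.1.1 q.2) :=
    (by fun_prop : Continuous _).measurable
  have hΦ : Measurable fun p : Sp d × Sp d => φ (c • T p.1 + (1 / 2 : ℝ) • p.2) := hφ.comp hout
  rw [integrable_map_measure hΦ.aestronglyMeasurable hψ.aemeasurable,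
    integral_map hψ.aemeasurable hΦ.aestronglyMeasurable] at h
  have ey : ∀ q : (Sp d × Sp d) × Eu ι,
      c • T q.1.1 + (1 / 2 : ℝ) • (q.1.2 + (2 : ℝ) • m q.1.1 q.2)
        = c • T q.1.1 + (1 / 2 : ℝ) • q.1.2 + m q.1.1 q.2 := fun q => by
    rw [smul_add, smul_smul, ← add_assoc]; norm_num
  simp only [Function.comp_def, ey] at h
  refine ⟨h.1, h.2.trans (mul_le_mul_of_nonneg_right ?_ (sqrt_nonneg _))⟩
  rw [← sqrt_mul (by norm_num : (0:ℝ) ≤ 4000)]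
  refine sqrt_le_sqrt ((exp_sub_one_le_two_mul (by positivity) (by linarith)).trans (le_of_eq ?_))
  ring

end Vale.Agent.P347.Quarter
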