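import Vale.Agent.P347.Quarter.Defs

/-! # P347: smoothness of potentials and of their Gaussian averages -/

open MeasureTheory ProbabilityTheory Real Filter Topology
open scoped RealInnerProductSpace

namespace Vale.Agent.P347.Quarter

variable {d : ℕ} {W : Sp d → ℝ} {G : Sp d → Sp d} {H : Sp d → Sp d →L[ℝ] Sp d} {lo η : ℝ}

namespace IsPot

lemma mono (hW : IsPot W G H lo η) {lo' : ℝ} (h : lo' ≤ lo) : IsPot W G H lo' η :=
  { hW with loHess := fun x v => (mul_le_mul_of_nonneg_right h (sq_nonneg _)).trans (hW.loHess x v) }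

lemma inner_sq_le (hW : IsPot W G H 0 η) (x u v : Sp d) :
    ⟪H x u, v⟫ ^ 2 ≤ ⟪H x u, u⟫ * ⟪H x v, v⟫ := by
  have key : ∀ t : ℝ, 0 ≤ ⟪H x v, v⟫ * (t * t) + 2 * ⟪H x u, v⟫ * t + ⟪H x u, u⟫ := by
    intro t
    have h := hW.loHess x (u + t • v)
    rw [zero_mul] at h
    have e : ⟪H x v, u⟫ = ⟪H x u, v⟫ := by rw [hW.symHess, real_inner_comm]
    simp only [map_add, map_smul, inner_add_left, inner_add_right, real_inner_smul_left,
      real_inner_smul_right, e] at h
    linarith
  have := discrim_le_zero key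
  rw [discrim] at this
  nlinarith

lemma norm_hess (hW : IsPot W G H 0 η) (hη : 0 ≤ η) (x : Sp d) : ‖H x‖ ≤ η := by
  refine ContinuousLinearMap.opNorm_le_bound _ hη fun u => ?_
  rcases (norm_nonneg (H x u)).eq_or_lt with h0 | h0
  · rw [← h0]; positivity
  have h := hW.inner_sq_le x u (H x u)
  rw [real_inner_self_eq_norm_sq] at h
  have h1 := hW.hiHess x u
  have h2 := hW.hiHess x (H x u)
  have h3 : (‖H x u‖ ^ 2) ^ 2 ≤ (η * ‖u‖) ^ 2 * ‖H x u‖ ^ 2 := by
    refine h.trans ((mul_le_mul h1 h2 ?_ (by positivity)).trans_eq (by ring))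
    simpa using hW.loHess x (H x u)
  have h4 : ‖H x u‖ ^ 2 ≤ (η * ‖u‖) ^ 2 := le_of_mul_le_mul_right (by linarith) (pow_pos h0 2)
  exact (abs_le_of_sq_le_sq' h4 (by positivity)).2

lemma hess_nonneg_const (hW : IsPot W G H 0 η) (hd : 0 < d) : 0 ≤ η := by
  set v : Sp d := EuclideanSpace.single ⟨0, hd⟩ 1
  have h1 := hW.loHess 0 v
  have h2 := hW.hiHess 0 v
  have hv : ‖v‖ = 1 := by simp [v]
  rw [hv] at h1 h2
  linarith

lemma continuous_grad (hW : IsPot W G H lo η) : Continuous G :=
  continuous_iff_continuousAt.2 fun x => (hW.hasHess x).continuousAt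

lemma contDiff_grad (hW : IsPot W G H lo η) : ContDiff ℝ 1 G := by
  rw [contDiff_one_iff_fderiv]
  refine ⟨fun x => (hW.hasHess x).differentiableAt, ?_⟩
  simpa [funext fun x => (hW.hasHess x).fderiv] using hW.contHess

lemma norm_grad_sub (hW : IsPot W G H 0 η) (hη : 0 ≤ η) (x y : Sp d) :
    ‖G x - G y‖ ≤ η * ‖x - y‖ :=
  Convex.norm_image_sub_le_of_norm_hasFDerivWithin_le
    (fun z _ => (hW.hasHess z).hasFDerivWithinAt) (fun z _ => hW.norm_hess hη z) convex_univ
    (Set.mem_univ y) (Set.mem_univ x)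

lemma norm_grad_le (hW : IsPot W G H 0 η) (hη : 0 ≤ η) (x : Sp d) :
    ‖G x‖ ≤ ‖G 0‖ + η * ‖x‖ := by
  have := hW.norm_grad_sub hη x 0
  rw [sub_zero] at this
  calc ‖G x‖ = ‖G 0 + (G x - G 0)‖ := by abel_nf
    _ ≤ _ := (norm_add_le _ _).trans (by linarith)

end IsPot

instance instIsGaussianGam (ι : Type) [Fintype ι] : IsGaussian (gam ι) := by
  unfold gam; infer_instance

/-- The norm of a Gaussian vector is integrable. -/
lemma integrable_norm_gd : Integrable (fun w : Sp d => ‖w‖) (gd d) :=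
  (IsGaussian.integrable_id (μ := gd d)).norm

lemma integrable_grad_comp (hW : IsPot W G H 0 η) (hη : 0 ≤ η) (a b : ℝ) (x : Sp d) :
    Integrable (fun w => G (a • x + b • w)) (gd d) := by
  refine ((integrable_const (‖G 0‖ + η * ‖a • x‖)).add
    ((IsGaussian.integrable_id (μ := gd d)).norm.const_mul (η * |b|))).mono'
    (hW.continuous_grad.comp (by fun_prop)).aestronglyMeasurable
    (Eventually.of_forall fun w => ?_)
  refine (hW.norm_grad_le hη _).trans ?_
  have h := norm_add_le (a • x) (b • w)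
  rw [norm_smul b, norm_eq_abs] at h
  simp only [Pi.add_apply, id]
  nlinarith [mul_le_mul_of_nonneg_left h hη]

/-- The derivative of a Gaussian average of the gradient. -/
theorem hasFDerivAt_smth (hW : IsPot W G H 0 η) (hη : 0 ≤ η) (a b : ℝ) (x : Sp d) :
    HasFDerivAt (smth a b G) (∫ w, a • H (a • x + b • w) ∂gd d) x := by
  refine hasFDerivAt_integral_of_dominated_of_fderiv_le (s := Set.univ)
    (F := fun y w => G (a • y + b • w)) (F' := fun y w => a • H (a • y + b • w))
    (bound := fun _ => |a| * η) univ_mem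
    (Eventually.of_forall fun y => (hW.continuous_grad.comp
      (f := fun w => a • y + b • w) (by fun_prop)).aestronglyMeasurable)
    (integrable_grad_comp hW hη a b x)
    ((hW.contHess.comp (f := fun w => a • x + b • w) (by fun_prop)).const_smul
      a).aestronglyMeasurable ?_ (integrable_const _) ?_
  · refine Eventually.of_forall fun w y _ => ?_
    rw [norm_smul, norm_eq_abs]
    exact mul_le_mul_of_nonneg_left (hW.norm_hess hη _) (abs_nonneg a)
  · refine Eventually.of_forall fun w y _ => ?_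
    have h := (hW.hasHess (a • y + b • w)).comp y
      (((hasFDerivAt_id (𝕜 := ℝ) y).const_smul a).add_const (b • w))
    simpa [Function.comp_def] using h

theorem contDiff_smth (hW : IsPot W G H 0 η) (hη : 0 ≤ η) (a b : ℝ) :
    ContDiff ℝ 1 (smth a b G) ∧ ∀ x, ‖fderiv ℝ (smth a b G) x‖ ≤ |a| * η := by
  have hd := hasFDerivAt_smth hW hη a b
  have hb : ∀ x w : Sp d, ‖a • H (a • x + b • w)‖ ≤ |a| * η := fun x w => by
    rw [norm_smul, norm_eq_abs]
    exact mul_le_mul_of_nonneg_left (hW.norm_hess hη _) (abs_nonneg a)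
  refine ⟨contDiff_one_iff_fderiv.2 ⟨fun x => (hd x).differentiableAt, ?_⟩, fun x => ?_⟩
  · rw [funext fun x => (hd x).fderiv]
    exact continuous_of_dominated
      (fun x => ((hW.contHess.comp (f := fun w => a • x + b • w) (by fun_prop)).const_smul
        a).aestronglyMeasurable)
      (fun x => Eventually.of_forall (hb x)) (integrable_const _)
      (Eventually.of_forall fun w =>
        (hW.contHess.comp (f := fun x => a • x + b • w) (by fun_prop)).const_smul a)
  · rw [(hd x).fderiv]
    refine (norm_integral_le_of_norm_le_const (Eventually.of_forall (hb x))).trans_eq ?_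
    simp

end Vale.Agent.P347.Quarter
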