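import Vale.Agent.P347.Quarter.Chain
import Vale.Agent.P347.Quarter.Smooth

/-!
# P347: whitening of the restricted Gaussian oracle at an approximate minimiser
-/

open MeasureTheory ProbabilityTheory Real
open scoped RealInnerProductSpace

namespace Vale.Agent.P347.Quarter

variable {d : ℕ} {V : Sp d → ℝ} {G : Sp d → Sp d} {H : Sp d → Sp d →L[ℝ] Sp d}

/-- One fixed point step for the minimiser of `V x + |x - y|² / (2 h)`. -/
def proxStep (G : Sp d → Sp d) (h : ℝ) (y x : Sp d) : Sp d := y - h • G x

/-- The centre after `M` fixed point steps. -/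
def centre (G : Sp d → Sp d) (h : ℝ) (M : ℕ) (y : Sp d) : Sp d := (proxStep G h y)^[M] y

/-- The whitened potential at `x`. -/
noncomputable def whW (V : Sp d → ℝ) (h : ℝ) (y x : Sp d) (z : Sp d) : ℝ :=
  V (x + √h • z) + ⟪x - y, √h • z⟫ / h

/-- The whitened gradient at `x`. -/
noncomputable def whG (G : Sp d → Sp d) (h : ℝ) (y x : Sp d) (z : Sp d) : Sp d :=
  √h • G (x + √h • z) + (√h / h) • (x - y)

theorem map_tilted {α β : Type*} {mα : MeasurableSpace α} {mβ : MeasurableSpace β} {μ : Measure α}
    [SFinite μ] {e : α → β} (he : Measurable e) {g : β → ℝ} (hg : Measurable g) :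
    (μ.tilted fun x => g (e x)).map e = (μ.map e).tilted g := by
  ext s hs
  rw [Measure.map_apply he hs, tilted_apply' _ _ (he hs), tilted_apply' _ _ hs,
    integral_map he.aemeasurable hg.exp.aestronglyMeasurable]
  exact (setLIntegral_map hs (ENNReal.measurable_ofReal.comp (hg.exp.div_const _)) he).symm

theorem tilted_add_const {α : Type*} {mα : MeasurableSpace α} (μ : Measure α) (g : α → ℝ)
    (c : ℝ) : (μ.tilted fun x => g x + c) = μ.tilted g := by
  simp only [Measure.tilted, Real.exp_add, integral_mul_const,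
    mul_div_mul_right _ _ (Real.exp_ne_zero c)]

/-- A potential from the derivatives of a twice differentiable function. -/
theorem isPot_of_contDiff (hV : ContDiff ℝ 2 V) {lo hi : ℝ}
    (hb : ∀ x v, lo * ‖v‖ ^ 2 ≤ iteratedFDeriv ℝ 2 V x ![v, v] ∧
      iteratedFDeriv ℝ 2 V x ![v, v] ≤ hi * ‖v‖ ^ 2) :
    IsPot V (gradient V) (fderiv ℝ (gradient V)) lo hi := by
  have hd : ∀ x, HasFDerivAt V (fderiv ℝ V x) x := fun x =>
    (hV.differentiable (by norm_num) x).hasFDerivAt
  have h1 : ContDiff ℝ 1 (fderiv ℝ V) := hV.fderiv_right (by norm_num)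
  have hgc : ContDiff ℝ 1 (gradient V) :=
    (InnerProductSpace.toDual ℝ (Sp d)).symm.toContinuousLinearEquiv.contDiff.comp h1
  have hg : ∀ x, HasFDerivAt (gradient V) (fderiv ℝ (gradient V) x) x := fun x =>
    (hgc.differentiable (by norm_num) x).hasFDerivAt
  have e : ∀ x u v, ⟪fderiv ℝ (gradient V) x u, v⟫ = fderiv ℝ (fderiv ℝ V) x u v := by
    intro x u v
    have h2 := (hg x).inner ℝ (hasFDerivAt_const v x)
    have h3 : HasFDerivAt (fun z => fderiv ℝ V z v)
        ((ContinuousLinearMap.apply ℝ ℝ v).comp (fderiv ℝ (fderiv ℝ V) x)) x :=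
      (ContinuousLinearMap.apply ℝ ℝ v).hasFDerivAt.comp x
        ((h1.differentiable (by norm_num) x).hasFDerivAt)
    have h4 : (fun z => ⟪gradient V z, v⟫) = fun z => fderiv ℝ V z v := by
      funext z
      simp [gradient, InnerProductSpace.toDual_symm_apply]
    rw [h4] at h2
    simpa using congrArg (fun L => L u) (h2.unique h3)
  have e2 : ∀ x v, ⟪fderiv ℝ (gradient V) x v, v⟫ = iteratedFDeriv ℝ 2 V x ![v, v] := by
    intro x v
    simp [e, iteratedFDeriv_two_apply]
  refine ⟨fun x => ?_, hg, hgc.continuous_fderiv (by norm_num), fun x u v => ?_,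
    fun x v => (hb x v).1.trans_eq (e2 x v).symm, fun x v => (e2 x v).trans_le (hb x v).2⟩
  · refine (hd x).congr_fderiv ?_
    ext v
    simp [gradient, InnerProductSpace.toDual_symm_apply]
  · rw [real_inner_comm _ u, e, e]
    exact hV.contDiffAt.isSymmSndFDerivAt (by simp) u v

theorem norm_hess_le (hV : IsPot V G H 0 2) (x : Sp d) : ‖H x‖ ≤ 2 := by
  exact hV.norm_hess zero_le_two x

theorem isPot_whW (hV : IsPot V G H 1 2) {h : ℝ} (hh : 0 < h) (y x : Sp d) :
    IsPot (whW V h y x) (whG G h y x) (fun z => h • H (x + √h • z)) 0 (2 * h) := by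
  have hl : ∀ z : Sp d, HasFDerivAt (fun z : Sp d => x + √h • z)
      (√h • ContinuousLinearMap.id ℝ (Sp d)) z := fun z =>
    ((hasFDerivAt_id z).const_smul √h).const_add x
  refine ⟨fun z => ?_, fun z => ?_, ?_, fun z u v => ?_, fun z v => ?_, fun z v => ?_⟩
  · have h1 := ((hV.hasGrad _).comp z (hl z)).add
      (((innerSL ℝ (h⁻¹ • √h • (x - y))).hasFDerivAt (x := z)))
    refine (h1.congr_of_eventuallyEq (Filter.Eventually.of_forall fun w => ?_)).congr_fderiv ?_
    · simp [whW, real_inner_smul_right, inner_sub_left]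
      ring
    · ext v
      simp [whG]
      ring
  · have h1 := (((hV.hasHess _).comp z (hl z)).const_smul √h).add_const ((√h / h) • (x - y))
    refine h1.congr_fderiv ?_
    ext1 v
    simp [smul_smul, Real.mul_self_sqrt hh.le]
  · exact (hV.contHess.comp (f := fun z : Sp d => x + √h • z) (by fun_prop)).const_smul h
  · simp [real_inner_smul_left, real_inner_smul_right, hV.symHess]
  · have h1 := hV.loHess (x + √h • z) v
    rw [zero_mul, smul_apply, real_inner_smul_left]
    exact mul_nonneg hh.le (by nlinarith [sq_nonneg ‖v‖])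
  · have h1 := mul_le_mul_of_nonneg_left (hV.hiHess (x + √h • z) v) hh.le
    rw [smul_apply, real_inner_smul_left]
    linarith

theorem centre_resid (hV : IsPot V G H 1 2) (hG0 : G 0 = 0) {h : ℝ} (hh : 0 < h) (M : ℕ)
    (y : Sp d) :
    ‖whG G h y (centre G h M y) 0‖ ≤ 2 * √h * (2 * h) ^ M * ‖y‖ := by
  have hV0 := hV.mono zero_le_one
  set T := proxStep G h y
  have key : ∀ k, ‖T^[k] y - T (T^[k] y)‖ ≤ (2 * h) ^ k * (2 * h * ‖y‖) := by
    intro k
    induction k with
    | zero =>
      have h1 := hV0.norm_grad_le zero_le_two y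
      rw [hG0, norm_zero, zero_add] at h1
      simp only [Function.iterate_zero_apply, T, proxStep, sub_sub_cancel, norm_smul,
        Real.norm_of_nonneg hh.le, pow_zero, one_mul]
      nlinarith
    | succ k ih =>
      rw [Function.iterate_succ_apply']
      have e : T (T^[k] y) - T (T (T^[k] y)) = h • (G (T (T^[k] y)) - G (T^[k] y)) := by
        simp only [T, proxStep]
        module
      rw [e, norm_smul, Real.norm_of_nonneg hh.le]
      have h1 := hV0.norm_grad_sub zero_le_two (T (T^[k] y)) (T^[k] y)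
      rw [norm_sub_rev (T (T^[k] y))] at h1
      calc h * ‖G (T (T^[k] y)) - G (T^[k] y)‖ ≤ h * (2 * ((2 * h) ^ k * (2 * h * ‖y‖))) := by
            exact mul_le_mul_of_nonneg_left (h1.trans (by linarith)) hh.le
        _ = _ := by ring
  have e : whG G h y (centre G h M y) 0 = (√h / h) • (T^[M] y - T (T^[M] y)) := by
    simp only [whG, centre, smul_zero, add_zero]
    simp only [T, proxStep, smul_sub, smul_smul, div_mul_cancel₀ _ hh.ne']
    module
  rw [e, norm_smul, Real.norm_of_nonneg (by positivity)]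
  calc √h / h * ‖T^[M] y - T (T^[M] y)‖ ≤ √h / h * ((2 * h) ^ M * (2 * h * ‖y‖)) := by
        gcongr
        exact key M
    _ = _ := by field_simp

/-- The oracle law in whitened coordinates. -/
theorem rgo_whiten (hV : IsPot V G H 1 2) {h : ℝ} (hh : 0 < h) (y x : Sp d) :
    rgo V h y = (gibbs (whW V h y x)).map fun z => x + √h • z := by
  have hVc : Continuous V := continuous_iff_continuousAt.2 fun z => (hV.hasGrad z).continuousAt
  have hs : √h * (√h)⁻¹ = 1 := mul_inv_cancel₀ (Real.sqrt_ne_zero'.2 hh)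
  set c : Sp d := (√h)⁻¹ • (x - y) with hc
  have e1 : ∀ z, y + √h • (z + c) = x + √h • z := by
    intro z
    rw [hc, smul_add, smul_smul, hs]
    module
  have hint : Integrable (fun z => exp ⟪c, z⟫) (gd d) :=
    (lip_exp (innerSL ℝ c).contDiff (L := ‖c‖) fun z => by
      rw [(innerSL ℝ c).fderiv, innerSL_apply_norm]).2.1
  have key : (gibbs (whW V h y x)).map (fun z => z + c) = gibbs fun z => V (y + √h • z) := by
    let g : Sp d → ℝ := fun z => -V (y + √h • z) - ⟪c, z⟫ + ‖x - y‖ ^ 2 / h
    have e2 : (fun z => -whW V h y x z) = fun z => g (z + c) := by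
      funext z
      have hn : ‖c‖ ^ 2 = ‖x - y‖ ^ 2 / h := by
        rw [hc, norm_smul, mul_pow, Real.norm_eq_abs, sq_abs, inv_pow, Real.sq_sqrt hh.le,
          inv_mul_eq_div]
      simp only [g, e1]
      rw [whW, inner_add_right, real_inner_self_eq_norm_sq, hn, hc, real_inner_smul_left,
        real_inner_smul_right, mul_div_right_comm, Real.sqrt_div_self]
      ring
    rw [gibbs, e2, map_tilted (measurable_add_const c) (by fun_prop), gauss_translate,
      tilted_tilted hint]
    have e3 : (fun z => ⟪c, z⟫) + g = fun z => -V (y + √h • z) + ‖x - y‖ ^ 2 / h := by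
      funext z
      simp only [g, Pi.add_apply]
      ring
    rw [e3, tilted_add_const]
    rfl
  rw [rgo, ← key, Measure.map_map (by fun_prop) (by fun_prop)]
  exact congrArg (Measure.map · _) (funext e1)

theorem halfLaw_whiten (hV : IsPot V G H 1 2) {h : ℝ} (hh : 0 < h) (y x : Sp d) :
    halfLaw V h y =
      ((gibbs (whW V h y x)).prod (gd d)).map fun p => x + √h • (p.1 + √(1 / 2) • p.2) := by
  have := isProb_gibbs (isPot_whW hV hh y x) le_rfl
  rw [halfLaw, rgo_whiten hV hh y x]
  conv_lhs => rw [← Measure.map_id (μ := gd d)]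
  rw [Measure.map_prod_map _ _ (by fun_prop) measurable_id,
    Measure.map_map (by fun_prop) (by fun_prop)]
  refine congrArg (Measure.map · _) (funext fun p => ?_)
  simp only [Function.comp_apply, Prod.map, id_eq, div_eq_mul_inv, Real.sqrt_mul hh.le, one_mul]
  module

end Vale.Agent.P347.Quarter
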