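import Vale.Agent.P347.Quarter.Step
import Vale.Agent.P347.Quarter.Whiten

/-!
# P347: the algorithm as operators on observables

`n` approximate proximal steps at step size `h`, then `K` halvings by the same half step, then one
Gaussian draw at the centre.
-/

open MeasureTheory ProbabilityTheory Real
open scoped RealInnerProductSpace

namespace Vale.Agent.P347.Quarter

variable {d N : ℕ}

/-- The two quadrature rules of one step. -/
structure Rule (N : ℕ) where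
  /-- weights of the first rule -/
  w₀ : Fin N → ℝ
  /-- nodes of the first rule -/
  v₀ : Fin N → ℝ
  /-- weights of the second rule -/
  w₁ : Fin N → ℝ
  /-- nodes of the second rule -/
  v₁ : Fin N → ℝ

/-- The rules have mass at most `C` and error at most `εq` on whitened potentials. -/
structure IsRule (d : ℕ) (C h εq : ℝ) (r : Rule N) : Prop where
  node₀ : ∀ j, 0 ≤ r.v₀ j ∧ r.v₀ j ≤ 1
  node₁ : ∀ j, 0 ≤ r.v₁ j ∧ r.v₁ j ≤ 1
  sum₀ : ∑ j, |r.w₀ j| ≤ C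
  sum₁ : ∑ j, |r.w₁ j| ≤ C
  mass : |∑ j, r.w₀ j - kap0| * (2 * h * √d) ≤ εq
  err₀ : ∀ {W : Sp d → ℝ} {G : Sp d → Sp d} {H : Sp d → Sp d →L[ℝ] Sp d},
    IsPot W G H 0 (2 * h) → ‖G 0‖ ≤ 2 * h * √d →
      ∫ x, ‖flow kap0 G x - qflow r.w₀ r.v₀ G x‖ ^ 2 ∂gd d ≤ εq ^ 2
  err₁ : ∀ {W : Sp d → ℝ} {G : Sp d → Sp d} {H : Sp d → Sp d →L[ℝ] Sp d},
    IsPot W G H 0 (2 * h) → ‖G 0‖ ≤ 2 * h * √d →
      ∫ x, ‖flow (1 - 2 * h) G x - qflow r.w₁ r.v₁ G x‖ ^ 2 ∂gd d ≤ εq ^ 2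

/-- The error of one step in chi square. -/
noncomputable def stepErr (d : ℕ) (h εq : ℝ) : ℝ :=
  √((2 * h) ^ 2 + (2 * h) ^ 4 * d + εq ^ 2 + meanErr d (2 * h) (2 * h) εq ^ 2)

/-- The error of `n` steps. -/
noncomputable def chainErr (d : ℕ) (h εq : ℝ) (n : ℕ) : ℝ :=
  stepErr d h εq * (log ((n:ℝ) + 2) + √(n * h * log ((n:ℝ) + 2))) +
    meanErr d (2 * h) (2 * h) εq * √n

/-- One half step around the centre. -/
noncomputable def halfStep (r : Rule N) (G : Sp d → Sp d) (h : ℝ) (M : ℕ) (p : Seed d)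
    (y : Sp d) : Sp d :=
  centre G h M y + √h • stepZ r.w₀ r.v₀ r.w₁ r.v₁ (2 * h) (whG G h y (centre G h M y)) p

/-- The half step on observables. -/
noncomputable def stageOp (r : Rule N) (G : Sp d → Sp d) (h : ℝ) (M : ℕ) (g : Sp d → ℝ)
    (y : Sp d) : ℝ :=
  ∫ p, g (halfStep r G h M p y) ∂seedGam d

/-- The last draw on observables. -/
noncomputable def lastOp (G : Sp d → Sp d) (h : ℝ) (M : ℕ) (g : Sp d → ℝ) (y : Sp d) : ℝ :=
  ∫ ξ, g (centre G h M y + √h • ξ) ∂gd d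

/-- `K` halvings, then the last draw. -/
noncomputable def cascade (G : Sp d → Sp d) (M : ℕ) :
    (ℕ → Rule N) → ℝ → ℕ → (Sp d → ℝ) → Sp d → ℝ
  | _, h, 0, f => lastOp G h M f
  | r, h, K + 1, f => stageOp (r 0) G h M (cascade G M (fun k => r (k + 1)) (h / 2) K f)

/-- The whole algorithm on observables. -/
noncomputable def algoOp (G : Sp d → Sp d) (M : ℕ) (r : ℕ → Rule N) (h : ℝ) (n K : ℕ)
    (f : Sp d → ℝ) : ℝ :=
  (approx (seedGam d) h (halfStep (r 0) G h M))^[n] (cascade G M r h K f) 0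

end Vale.Agent.P347.Quarter
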