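import Vale.Agent.P347.Quarter.Defs

/-! # P347: blocks of a Gaussian vector -/

open MeasureTheory ProbabilityTheory Real WithLp
open scoped RealInnerProductSpace

namespace Vale.Agent.P347.Quarter

variable {α β : Type} [Fintype α] [Fintype β]

/-- The first block. -/
noncomputable def fstB : Eu (α ⊕ β) →L[ℝ] Eu α :=
  LinearMap.toContinuousLinearMap
    { toFun := fun x => toLp 2 fun a => x (Sum.inl a)
      map_add' := fun x y => by ext a; simp
      map_smul' := fun c x => by ext a; simp }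

/-- The second block. -/
noncomputable def sndB : Eu (α ⊕ β) →L[ℝ] Eu β :=
  LinearMap.toContinuousLinearMap
    { toFun := fun x => toLp 2 fun a => x (Sum.inr a)
      map_add' := fun x y => by ext a; simp
      map_smul' := fun c x => by ext a; simp }

lemma fstB_apply (x : Eu (α ⊕ β)) (a : α) : fstB x a = x (Sum.inl a) := by simp [fstB]

lemma sndB_apply (x : Eu (α ⊕ β)) (b : β) : sndB x b = x (Sum.inr b) := by simp [sndB]

lemma norm_sq_split (x : Eu (α ⊕ β)) : ‖fstB x‖ ^ 2 + ‖sndB x‖ ^ 2 = ‖x‖ ^ 2 := by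
  simp only [EuclideanSpace.norm_sq_eq, fstB_apply, sndB_apply, Fintype.sum_sum_type]

lemma norm_fstB_le (x : Eu (α ⊕ β)) : ‖fstB x‖ ≤ ‖x‖ :=
  abs_le_of_sq_le_sq' (by linarith [norm_sq_split x, sq_nonneg ‖sndB x‖]) (norm_nonneg _) |>.2

lemma norm_sndB_le (x : Eu (α ⊕ β)) : ‖sndB x‖ ≤ ‖x‖ :=
  abs_le_of_sq_le_sq' (by linarith [norm_sq_split x, sq_nonneg ‖fstB x‖]) (norm_nonneg _) |>.2

lemma fstB_opNorm : ‖(fstB : Eu (α ⊕ β) →L[ℝ] Eu α)‖ ≤ 1 :=
  ContinuousLinearMap.opNorm_le_bound _ zero_le_one fun x => by simpa using norm_fstB_le x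

lemma sndB_opNorm : ‖(sndB : Eu (α ⊕ β) →L[ℝ] Eu β)‖ ≤ 1 :=
  ContinuousLinearMap.opNorm_le_bound _ zero_le_one fun x => by simpa using norm_sndB_le x

/-- The blocks are independent standard vectors. -/
theorem gam_split :
    MeasurePreserving (fun x : Eu (α ⊕ β) => (fstB x, sndB x)) (gam (α ⊕ β))
      ((gam α).prod (gam β)) := by
  refine ⟨by fun_prop, ?_⟩
  have h := (measurePreserving_sumPiEquivProdPi fun _ : α ⊕ β => gaussianReal 0 1).map_eq
  rw [gam, gam, gam, ← map_pi_eq_stdGaussian, ← map_pi_eq_stdGaussian, ← map_pi_eq_stdGaussian,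
    Measure.map_prod_map _ _ (by fun_prop) (by fun_prop), ← h,
    Measure.map_map (by fun_prop) (MeasurableEquiv.measurable _),
    Measure.map_map (by fun_prop) (by fun_prop)]
  refine Measure.map_congr (Filter.Eventually.of_forall fun x => ?_)
  refine Prod.ext ?_ ?_
  · ext a; simp [fstB_apply, MeasurableEquiv.sumPiEquivProdPi, Equiv.sumPiEquivProdPi]
  · ext a; simp [sndB_apply, MeasurableEquiv.sumPiEquivProdPi, Equiv.sumPiEquivProdPi]

theorem gam_fstB : MeasurePreserving (fstB : Eu (α ⊕ β) → Eu α) (gam (α ⊕ β)) (gam α) :=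
  measurePreserving_fst.comp gam_split

theorem gam_sndB : MeasurePreserving (sndB : Eu (α ⊕ β) → Eu β) (gam (α ⊕ β)) (gam β) :=
  measurePreserving_snd.comp gam_split

end Vale.Agent.P347.Quarter
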