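import Vale.Agent.P347.Quarter.Chain.Tail
import Vale.Agent.P347.Quarter.Chain.Telescope

/-! # P347: the proximal chain and the weighted telescope -/

open MeasureTheory ProbabilityTheory Real Filter
open scoped RealInnerProductSpace

namespace Vale.Agent.P347.Quarter

variable {d : ℕ} {V : Sp d → ℝ} {G : Sp d → Sp d} {H : Sp d → Sp d →L[ℝ] Sp d}

/-- The target law. -/
noncomputable def piLaw (V : Sp d → ℝ) : Measure (Sp d) := gibbs fun x => V x - ‖x‖ ^ 2 / 2

theorem isProb_rgo (hV : IsPot V G H 1 2) {h : ℝ} (hh : 0 ≤ h) (y : Sp d) :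
    IsProbabilityMeasure (rgo V h y) ∧ IsProbabilityMeasure (halfLaw V h y) ∧
      IsProbabilityMeasure (piLaw V) := by
  exact ⟨isProb_rgo' hV hh y, isProb_halfLaw hV hh y, isProb_gibbs (isPot_piW hV) le_rfl⟩

/-- Integrals against the target. -/
lemma integral_piLaw (_ : IsPot V G H 1 2) (g : Sp d → ℝ) :
    ∫ x, g x ∂piLaw V = (∫ x, g x * exp (-V x)) / ∫ x, exp (-V x) := by
  rw [piLaw, gibbs, integral_tilted]
  simp only [smul_eq_mul, div_mul_eq_mul_div, integral_div]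
  rw [integral_gam, integral_gam]
  simp only [← mul_assoc, gdensity_mul_piW]
  simp only [mul_assoc, integral_const_mul, mul_comm (exp _) (g _)]
  exact mul_div_mul_left _ _ (by positivity)

/-- The target is the normalised exponential of `-V`. -/
theorem piLaw_apply (hV : IsPot V G H 1 2) {B : Set (Sp d)} (hB : MeasurableSet B) :
    (piLaw V).real B = (∫ x in B, exp (-V x)) / ∫ x, exp (-V x) := by
  rw [← integral_indicator hB, ← setIntegral_one_eq_measureReal, ← integral_indicator hB,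
    integral_piLaw hV]
  congr 1
  refine integral_congr_ae (Eventually.of_forall fun x => ?_)
  by_cases hx : x ∈ B <;> simp [hx]

/-- One backward step maps the smoothed target to the target. -/
theorem rgo_invariant (hV : IsPot V G H 1 2) {h : ℝ} (hh : 0 < h) {g : Sp d → ℝ}
    (hg : Measurable g) (hb : ∀ x, |g x| ≤ 1) :
    ∫ x, fwd h (fun y => ∫ u, g u ∂rgo V h y) x ∂piLaw V = ∫ x, g x ∂piLaw V := by
  obtain ⟨M, hM⟩ : ∃ M, ∀ x, |g x| ≤ M := ⟨1, hb⟩
  have hgb : Bdd g := ⟨hg, M, hM⟩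
  obtain ⟨hi0, -, -⟩ := integrable_exp_neg_pot hV
  set K : ℝ := (√(2 * π))⁻¹ ^ d * |((√h) ^ d)⁻¹| with hK
  -- the forward step as a density
  have hfwd : ∀ (q : Sp d → ℝ) (x : Sp d), fwd h q x =
      K * ∫ y, q y * exp (-(‖x - y‖ ^ 2 / (2 * h))) := by
    intro q x
    have e : ∀ w : Sp d, gdensity w * q (x + √h • w) = (√(2 * π))⁻¹ ^ d *
        (fun v => q (x + v) * exp (-(‖x - (x + v)‖ ^ 2 / (2 * h)))) (√h • w) := by
      intro w
      simp only [gdensity, Fintype.card_fin, sub_add_cancel_left, norm_neg, norm_smul, mul_pow,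
        norm_eq_abs, sq_abs, Real.sq_sqrt hh.le]
      rw [show -(h * ‖w‖ ^ 2 / (2 * h)) = -(1 / 2) * ‖w‖ ^ 2 by field_simp]
      ring
    rw [fwd_eq, integral_gam, integral_congr_ae (Eventually.of_forall e), integral_const_mul,
      Measure.integral_comp_smul volume (fun v => q (x + v) * exp (-(‖x - (x + v)‖ ^ 2 / (2 * h)))),
      integral_add_left_eq_self (fun y => q y * exp (-(‖x - y‖ ^ 2 / (2 * h)))),
      finrank_euclideanSpace_fin, smul_eq_mul, hK, mul_assoc]
  have hZ : 0 < ∫ x, exp (-V x) :=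
    integral_pos_of_integrable_nonneg_nonzero (x := 0) (Real.continuous_exp.comp
      hV.continuous_pot.neg) hi0 (fun x => (exp_pos _).le) (exp_pos _).ne'
  set Φ := fun y => ∫ u, g u ∂rgo V h y with hΦ
  obtain ⟨hΦm, N, hN⟩ : Bdd Φ := (markov_qop hV hh).bdd hgb
  -- both orders of integration
  have hw : ∀ x y : Sp d, exp (-V x) * exp (-(‖x - y‖ ^ 2 / (2 * h))) = wgt V h y x :=
    fun x y => by rw [← exp_add, wgt]; congr 1
  have hcw : Continuous fun p : Sp d × Sp d => wgt V h p.2 p.1 := by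
    have := hV.continuous_pot
    unfold wgt
    fun_prop
  have hgauss : ∀ x : Sp d, ∫ y, exp (-(‖x - y‖ ^ 2 / (2 * h))) = K⁻¹ := by
    intro x
    have := hfwd (fun _ => 1) x
    simp only [one_mul, fwd_eq, integral_const, probReal_univ, one_smul] at this
    exact eq_inv_of_mul_eq_one_right this.symm
  have hint : Integrable (fun p : Sp d × Sp d => wgt V h p.2 p.1) := by
    refine (integrable_prod_iff hcw.aestronglyMeasurable).2
      ⟨Eventually.of_forall fun x => ?_, (hi0.const_mul K⁻¹).congr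
        (Eventually.of_forall fun x => ?_)⟩
    · have h1 : Integrable fun y => exp (-(‖x - y‖ ^ 2 / (2 * h))) :=
        Classical.byContradiction fun hc => by
          have h2 := hgauss x
          rw [integral_undef hc] at h2
          have : K⁻¹ ≠ 0 := by positivity
          exact this h2.symm
      exact (h1.const_mul (exp (-V x))).congr (Eventually.of_forall fun y => hw x y)
    · calc K⁻¹ * exp (-V x) = ∫ y, exp (-V x) * exp (-(‖x - y‖ ^ 2 / (2 * h))) := by
            rw [integral_const_mul, hgauss, mul_comm]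
        _ = _ := integral_congr_ae (Eventually.of_forall fun y => by
            simp only [hw, Real.norm_of_nonneg (wgt_pos h y x).le])
  have hint2 : Integrable (fun p : Sp d × Sp d => Φ p.2 * wgt V h p.2 p.1) :=
    hint.bdd_mul (hΦm.comp measurable_snd).aestronglyMeasurable (Eventually.of_forall fun p => hN _)
  have hint3 : Integrable (fun p : Sp d × Sp d => g p.1 * wgt V h p.2 p.1) :=
    hint.bdd_mul (hg.comp measurable_fst).aestronglyMeasurable (Eventually.of_forall fun p => hM _)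
  have hpt : ∀ y, Φ y * (∫ x, wgt V h y x) = ∫ x, g x * wgt V h y x := fun y => by
    rw [hΦ]
    simp only [integral_rgo hh y hg]
    exact div_mul_cancel₀ _ (norm_wgt_integral_pos hV hh y).ne'
  rw [integral_piLaw hV, integral_piLaw hV]
  congr 1
  calc ∫ x, fwd h Φ x * exp (-V x) = K * ∫ x, ∫ y, Φ y * wgt V h y x := by
        rw [← integral_const_mul]
        refine integral_congr_ae (Eventually.of_forall fun x => ?_)
        simp only [hfwd, ← hw, mul_assoc, ← integral_mul_const]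
        congr 1
        exact integral_congr_ae (Eventually.of_forall fun y => by ring)
    _ = K * ∫ x, ∫ y, g x * wgt V h y x := by
        congr 1
        rw [integral_integral_swap (f := fun x y => Φ y * wgt V h y x) hint2,
          integral_integral_swap (f := fun x y => g x * wgt V h y x) hint3]
        exact integral_congr_ae (Eventually.of_forall fun y => by
          simp only [integral_const_mul, hpt])
    _ = ∫ x, g x * exp (-V x) := by
        simp only [← hw, integral_const_mul, hgauss, ← mul_assoc, integral_mul_const]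
        have : K ≠ 0 := by positivity
        field_simp

/-- Iterating contracts gradients. -/
lemma prox_iter_grad (hV : IsPot V G H 1 2) {h : ℝ} (hh : 0 < h) {f : Sp d → ℝ} (hf : Bdd f)
    {M : ℝ} (hM : ∀ x, |f x| ≤ M) : ∀ i : ℕ, Bdd ((prox V h)^[i + 1] f) ∧
      ContDiff ℝ 1 ((prox V h)^[i + 1] f) ∧
      ∀ x, ‖fderiv ℝ ((prox V h)^[i + 1] f) x‖ ≤ M / √h * (1 + h)⁻¹ ^ i := by
  have hP := markov_prox hV hh
  have hM0 : 0 ≤ M := (abs_nonneg _).trans (hM 0)
  have hs : 0 < √h := Real.sqrt_pos.2 hh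
  have hc : ∀ {q : Sp d → ℝ}, Bdd q → ContDiff ℝ 1 (prox V h q) := fun hq =>
    (qop_deriv hV hh ((markov_fwd h).bdd hq)).1
  intro i
  induction i with
  | zero =>
    refine ⟨hP.bdd hf, hc hf, fun x => ?_⟩
    have h1 := gsq_prox_le hV hh hf x
    have h2 := hP.mono hf.sq (bdd_const (M ^ 2))
      (fun z => by rw [← sq_abs]; exact pow_le_pow_left₀ (abs_nonneg _) (hM z) 2) x
    rw [hP.const] at h2
    rw [pow_zero, mul_one, le_div_iff₀ hs]
    refine (abs_le_of_sq_le_sq' ?_ hM0).2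
    rw [mul_pow, Real.sq_sqrt hh.le]
    simp only [gsq] at h1
    simp only [zero_add, Function.iterate_one]
    nlinarith [sq_nonneg (prox V h f x)]
  | succ i ih =>
    obtain ⟨hb, hd, hL⟩ := ih
    rw [Function.iterate_succ_apply' (prox V h) (i + 1) f]
    refine ⟨hP.bdd hb, hc hb, fun x => ?_⟩
    have h1 := gsq_prox_contract hV hh hb hd hL x
    have hL0 : 0 ≤ M / √h * (1 + h)⁻¹ ^ i := by positivity
    have h2 := hP.mono (bdd_gsq hd hL) (bdd_const ((M / √h * (1 + h)⁻¹ ^ i) ^ 2))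
      (fun z => pow_le_pow_left₀ (norm_nonneg _) (hL z) 2) x
    rw [hP.const] at h2
    rw [pow_succ, ← mul_assoc, ← div_eq_mul_inv _ (1 + h), le_div_iff₀ (by linarith)]
    refine (abs_le_of_sq_le_sq' ?_ hL0).2
    simp only [gsq] at h1
    linarith [mul_pow ‖fderiv ℝ (prox V h ((prox V h)^[i + 1] f)) x‖ (1 + h) 2]

/-- The target is invariant under the proximal chain. -/
lemma prox_invariant (hV : IsPot V G H 1 2) {h : ℝ} (hh : 0 < h) {f : Sp d → ℝ}
    (hf : Measurable f) (hb : ∀ x, |f x| ≤ 1) : ∀ n : ℕ,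
    ∫ x, fwd h ((prox V h)^[n] f) x ∂piLaw V = ∫ x, fwd h f x ∂piLaw V
  | 0 => rfl
  | n + 1 => by
    have hP := markov_prox hV hh
    have hB : Bdd f := ⟨hf, 1, hb⟩
    have h1 : ∀ {T : (Sp d → ℝ) → Sp d → ℝ}, Markov T → ∀ y, |T f y| ≤ 1 := fun hT y =>
      (hT.abs_le hB (bdd_const 1) hb y).trans_eq (hT.const 1 y)
    rw [Function.iterate_succ_apply',
      ← prox_invariant hV hh hf hb n]
    exact rgo_invariant hV hh ((markov_fwd h).bdd ((hP.iterate n).bdd hB)).1
      (h1 ((markov_fwd h).comp (hP.iterate n)))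

lemma piLaw_second_moment (hV : IsPot V G H 1 2) (hG0 : G 0 = 0) :
    Integrable (fun x => ‖x‖ ^ 2) (piLaw V) ∧ ∫ x, ‖x‖ ^ 2 ∂piLaw V ≤ d := by
  have hW := isPot_piW hV
  obtain ⟨i2, -, i3, hvir⟩ := gibbs_virial hW le_rfl (A := 0) (B := 1) fun z => by
    have h1 := hW.norm_grad_le zero_le_one z
    simp only [hG0, sub_zero, norm_zero, zero_add] at h1
    simpa using h1
  refine ⟨i2, ?_⟩
  have h0 : 0 ≤ ∫ z, ⟪z, G z - z⟫ ∂piLaw V := integral_nonneg fun z => by
    have := inner_grad_ge hV hG0 z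
    simp only [Pi.zero_apply]
    rw [inner_sub_right, real_inner_self_eq_norm_sq]
    linarith [real_inner_comm (G z) z]
  unfold piLaw at h0 ⊢
  linarith

lemma fwd_norm_sq {h : ℝ} (hh : 0 ≤ h) (x : Sp d) :
    Integrable (fun w => ‖x + √h • w‖ ^ 2) (gd d) ∧
      fwd h (fun z => ‖z‖ ^ 2) x = ‖x‖ ^ 2 + h * d := by
  obtain ⟨i2, e2⟩ := integral_norm_sq (ι := Fin d)
  have hid : Integrable (fun w : Sp d => w) (gd d) := IsGaussian.integrable_id
  have i1 : Integrable (fun w => 2 * √h * ⟪x, w⟫) (gd d) :=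
    ((innerSL ℝ x).integrable_comp hid).const_mul _
  have e : (fun w => ‖x + √h • w‖ ^ 2) = fun w => (‖x‖ ^ 2 + 2 * √h * ⟪x, w⟫) + h * ‖w‖ ^ 2 := by
    funext w
    rw [norm_add_sq_real, real_inner_smul_right, norm_smul, mul_pow, norm_eq_abs, sq_abs,
      Real.sq_sqrt hh]
    ring
  have j1 : Integrable (fun w => ‖x‖ ^ 2 + 2 * √h * ⟪x, w⟫) (gd d) :=
    (integrable_const _).add i1
  refine ⟨e ▸ j1.add (i2.const_mul h), ?_⟩
  have hz : ∫ w, ⟪x, w⟫ ∂gd d = 0 := by
    have := (innerSL ℝ x).integral_comp_comm hid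
    simp only [innerSL_apply_apply] at this
    rw [this]
    simp [integral_id_stdGaussian, gam]
  rw [fwd_eq, e, integral_add j1 (i2.const_mul h), integral_add (integrable_const _) i1,
    integral_const_mul, integral_const_mul, hz, e2]
  simp

/-- A quadratic bound goes through the forward step. -/
lemma fwd_le_quad {h : ℝ} (hh : 0 ≤ h) {g : Sp d → ℝ} (hg : Bdd g) {a b : ℝ}
    (hq : ∀ x, g x ≤ a + b * ‖x‖ ^ 2) (x : Sp d) :
    fwd h g x ≤ a + b * (‖x‖ ^ 2 + h * d) := by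
  obtain ⟨i, e⟩ := fwd_norm_sq hh x
  rw [fwd_eq] at e
  obtain ⟨M, hM⟩ := hg.2
  rw [fwd_eq, ← e]
  refine (integral_mono (.of_bound (hg.1.comp (by fun_prop)).aestronglyMeasurable M
    (Eventually.of_forall fun w => hM _)) ((integrable_const a).add (i.const_mul b))
    fun w => hq _).trans_eq ?_
  rw [integral_add' (integrable_const a) (i.const_mul b), integral_const_mul]
  simp

lemma prox_iter_quad (hV : IsPot V G H 1 2) (hG0 : G 0 = 0) {h : ℝ} (hh : 0 < h)
    (hh4 : h ≤ 1 / 4) : ∀ (n : ℕ) {g : Sp d → ℝ}, Bdd g → ∀ {a b : ℝ}, 0 ≤ b →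
      (∀ x, g x ≤ a + b * ‖x‖ ^ 2) → ∀ y, (prox V h)^[n] g y ≤ a + b * (‖y‖ ^ 2 + 3 * d) := by
  intro n
  induction n with
  | zero =>
    intro g _ a b hb hq y
    simp only [Function.iterate_zero_apply]
    have : 0 ≤ b * (3 * d) := by positivity
    linarith [hq y]
  | succ n ih =>
    intro g hg a b hb hq y
    rw [Function.iterate_succ_apply]
    have h0 : 0 < 1 + 2 * h := by linarith
    have h1 : ∀ x, prox V h g x ≤ (a + 3 * h * d * b) + b / (1 + 2 * h) * ‖x‖ ^ 2 := by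
      intro x
      obtain ⟨i2, e2⟩ := rgo_second_moment hV hG0 hh x
      have := isProb_rgo' hV hh.le x
      have i3 : Integrable (fun u => (a + b * (h * d)) + b * ‖u‖ ^ 2) (rgo V h x) :=
        (integrable_const _).add (i2.const_mul b)
      have h3 : prox V h g x ≤ (a + b * (h * d)) + b * ∫ u, ‖u‖ ^ 2 ∂rgo V h x := by
        refine (integral_mono (((markov_fwd h).bdd hg).integrable _) i3
          fun u => (fwd_le_quad hh.le hg hq u).trans_eq (by ring)).trans_eq ?_
        rw [integral_add (integrable_const _) (i2.const_mul b), integral_const_mul]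
        simp
      have h4 : 2 * h * d / (1 + 2 * h) ≤ 2 * h * d :=
        div_le_self (by positivity) (by linarith)
      rw [add_div] at e2
      have h5 := mul_le_mul_of_nonneg_left (e2.trans (add_le_add_left h4 _)) hb
      linarith [show b * (‖x‖ ^ 2 / (1 + 2 * h)) = b / (1 + 2 * h) * ‖x‖ ^ 2 by ring]
    refine (ih ((markov_prox hV hh).bdd hg) (div_nonneg hb h0.le) h1 y).trans ?_
    have h6 : b / (1 + 2 * h) ≤ b := div_le_self hb (by linarith)
    have h7 := mul_le_mul_of_nonneg_right h6 (sq_nonneg ‖y‖)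
    have h8 : h + 1 / (1 + 2 * h) ≤ 1 := by
      rw [← le_sub_iff_add_le', div_le_iff₀ h0]
      nlinarith
    have h9 := mul_le_mul_of_nonneg_left h8 (by positivity : 0 ≤ 3 * (d : ℝ) * b)
    linarith [show b / (1 + 2 * h) * (3 * (d : ℝ)) = 3 * (d : ℝ) * b * (1 / (1 + 2 * h)) by ring]

/-- Mixing from the origin. -/
theorem prox_mixing : ∃ C : ℝ, 0 ≤ C ∧ ∀ {d : ℕ} {V : Sp d → ℝ} {G : Sp d → Sp d}
    {H : Sp d → Sp d →L[ℝ] Sp d}, IsPot V G H 1 2 → G 0 = 0 → ∀ {h : ℝ}, 0 < h → h ≤ 1 / 4 →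
    ∀ {f : Sp d → ℝ}, Measurable f → (∀ x, |f x| ≤ 1) → ∀ n : ℕ, 1 ≤ n →
      |(prox V h)^[n] f 0 - ∫ x, fwd h f x ∂piLaw V| ≤
        C * √((d : ℝ) / h) * (1 + h)⁻¹ ^ (n - 1) := by
  refine ⟨2, by norm_num, fun {d V G H} hV hG0 {h} hh hh4 {f} hf hb n hn => ?_⟩
  obtain ⟨i, rfl⟩ : ∃ i, n = i + 1 := ⟨n - 1, by omega⟩
  simp only [Nat.add_sub_cancel]
  have := isProb_gibbs (isPot_piW hV) le_rfl
  have hprob : IsProbabilityMeasure (piLaw V) := this
  obtain ⟨hu, hu1, huL⟩ := prox_iter_grad hV hh (⟨hf, 1, hb⟩ : Bdd f) hb i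
  set u := (prox V h)^[i + 1] f
  set L := 1 / √h * (1 + h)⁻¹ ^ i with hL
  have hL0 : 0 ≤ L := by rw [hL]; positivity
  have hlip : ∀ x, |u 0 - u x| ≤ L * ‖x‖ := fun x => by
    have h1 := Convex.norm_image_sub_le_of_norm_fderiv_le
      (fun z _ => hu1.differentiable one_ne_zero z) (fun z _ => huL z) convex_univ
      (Set.mem_univ x) (Set.mem_univ 0)
    simpa using h1
  rw [← prox_invariant hV hh hf hb (i + 1)]
  obtain ⟨i2, e2⟩ := piLaw_second_moment hV hG0
  set s : ℝ := √((d : ℝ) + h * d) with hs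
  have hd0 : (0 : ℝ) ≤ d := Nat.cast_nonneg d
  -- `‖x‖ ≤ ε ‖x‖² + 1/(4ε)`
  have key : ∀ ε : ℝ, 0 < ε → |u 0 - ∫ x, fwd h u x ∂piLaw V| ≤
      L * (1 / (4 * ε) + ε * (d + h * d)) := by
    intro ε hε
    have hq : ∀ x, |u 0 - u x| ≤ L / (4 * ε) + L * ε * ‖x‖ ^ 2 := fun x => by
      refine (hlip x).trans ?_
      have h1 : ‖x‖ ≤ 1 / (4 * ε) + ε * ‖x‖ ^ 2 := by
        have h2 : 4 * ε * ‖x‖ ≤ 1 + 4 * ε ^ 2 * ‖x‖ ^ 2 := by nlinarith [sq_nonneg (2 * ε * ‖x‖ - 1)]
        rw [show 1 / (4 * ε) + ε * ‖x‖ ^ 2 = (1 + 4 * ε ^ 2 * ‖x‖ ^ 2) / (4 * ε) by field_simp,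
          le_div_iff₀ (by positivity)]
        linarith
      exact (mul_le_mul_of_nonneg_left h1 hL0).trans_eq (by ring)
    have hw : Bdd fun x => |u 0 - u x| := ((bdd_const _).sub hu).abs
    have h3 := fwd_le_quad hh.le hw hq
    have e : u 0 - ∫ x, fwd h u x ∂piLaw V = ∫ x, (u 0 - fwd h u x) ∂piLaw V := by
      rw [integral_sub (integrable_const _) (((markov_fwd h).bdd hu).integrable _)]
      simp
    have i3 : Integrable (fun x => (L / (4 * ε) + L * ε * (h * d)) + L * ε * ‖x‖ ^ 2) (piLaw V) :=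
      (integrable_const _).add (i2.const_mul _)
    rw [e]
    refine (abs_integral_le_integral_abs).trans ((integral_mono
      (((bdd_const _).sub ((markov_fwd h).bdd hu)).abs.integrable _) i3 fun x => ?_).trans ?_)
    · refine le_trans ?_ ((h3 x).trans_eq (by ring))
      have h4 := (markov_fwd h).abs_le ((bdd_const (u 0)).sub hu) hw (fun z => le_rfl) x
      rwa [(markov_fwd h).sub (bdd_const _) hu, (markov_fwd h).const] at h4
    · rw [integral_add (integrable_const _) (i2.const_mul _), integral_const_mul]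
      simp only [integral_const, probReal_univ, one_smul]
      have h5 := mul_le_mul_of_nonneg_left e2 (mul_nonneg hL0 hε.le)
      linarith [show L / (4 * ε) = L * (1 / (4 * ε)) by ring]
  rcases Nat.eq_zero_or_pos d with rfl | hd
  · have hc : ∀ x : Sp 0, u x = u 0 := fun x => congrArg u (Subsingleton.elim x 0)
    have e : ∀ x, fwd h u x = u 0 := fun x => by rw [fwd_eq]; simp [hc]
    change |u 0 - ∫ x, fwd h u x ∂piLaw V| ≤ _
    simp [e]
  · have hd1 : (1 : ℝ) ≤ d := by exact_mod_cast hd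
    have hsd : 0 < √(d : ℝ) := by positivity
    refine (key (1 / (2 * √(d : ℝ))) (by positivity)).trans ?_
    rw [hL, show √((d : ℝ) / h) = √(d : ℝ) / √h from Real.sqrt_div hd0 h]
    have e4 : 1 / (4 * (1 / (2 * √(d : ℝ)))) + 1 / (2 * √(d : ℝ)) * (d + h * d) =
        √(d : ℝ) * (1 + h / 2) := by
      field_simp
      rw [Real.sq_sqrt hd0]
      ring
    rw [e4]
    have hsh : 0 < √h := Real.sqrt_pos.2 hh
    calc 1 / √h * (1 + h)⁻¹ ^ i * (√(d : ℝ) * (1 + h / 2))
        ≤ 1 / √h * (1 + h)⁻¹ ^ i * (√(d : ℝ) * 2) := by gcongr; linarith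
      _ = _ := by ring

/-- The chain and the target stay in polynomial balls. -/
theorem prox_tail : ∃ C : ℝ, 0 ≤ C ∧ ∀ {d : ℕ} {V : Sp d → ℝ} {G : Sp d → Sp d}
    {H : Sp d → Sp d →L[ℝ] Sp d}, 1 ≤ d → IsPot V G H 1 2 → G 0 = 0 →
    ∀ {h : ℝ}, 0 < h → h ≤ 1 / 4 → ∀ {R : ℝ}, 0 < R →
      (∀ n : ℕ, (prox V h)^[n] ({x | R ≤ ‖x‖}.indicator 1) 0 ≤ C * √d / R) ∧
        ∫ x, fwd h ({x | R ≤ ‖x‖}.indicator 1) x ∂piLaw V ≤ C * √d / R := by
  refine ⟨3, by norm_num, fun {d V G H} hd hV hG0 {h} hh hh4 {R} hR => ?_⟩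
  have hsd : 0 < √(d : ℝ) := Real.sqrt_pos.2 (by exact_mod_cast hd)
  have hdd : √(d : ℝ) * √(d : ℝ) = d := Real.mul_self_sqrt (Nat.cast_nonneg d)
  set ι : Sp d → ℝ := {x : Sp d | R ≤ ‖x‖}.indicator 1 with hι
  have hm : Measurable ι := measurable_one.indicator (measurableSet_le (by fun_prop) (by fun_prop))
  have hb : Bdd ι := ⟨hm, 1, fun x => by
    by_cases hx : x ∈ {x : Sp d | R ≤ ‖x‖} <;> simp [hι, hx]⟩
  set b : ℝ := 1 / (2 * R * √(d : ℝ)) with hb'
  have hb0 : 0 ≤ b := by rw [hb']; positivity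
  have hq : ∀ x, ι x ≤ b * d + b * ‖x‖ ^ 2 := by
    intro x
    by_cases hx : x ∈ {x : Sp d | R ≤ ‖x‖}
    · simp only [hι, Set.indicator_of_mem hx, Pi.one_apply]
      rw [← mul_add, hb', one_div_mul_eq_div, le_div_iff₀ (by positivity)]
      have hx' : R ≤ ‖x‖ := hx
      nlinarith [sq_nonneg (‖x‖ - √(d : ℝ)), mul_le_mul_of_nonneg_right hx' hsd.le]
    · simp only [hι, Set.indicator_of_notMem hx]
      positivity
  have hbd : b * (4 * d) ≤ 3 * √(d : ℝ) / R := by
    rw [hb', one_div_mul_eq_div, div_le_div_iff₀ (by positivity) hR]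
    nlinarith [mul_pos hR (mul_pos hsd hsd)]
  refine ⟨fun n => (prox_iter_quad hV hG0 hh hh4 n hb hb0 hq 0).trans ?_, ?_⟩
  · simp only [norm_zero]
    linarith
  · have := isProb_gibbs (isPot_piW hV) le_rfl
    have hprob : IsProbabilityMeasure (piLaw V) := this
    obtain ⟨i2, e2⟩ := piLaw_second_moment hV hG0
    have i3 : Integrable (fun x => (b * d + b * (h * d)) + b * ‖x‖ ^ 2) (piLaw V) :=
      (integrable_const _).add (i2.const_mul b)
    refine (integral_mono (((markov_fwd h).bdd hb).integrable _) i3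
      fun x => (fwd_le_quad hh.le hb hq x).trans_eq (by ring)).trans ?_
    rw [integral_add (integrable_const _) (i2.const_mul b), integral_const_mul]
    simp only [integral_const, probReal_univ, one_smul]
    nlinarith [mul_le_mul_of_nonneg_left e2 hb0, mul_nonneg hb0 (Nat.cast_nonneg (α := ℝ) d)]

/-- The telescope for bounded observables, by strong induction on the number of steps. -/
lemma chain_aux (hV : IsPot V G H 1 2) {h : ℝ} (hh : 0 < h) {Ω : Type} [MeasurableSpace Ω]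
    (P : Measure Ω) [IsProbabilityMeasure P] (z : Ω → Sp d → Sp d) {c m : ℝ}
    (hc : 0 ≤ c) (hm : 0 ≤ m) (hzm : Measurable (Function.uncurry z))
    (hφ : ∀ y, ∀ φ : Sp d → ℝ, Measurable φ → MemLp φ 2 (halfLaw V h y) →
      Integrable (fun ω => φ (z ω y)) P ∧
        |(∫ ω, φ (z ω y) ∂P) - ∫ x, φ x ∂halfLaw V h y| ≤
          c * √(∫ x, φ x ^ 2 ∂halfLaw V h y))
    (hz : ∀ y, ‖(∫ ω, z ω y ∂P) - ∫ x, x ∂rgo V h y‖ ≤ m) : ∀ n : ℕ,
      12 * (c * (log ((n:ℝ) + 2) + √(n * h * log ((n:ℝ) + 2))) + m * √((n:ℝ) / h)) ≤ 1 / 4 →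
      ∀ {f : Sp d → ℝ}, Bdd f → |(approx P h z)^[n] f 0 - (prox V h)^[n] f 0| ≤
          2 * 12 * (c * (log ((n:ℝ) + 2) + √(n * h * log ((n:ℝ) + 2))) + m * √((n:ℝ) / h)) *
            √((prox V h)^[n] (fun x => f x ^ 2) 0) := by
  intro n
  induction n using Nat.strong_induction_on with | _ n ih => ?_
  intro hyp f hf
  set S : ℕ → ℝ := fun n =>
    c * (log ((n:ℝ) + 2) + √(n * h * log ((n:ℝ) + 2))) + m * √((n:ℝ) / h) with hS
  have hA := markov_approx P hzm h
  have hK := markov_prox hV hh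
  have hl0 : ∀ k : ℕ, 0 ≤ log ((k:ℝ) + 2) := fun k =>
    Real.log_nonneg (by linarith [Nat.cast_nonneg (α := ℝ) k])
  have hS0 : ∀ k, 0 ≤ S k := fun k => by
    have := hl0 k
    simp only [hS]; positivity
  have hSmono : ∀ j, j ≤ n → S j ≤ S n := fun j hj => by
    have hj' : (j:ℝ) ≤ n := by exact_mod_cast hj
    have := hl0 j
    have h1 : log ((j:ℝ) + 2) ≤ log ((n:ℝ) + 2) := Real.log_le_log (by positivity) (by linarith)
    simp only [hS]; gcongr
  rcases Nat.eq_zero_or_pos n with rfl | hn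
  · simp only [Function.iterate_zero_apply, sub_self, abs_zero]
    exact mul_nonneg (mul_nonneg (by norm_num) (hS0 0)) (Real.sqrt_nonneg _)
  obtain ⟨M, hM⟩ := hf.2
  set g := fun i => (prox V h)^[i] f with hg
  have hgb : ∀ i, Bdd (g i) := fun i => (hK.iterate i).bdd hf
  have hgi := prox_iter_grad hV hh hf hM
  have hsucc : ∀ i, prox V h (g i) = g (i + 1) := fun i => (Function.iterate_succ_apply' _ i f).symm
  have cmp : ∀ j, j < n → ∀ {φ : Sp d → ℝ}, Bdd φ →
      (approx P h z)^[j] φ 0 ≤ 3 / 2 * √((prox V h)^[j] (fun x => φ x ^ 2) 0) := by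
    intro j hj φ hφb
    have hSj := hSmono j hj.le
    simp only [hS] at hSj
    have h1 := ih j hj (le_trans (mul_le_mul_of_nonneg_left hSj (by norm_num)) hyp) hφb
    have h2 := (hK.iterate j).abs_le_sqrt hφb 0
    have h3 := mul_le_mul_of_nonneg_right (show 2 * 12 * S j ≤ 1 / 2 by
      simp only [hS]; linarith) (Real.sqrt_nonneg ((prox V h)^[j] (fun x => φ x ^ 2) 0))
    simp only [hS] at h3
    linarith [le_abs_self ((approx P h z)^[j] φ 0 - (prox V h)^[j] φ 0),
      le_abs_self ((prox V h)^[j] φ 0)]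
  set F := (prox V h)^[n] (fun x => f x ^ 2) 0 with hFd
  have hF : 0 ≤ F := (hK.iterate n).nonneg hf.sq (fun x => sq_nonneg _) 0
  obtain ⟨N, rfl⟩ : ∃ N, n = N + 1 := ⟨n - 1, by omega⟩
  -- `B k` is the propagated squared gradient
  have hgsq : ∀ k, Bdd (gsq (g (k + 1))) := fun k => bdd_gsq (hgi k).2.1 (hgi k).2.2
  set B := fun k => (prox V h)^[N + 1 - (k + 1)] (gsq (g (k + 1))) 0 with hB
  have hB0 : ∀ k, 0 ≤ B k := fun k => (hK.iterate _).nonneg (hgsq k) (gsq_nonneg _) 0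
  have hBF : ∀ k, k ≤ N → ((k : ℝ) + 1) * h * B k ≤ F := by
    intro k hk
    have h0 := gsq_iter_le hV hh hf
      (fun i => ⟨_, (hgi i).2.1, (hgi i).2.2⟩) k
    have h1 := (hK.iterate (N + 1 - (k + 1))).mono ((hgsq k).const_mul (((k : ℝ) + 1) * h))
      ((hK.iterate (k + 1)).bdd hf.sq) (fun x => le_trans (le_add_of_nonneg_right (sq_nonneg _)) (h0 x)) 0
    rw [(hK.iterate _).smul (hgsq k), ← Function.iterate_add_apply,
      show N + 1 - (k + 1) + (k + 1) = N + 1 by omega] at h1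
    exact h1
  have hstep : ∀ k, k < N → ∀ x, gsq (g (k + 2)) x ≤ prox V h (gsq (g (k + 1))) x := by
    intro k _ x
    have h1 := gsq_prox_contract hV hh (hgb (k + 1)) (hgi k).2.1 (hgi k).2.2 x
    rw [hsucc] at h1
    refine le_trans (le_mul_of_one_le_left (gsq_nonneg _ _) ?_) h1
    nlinarith
  have hBK : ∀ k, k < N →
      B k = (prox V h)^[N - (k + 1)] (prox V h (gsq (g (k + 1)))) 0 ∧
        B (k + 1) = (prox V h)^[N - (k + 1)] (gsq (g (k + 2))) 0 := by
    intro k hk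
    refine ⟨?_, ?_⟩
    · rw [hB, ← Function.iterate_succ_apply, show (N - (k + 1)).succ = N + 1 - (k + 1) by omega]
    · simp only [hB, show N + 1 - (k + 1 + 1) = N - (k + 1) by omega]
  have hdec : ∀ k, k < N → B (k + 1) ≤ B k := by
    intro k hk
    rw [(hBK k hk).1, (hBK k hk).2]
    exact (hK.iterate _).mono (hgsq (k + 1)) (hK.bdd (hgsq k)) (hstep k hk) 0
  have hlog : (harmonic (N + 1) : ℝ) ≤ 2 * log (((N + 1 : ℕ) : ℝ) + 2) := by
    refine (harmonic_le_one_add_log (N + 1)).trans ?_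
    have h3 : 1 ≤ log (((N + 1 : ℕ) : ℝ) + 2) := by
      rw [← Real.log_exp 1]
      refine Real.log_le_log (exp_pos 1) ?_
      have := Real.exp_one_lt_d9
      push_cast
      linarith [Nat.cast_nonneg (α := ℝ) N]
    have := Real.log_le_log (by positivity : (0:ℝ) < ((N + 1 : ℕ) : ℝ))
      (by linarith : ((N + 1 : ℕ) : ℝ) ≤ ((N + 1 : ℕ) : ℝ) + 2)
    linarith
  obtain ⟨hs1, hs2⟩ := sum_estimate hh hF rfl (fun k _ => hB0 k) hdec hBF hlog
  -- one term of the telescope
  have hterm : ∀ k, k < N → (approx P h z)^[N - (k + 1)]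
      (fun x => |approx P h z (g (k + 1)) x - prox V h (g (k + 1)) x|) 0 ≤
        3 / 2 * (c * √(2 * h * ((B k - B (k + 1)) + 4 * h * B k)) + m * √(B (k + 1))) := by
    intro k hk
    obtain ⟨-, hone⟩ := one_step hV hh P z hc hm hφ hz (hgb (k + 1))
    have hpt := hone (hgi k).2.1 (hgi k).2.2
    simp only [hsucc] at hpt ⊢
    set Pk := prox V h (gsq (g (k + 1))) with hPk
    have hPb : Bdd Pk := hK.bdd (hgsq k)
    have hu2 : Bdd fun x => 2 * h * ((Pk x - gsq (g (k + 2)) x) + 4 * h * Pk x) :=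
      ((hPb.sub (hgsq (k + 1))).add (hPb.const_mul (4 * h))).const_mul (2 * h)
    have hu0 : ∀ x, 0 ≤ 2 * h * ((Pk x - gsq (g (k + 2)) x) + 4 * h * Pk x) := fun x => by
      have h1 := hstep k hk x
      have h2 : 0 ≤ Pk x := le_trans (gsq_nonneg _ _) h1
      have h3 : 0 ≤ Pk x - gsq (g (k + 2)) x := sub_nonneg.2 h1
      positivity
    set u := fun x => √(2 * h * ((Pk x - gsq (g (k + 2)) x) + 4 * h * Pk x)) with hu
    set v := fun x => √(gsq (g (k + 2)) x) with hv
    have hub : Bdd u := hu2.sqrt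
    have hvb : Bdd v := (hgsq (k + 1)).sqrt
    have hj : N - (k + 1) < N + 1 := by omega
    have hT := hA.iterate (N - (k + 1))
    refine (hT.mono ((hA.bdd (hgb (k + 1))).sub (hgb (k + 2))).abs
      ((hub.const_mul c).add (hvb.const_mul m)) hpt 0).trans ?_
    rw [hT.add (hub.const_mul c) (hvb.const_mul m), hT.smul hub, hT.smul hvb, mul_add]
    have e1 : (prox V h)^[N - (k + 1)] (fun x => u x ^ 2) 0 =
        2 * h * ((B k - B (k + 1)) + 4 * h * B k) := by
      have hKj := hK.iterate (N - (k + 1))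
      rw [show (fun x => u x ^ 2) = fun x => 2 * h * ((Pk x - gsq (g (k + 2)) x) + 4 * h * Pk x) from
        funext fun x => Real.sq_sqrt (hu0 x),
        hKj.smul ((hPb.sub (hgsq (k + 1))).add (hPb.const_mul (4 * h))),
        hKj.add (hPb.sub (hgsq (k + 1))) (hPb.const_mul (4 * h)), hKj.sub hPb (hgsq (k + 1)),
        hKj.smul hPb, (hBK k hk).1, (hBK k hk).2]
    have e2 : (prox V h)^[N - (k + 1)] (fun x => v x ^ 2) 0 = B (k + 1) := by
      rw [show (fun x => v x ^ 2) = gsq (g (k + 2)) from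
        funext fun x => Real.sq_sqrt (gsq_nonneg _ x), (hBK k hk).2]
    have h1 := mul_le_mul_of_nonneg_left (cmp _ hj hub) hc
    have h2 := mul_le_mul_of_nonneg_left (cmp _ hj hvb) hm
    rw [e1] at h1; rw [e2] at h2
    linarith
  have hterm0 : (approx P h z)^[N] (fun x => |approx P h z (g 0) x - prox V h (g 0) x|) 0 ≤
      3 / 2 * (c * √F) := by
    obtain ⟨hzero, -⟩ := one_step hV hh P z hc hm hφ hz (hgb 0)
    have hub : Bdd fun x => √(prox V h (fun x => f x ^ 2) x) := (hK.bdd hf.sq).sqrt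
    refine ((hA.iterate N).mono ((hA.bdd (hgb 0)).sub (hK.bdd (hgb 0))).abs
      (hub.const_mul c) hzero 0).trans ?_
    rw [(hA.iterate N).smul hub]
    have h1 := cmp N (by omega) hub
    rw [show (fun x => √(prox V h (fun x => f x ^ 2) x) ^ 2) = prox V h (fun x => f x ^ 2) from
      funext fun x => Real.sq_sqrt (hK.nonneg hf.sq (fun x => sq_nonneg _) x),
      ← Function.iterate_succ_apply] at h1
    linarith [mul_le_mul_of_nonneg_left h1 hc]
  refine (Markov.iterate_sum_le hA hK 0 (N + 1) hf).trans ?_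
  rw [← Finset.sum_range_reflect, Finset.sum_range_succ']
  simp only [Nat.add_sub_cancel, Nat.sub_zero, Nat.sub_self]
  have hidx : ∀ k ∈ Finset.range N, N - (N - (k + 1)) = k + 1 := fun k hk => by
    have := Finset.mem_range.1 hk
    omega
  have hsum : ∑ k ∈ Finset.range N, (approx P h z)^[N - (k + 1)]
      (fun x => |approx P h z ((prox V h)^[N - (N - (k + 1))] f) x -
        prox V h ((prox V h)^[N - (N - (k + 1))] f) x|) 0 ≤
      ∑ k ∈ Finset.range N,
        3 / 2 * (c * √(2 * h * ((B k - B (k + 1)) + 4 * h * B k)) + m * √(B (k + 1))) :=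
    Finset.sum_le_sum fun k hk => by
      rw [hidx k hk]
      exact hterm k (Finset.mem_range.1 hk)
  refine (add_le_add hsum hterm0).trans ?_
  rw [← Finset.mul_sum, Finset.sum_add_distrib, ← Finset.mul_sum, ← Finset.mul_sum]
  have h1 := mul_le_mul_of_nonneg_left hs1 hc
  have h2 := mul_le_mul_of_nonneg_left hs2 hm
  have hl := hl0 (N + 1)
  have hl1 : 1 / 2 ≤ log (((N + 1 : ℕ) : ℝ) + 2) := by
    have hh1 : (1 : ℝ) ≤ (harmonic (N + 1) : ℝ) := by
      simp only [harmonic, Rat.cast_sum]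
      refine le_trans ?_ (Finset.single_le_sum (fun i _ => by positivity)
        (Finset.mem_range.2 (Nat.succ_pos N)))
      norm_num
    linarith
  have h3 := mul_le_mul_of_nonneg_right (mul_le_mul_of_nonneg_left hl1 hc) (Real.sqrt_nonneg F)
  nlinarith [mul_nonneg (mul_nonneg hc hl) (Real.sqrt_nonneg F),
    mul_nonneg (mul_nonneg hc (Real.sqrt_nonneg (((N + 1 : ℕ) : ℝ) * h *
      log (((N + 1 : ℕ) : ℝ) + 2)))) (Real.sqrt_nonneg F),
    mul_nonneg (mul_nonneg hm (Real.sqrt_nonneg (((N + 1 : ℕ) : ℝ) / h))) (Real.sqrt_nonneg F)]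

/-- **The telescope.** One step errors `c` in chi square and `m` in the mean add up to
`c · log n` and `m √(n/h)`. -/
theorem chain_main : ∃ C : ℝ, 0 ≤ C ∧ ∀ {d : ℕ} {V : Sp d → ℝ} {G : Sp d → Sp d}
    {H : Sp d → Sp d →L[ℝ] Sp d}, IsPot V G H 1 2 → ∀ {h : ℝ}, 0 < h → h ≤ 1 / 4 →
    ∀ {Ω : Type} [MeasurableSpace Ω] (P : Measure Ω) [IsProbabilityMeasure P]
      (z : Ω → Sp d → Sp d) {c m : ℝ}, 0 ≤ c → 0 ≤ m → Measurable (Function.uncurry z) →
    (∀ y, ∀ φ : Sp d → ℝ, Measurable φ → MemLp φ 2 (halfLaw V h y) →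
      Integrable (fun ω => φ (z ω y)) P ∧
        |(∫ ω, φ (z ω y) ∂P) - ∫ x, φ x ∂halfLaw V h y| ≤
          c * √(∫ x, φ x ^ 2 ∂halfLaw V h y)) →
    (∀ y, ‖(∫ ω, z ω y ∂P) - ∫ x, x ∂rgo V h y‖ ≤ m) →
    ∀ n : ℕ,
      C * (c * (log ((n:ℝ) + 2) + √(n * h * log ((n:ℝ) + 2))) + m * √((n:ℝ) / h)) ≤ 1 / 4 →
      ∀ {f : Sp d → ℝ}, Measurable f → (∀ x, |f x| ≤ 1) →
        |(approx P h z)^[n] f 0 - (prox V h)^[n] f 0| ≤
          2 * C * (c * (log ((n:ℝ) + 2) + √(n * h * log ((n:ℝ) + 2))) + m * √((n:ℝ) / h)) *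
            √((prox V h)^[n] (fun x => f x ^ 2) 0) := by
  exact ⟨12, by norm_num, fun {d V G H} hV {h} hh _ {Ω} _ P _ z {c m} hc hm hzm hφ hz n hyp
    {f} hf hb => chain_aux hV hh P z hc hm hzm hφ hz n hyp ⟨hf, 1, hb⟩⟩

end Vale.Agent.P347.Quarter
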