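import Vale.Agent.P347.Quarter.Half
import Vale.Agent.P347.Quarter.Chain
import Vale.Agent.P347.Quarter.Compose.Basic

/-! # P347: the phases of the algorithm together -/

open MeasureTheory ProbabilityTheory Real
open scoped RealInnerProductSpace

namespace Vale.Agent.P347.Quarter

namespace Phases

variable {d N : ℕ} {V : Sp d → ℝ} {G : Sp d → Sp d} {H : Sp d → Sp d →L[ℝ] Sp d}

lemma meanErr_mono {a b εq : ℝ} (ha : 0 < a) (hab : a ≤ b) (hεq : 0 ≤ εq) :
    meanErr d a a εq ≤ meanErr d b b εq := by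
  have hb : 0 < b := ha.trans_le hab
  have e : ∀ t : ℝ, 0 < t → meanErr d t t εq =
      2 * (t ^ 2 * √(t * d)) + t * εq + t ^ 2 + t ^ 3 * √d := by
    intro t ht
    have : √(t * d) = t * √((d:ℝ) / t) := by
      rw [show t * (d:ℝ) = t ^ 2 * (d / t) by field_simp, sqrt_mul (sq_nonneg t),
        sqrt_sq ht.le]
    rw [meanErr, show t ^ 3 * √((d:ℝ) / t) = t ^ 2 * (t * √((d:ℝ) / t)) by ring, ← this]
    ring
  rw [e a ha, e b hb]
  gcongr

lemma stepErr_mono {a b εq : ℝ} (ha : 0 < a) (hab : a ≤ b) (hεq : 0 ≤ εq) :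
    stepErr d a εq ≤ stepErr d b εq := by
  have h0 := meanErr_nonneg (d := d) (s := 2 * a) (by linarith : (0:ℝ) ≤ 2 * a) hεq
  have h1 := meanErr_mono (d := d) (by linarith : 0 < 2 * a)
    (by linarith : 2 * a ≤ 2 * b) hεq
  unfold stepErr
  gcongr

/-- Swapping the kernel outside the ball costs one tail per step. -/
lemma approx_iterate_close {Ω : Type} [MeasurableSpace Ω] (P : Measure Ω) [IsProbabilityMeasure P]
    {z z' : Ω → Sp d → Sp d} (hz : Measurable (Function.uncurry z))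
    (hz' : Measurable (Function.uncurry z')) (h R : ℝ)
    (heq : ∀ y, ‖y‖ < R → ∀ ω, z ω y = z' ω y) {β : ℝ} :
    ∀ n, (∀ i < n, (approx P h z')^[i] (outer d R) 0 ≤ β) → ∀ g : Sp d → ℝ, Phases.Bdd g →
      |(approx P h z)^[n] g 0 - (approx P h z')^[n] g 0| ≤ n * (2 * β) := by
  have hmono : ∀ i {u v : Sp d → ℝ}, Phases.Bdd u → Phases.Bdd v →
      (∀ x, |u x - v x| ≤ 2 * outer d R x) → ∀ x,
      |(approx P h z')^[i] u x - (approx P h z')^[i] v x| ≤
        2 * (approx P h z')^[i] (outer d R) x := by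
    intro i
    induction i with
    | zero => exact fun _ _ h => h
    | succ i ih =>
      intro u v hu hv huv x
      simp only [Function.iterate_succ_apply']
      set u' := (approx P h z')^[i] u
      set v' := (approx P h z')^[i] v
      set o := (approx P h z')^[i] (outer d R)
      have bu : Phases.Bdd u' := bdd_approx_iterate P hz' h hu i
      have bv : Phases.Bdd v' := bdd_approx_iterate P hz' h hv i
      have bo : Phases.Bdd o := bdd_approx_iterate P hz' h (bdd_outer R) i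
      have hm : Measurable fun ω => z' ω x := hz'.comp measurable_prodMk_right
      have h1 : ∀ a, |fwd (h / 2) u' a - fwd (h / 2) v' a| ≤ 0 + 2 * fwd (h / 2) o a := fun a =>
        int_close (bu.comp (by fun_prop)) (bv.comp (by fun_prop)) (bo.comp (by fun_prop))
          fun w => by rw [zero_add]; exact ih hu hv huv _
      have h2 := int_close (μ := P) ((bdd_fwd bu (h / 2)).comp hm) ((bdd_fwd bv (h / 2)).comp hm)
        ((bdd_fwd bo (h / 2)).comp hm) fun ω => h1 _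
      rwa [zero_add] at h2
  intro n
  induction n with
  | zero => intro _ g _; simp
  | succ n ih =>
    intro hβ g hg
    simp only [Function.iterate_succ_apply]
    have h1 := ih (fun i hi => hβ i (by omega)) _ (bdd_approx P hz h hg)
    have h2 := hmono n (bdd_approx P hz h hg) (bdd_approx P hz' h hg) (fun x => by
      simpa using close_outer le_rfl (bdd_approx P hz h hg).2 (bdd_approx P hz' h hg).2
        (R := R) (fun y hy => by simp [approx, heq y hy]) x) 0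
    have h3 := abs_sub_le ((approx P h z)^[n] (approx P h z g) 0)
      ((approx P h z')^[n] (approx P h z g) 0) ((approx P h z')^[n] (approx P h z' g) 0)
    push_cast
    linarith [hβ n (Nat.lt_succ_self n)]

/-- The halvings and the last draw, started at the smoothed target. -/
lemma cascade_err (hd : 1 ≤ d) {εq R E T C₀ C₁ c₁ C₂ c₂ : ℝ} (hεq : 0 ≤ εq)
    (hC₁ : 0 ≤ C₁) (hC₂ : 0 ≤ C₂) (hE : E ^ 2 ≤ c₁)
    (hstep : ∀ {r : Rule N} {h : ℝ}, 0 < h → h ≤ 1 / 4 → IsRule d C₀ h εq r →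
      stepErr d h εq ^ 2 ≤ c₁ → ∀ (M : ℕ) (y : Sp d), (2 * h) ^ M * ‖y‖ ≤ √(h * d) →
      ∀ φ : Sp d → ℝ, Measurable φ → MemLp φ 2 (halfLaw V h y) →
        |(∫ p, φ (halfStep r G h M p y) ∂seedGam d) - ∫ x, φ x ∂halfLaw V h y| ≤
          C₁ * stepErr d h εq * √(∫ x, φ x ^ 2 ∂halfLaw V h y))
    (hlast : ∀ {h : ℝ}, 0 < h → h ≤ 1 / 4 → h ^ 2 * d ≤ c₂ → ∀ (M : ℕ) (y : Sp d),
      (2 * h) ^ M * ‖y‖ ≤ √(h * d) → ∀ {f : Sp d → ℝ}, Measurable f → (∀ x, |f x| ≤ 1) →
      |lastOp G h M f y - ∫ x, f x ∂rgo V h y| ≤ C₂ * h * √d)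
    (hV : IsPot V G H 1 2)
    (htail : ∀ h : ℝ, 0 < h → h ≤ 1 / 4 → ∫ x, fwd h (outer d R) x ∂piLaw V ≤ T)
    (hR0 : 0 < R) {M : ℕ} {f : Sp d → ℝ} (hf : Phases.Bdd f) :
    ∀ (K : ℕ) (r : ℕ → Rule N) (h : ℝ), 0 < h → h ≤ 1 / 4 →
      (∀ k ≤ K, IsRule d C₀ (h / 2 ^ k) εq (r k)) → stepErr d h εq ≤ E →
      (2 * h) ^ M * R ≤ √(h / 2 ^ K * d) → (h / 2 ^ K) ^ 2 * d ≤ c₂ →
      |(∫ x, fwd h (cascade G M r h K f) x ∂piLaw V) - ∫ x, f x ∂piLaw V| ≤
        K * (C₁ * E + 2 * T) + (C₂ * (h / 2 ^ K) * √d + 2 * T) := by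
  have := (isProb_rgo hV le_rfl (0 : Sp d)).2.2
  -- one backward step, averaged over the smoothed target
  have key : ∀ {h e : ℝ} {u v : Sp d → ℝ}, 0 < h → h ≤ 1 / 4 → 0 ≤ e → Phases.Bdd u → Phases.Bdd v →
      (∀ y, ‖y‖ < R → |u y - ∫ x, v x ∂rgo V h y| ≤ e) →
      |(∫ x, fwd h u x ∂piLaw V) - ∫ x, v x ∂piLaw V| ≤ e + 2 * T := by
    intro h e u v hh hh4 he hu hv hc
    rw [← rgo_invariant hV hh hv.1 hv.2]
    have bL := bdd_rgo hV hh.le hv
    have bo := bdd_outer (d := d) R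
    refine (int_close (e := e) (bdd_fwd hu h) (bdd_fwd bL h) (bdd_fwd bo h) fun x => ?_).trans
      (by linarith [htail h hh hh4])
    exact int_close (hu.comp (by fun_prop)) (bL.comp (by fun_prop)) (bo.comp (by fun_prop))
      fun w => close_outer he hu.2 bL.2 hc _
  intro K
  induction K with
  | zero =>
    intro r h hh hh4 _ _ hMR hh2
    simp only [pow_zero, div_one] at hMR hh2 ⊢
    rw [Nat.cast_zero, zero_mul, zero_add]
    exact key hh hh4 (by positivity) (bdd_lastOp hV h M hf) hf fun y hy =>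
      hlast hh hh4 hh2 M y ((mul_le_mul_of_nonneg_left hy.le (by positivity)).trans hMR) hf.1 hf.2
  | succ K ih =>
    intro r h hh hh4 hr hE' hMR hh2
    have e2 : ∀ k : ℕ, h / 2 / 2 ^ k = h / 2 ^ (k + 1) := fun k => by rw [pow_succ]; ring
    set g := cascade G M (fun k => r (k + 1)) (h / 2) K f with hgdef
    have bg : Phases.Bdd g := bdd_cascade hV M K hf _ _
    have hs0 : 0 ≤ stepErr d h εq := sqrt_nonneg _
    have hE0 : 0 ≤ E := hs0.trans hE'
    have h1 : |(∫ x, fwd h (stageOp (r 0) G h M g) x ∂piLaw V) -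
        ∫ x, fwd (h / 2) g x ∂piLaw V| ≤ C₁ * E + 2 * T := by
      refine key hh hh4 (mul_nonneg hC₁ hE0) (bdd_stageOp hV _ h M bg) (bdd_fwd bg _)
        fun y hy => ?_
      have := (isProb_rgo hV hh.le y).2.1
      rw [← integral_halfLaw hV hh.le bg y]
      have hy' : (2 * h) ^ M * ‖y‖ ≤ √(h * d) := by
        refine (mul_le_mul_of_nonneg_left hy.le (by positivity)).trans (hMR.trans ?_)
        exact sqrt_le_sqrt (mul_le_mul_of_nonneg_right
          (div_le_self hh.le (one_le_pow₀ one_le_two)) (Nat.cast_nonneg d))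
      refine (hstep hh hh4 (by simpa using hr 0 (Nat.zero_le _))
        ((pow_le_pow_left₀ hs0 hE' 2).trans hE) M y hy' g bg.1
        (MemLp.of_bound bg.1.aestronglyMeasurable 1 (Filter.Eventually.of_forall bg.2))).trans ?_
      refine (mul_le_of_le_one_right (mul_nonneg hC₁ hs0) (sqrt_le_one.2 ?_)).trans
        (mul_le_mul_of_nonneg_left hE' hC₁)
      exact (le_abs_self _).trans (abs_integral_le_one (fun x => by
        rw [abs_pow]; exact pow_le_one₀ (abs_nonneg _) (bg.2 x)) _)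
    have h2 := ih (fun k => r (k + 1)) (h / 2) (by positivity) (by linarith)
      (fun k hk => by rw [e2]; exact hr (k + 1) (by omega))
      ((stepErr_mono (half_pos hh) (by linarith) hεq).trans hE')
      (by
        rw [e2]
        refine le_trans ?_ hMR
        gcongr
        linarith)
      (by rw [e2]; exact hh2)
    rw [e2, ← hgdef] at h2
    have h3 := abs_sub_le (∫ x, fwd h (stageOp (r 0) G h M g) x ∂piLaw V)
      (∫ x, fwd (h / 2) g x ∂piLaw V) (∫ x, f x ∂piLaw V)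
    simp only [cascade]
    rw [← hgdef]
    push_cast
    linarith

/-- Every error term is at most the total constant times its shape. -/
lemma total_le {B s C₁ C₂ C₃ C₄ X S Q E L P n K : ℝ} (hB : 0 ≤ B) (hs : 0 ≤ s) (h₁ : 0 ≤ C₁)
    (h₂ : 0 ≤ C₂) (h₃ : 0 ≤ C₃) (h₄ : 0 ≤ C₄) (hX : 0 ≤ X) (hS : 0 ≤ S) (hQ : 0 ≤ Q)
    (hE : 0 ≤ E) (hL : 0 ≤ L) (hP : 0 ≤ P) (hn : 0 ≤ n) (hK : 0 ≤ K) :
    n * (2 * (C₄ * P + 2 * (B * X) * (s * S))) + 2 * (B * X) + C₃ * Q +
        (K * (C₁ * E + 2 * (C₄ * P)) + (C₂ * L + 2 * (C₄ * P))) ≤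
      (4 * B * s + 2 * B + C₃ + C₁ + C₂ + 2 * C₄) *
        (X * (1 + n * S) + Q + K * E + L + (n + K + 1) * P) := by
  set C := 4 * B * s + 2 * B + C₃ + C₁ + C₂ + 2 * C₄ with hC
  have hBs : 0 ≤ B * s := mul_nonneg hB hs
  have a1 : 4 * B * s * (X * (n * S)) ≤ C * (X * (n * S)) :=
    mul_le_mul_of_nonneg_right (by linarith) (by positivity)
  have a2 : 2 * B * X ≤ C * X := mul_le_mul_of_nonneg_right (by linarith) hX
  have a3 : C₃ * Q ≤ C * Q := mul_le_mul_of_nonneg_right (by linarith) hQ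
  have a4 : C₁ * (K * E) ≤ C * (K * E) :=
    mul_le_mul_of_nonneg_right (by linarith) (by positivity)
  have a5 : C₂ * L ≤ C * L := mul_le_mul_of_nonneg_right (by linarith) hL
  have a6 : 2 * C₄ * ((n + K + 1) * P) ≤ C * ((n + K + 1) * P) :=
    mul_le_mul_of_nonneg_right (by linarith) (by positivity)
  linarith

end Phases

open Phases

theorem compose_main (C₀ : ℝ) : ∃ C c₀ : ℝ, 0 ≤ C ∧ 0 < c₀ ∧
    ∀ {d N : ℕ} {r : ℕ → Rule N} {h εq R : ℝ} {M n K : ℕ},
    1 ≤ d → 0 < h → h ≤ 1 / 4 → 0 ≤ εq → (∀ k ≤ K, IsRule d C₀ (h / 2 ^ k) εq (r k)) →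
    0 < R → (2 * h) ^ M * R ≤ √(h / 2 ^ K * d) → 1 ≤ n →
    stepErr d h εq ^ 2 ≤ c₀ → (h / 2 ^ K) ^ 2 * d ≤ c₀ → chainErr d h εq n ≤ c₀ →
    ∀ {V : Sp d → ℝ} {G : Sp d → Sp d} {H : Sp d → Sp d →L[ℝ] Sp d}, IsPot V G H 1 2 → G 0 = 0 →
    ∀ {f : Sp d → ℝ}, Measurable f → (∀ x, |f x| ≤ 1) →
      |algoOp G M r h n K f - ∫ x, f x ∂piLaw V| ≤
        C * (chainErr d h εq n * (1 + n * √(√d / R)) + √((d:ℝ) / h) * (1 + h)⁻¹ ^ (n - 1) +
          K * stepErr d h εq + h / 2 ^ K * √d + (n + K + 1) * (√d / R)) := by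
  obtain ⟨C₁, c₁, hC₁, hc₁, hstep⟩ := halfStep_spec C₀
  obtain ⟨C₂, c₂, hC₂, hc₂, hlast⟩ := lastOp_spec
  obtain ⟨C₃, hC₃, hmix⟩ := prox_mixing
  obtain ⟨C₄, hC₄, htail⟩ := prox_tail
  obtain ⟨C₅, hC₅, hchain⟩ := chain_main
  set B := C₅ * C₁ with hB
  have hB0 : 0 ≤ B := mul_nonneg hC₅ hC₁
  refine ⟨4 * B * √C₄ + 2 * B + C₃ + C₁ + C₂ + 2 * C₄, min (min c₁ c₂) (1 / (4 * (B + 1))),
    by positivity, lt_min (lt_min hc₁ hc₂) (by positivity), ?_⟩
  intro d N r h εq R M n K hd hh hh4 hεq hr hR hMR hn hse hlast2 hce V G H hV hG f hfm hfb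
  have hf : Phases.Bdd f := ⟨hfm, hfb⟩
  have hse1 : stepErr d h εq ^ 2 ≤ c₁ := hse.trans ((min_le_left _ _).trans (min_le_left _ _))
  have hr0 : IsRule d C₀ h εq (r 0) := by simpa using hr 0 (Nat.zero_le _)
  set me := meanErr d (2 * h) (2 * h) εq with hme
  have hme0 : 0 ≤ me := meanErr_nonneg (by positivity) hεq
  have hs0 : 0 ≤ stepErr d h εq := sqrt_nonneg _
  set X := chainErr d h εq n with hX
  have hmain : ∀ j : ℕ, j ≤ n → C₅ * (C₁ * stepErr d h εq *
      (log ((j:ℝ) + 2) + √(j * h * log ((j:ℝ) + 2))) + √h * (C₁ * me) * √((j:ℝ) / h)) ≤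
      B * X := by
    intro j hj
    have hj' : (j:ℝ) ≤ n := by exact_mod_cast hj
    have hj0 : (0:ℝ) ≤ j := Nat.cast_nonneg j
    have hl0 : 0 ≤ log ((j:ℝ) + 2) := log_nonneg (by linarith)
    have hl : log ((j:ℝ) + 2) ≤ log ((n:ℝ) + 2) := log_le_log (by linarith) (by linarith)
    have e : √h * √((j:ℝ) / h) = √(j:ℝ) := by
      rw [← sqrt_mul hh.le, mul_div_cancel₀ _ hh.ne']
    rw [hB, hX, chainErr, ← hme, show √h * (C₁ * me) * √((j:ℝ) / h) =
      C₁ * (me * (√h * √((j:ℝ) / h))) by ring, e, mul_assoc C₁, ← mul_add, ← mul_assoc]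
    gcongr
  have hBX : B * X ≤ 1 / 4 := by
    refine (mul_le_mul_of_nonneg_left (hce.trans (min_le_right _ _)) hB0).trans ?_
    rw [mul_one_div, div_le_div_iff₀ (by positivity) (by norm_num)]
    linarith
  have hX0 : 0 ≤ X := by
    rw [hX, chainErr]
    have : 0 ≤ log ((n:ℝ) + 2) := log_nonneg (by linarith [(Nat.cast_nonneg n : (0:ℝ) ≤ n)])
    positivity
  have hMy : ∀ y : Sp d, (2 * h) ^ (M + ⌊‖y‖ / R⌋₊) * ‖y‖ ≤ √(h * d) := by
    intro y
    set k := ⌊‖y‖ / R⌋₊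
    have h1 : ‖y‖ ≤ ((k:ℝ) + 1) * R := by
      rw [← div_le_iff₀ hR]; exact (Nat.lt_floor_add_one _).le
    have h2 : (k:ℝ) + 1 ≤ 2 ^ k := by exact_mod_cast Nat.lt_two_pow_self (n := k)
    have h3 : (2 * h) ^ k * 2 ^ k ≤ 1 := by
      rw [← mul_pow]; exact pow_le_one₀ (by positivity) (by linarith)
    calc (2 * h) ^ (M + k) * ‖y‖ ≤ (2 * h) ^ M * ((2 * h) ^ k * (2 ^ k * R)) := by
          rw [pow_add, mul_assoc]
          gcongr
          exact h1.trans (by gcongr)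
      _ ≤ (2 * h) ^ M * R := by
          rw [← mul_assoc ((2 * h) ^ k)]
          exact mul_le_mul_of_nonneg_left (mul_le_of_le_one_left hR.le h3) (by positivity)
      _ ≤ _ := hMR.trans (sqrt_le_sqrt (mul_le_mul_of_nonneg_right
          (div_le_self hh.le (one_le_pow₀ one_le_two)) (Nat.cast_nonneg d)))
  set z := fun p y => halfStep (r 0) G h M p y
  set z' := fun p y => halfStep (r 0) G h (M + ⌊‖y‖ / R⌋₊) p y
  have hz : Measurable (Function.uncurry z) :=
    measurable_halfStep hV (r 0) h (k := fun _ => M) measurable_const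
  have hz' : Measurable (Function.uncurry z') :=
    measurable_halfStep hV (r 0) h (k := fun y => M + ⌊‖y‖ / R⌋₊)
      ((measurable_const_add M).comp (Nat.measurable_floor.comp (measurable_norm.div_const R)))
  have hideal : ∀ j ≤ n, ∀ {g : Sp d → ℝ}, Phases.Bdd g →
      |(approx (seedGam d) h z')^[j] g 0 - (prox V h)^[j] g 0| ≤
        2 * (B * X) * √((prox V h)^[j] (fun x => g x ^ 2) 0) := by
    intro j hj g hg
    have hs := fun y => hstep hd hh hh4 hεq hr0 hse1 hV hG _ y (hMy y)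
    refine (hchain hV hh hh4 (seedGam d) z' (mul_nonneg hC₁ hs0)
      (mul_nonneg (sqrt_nonneg h) (mul_nonneg hC₁ hme0)) hz' (fun y => (hs y).1)
      (fun y => (hs y).2) j ((hmain j hj).trans hBX) hg.1 hg.2).trans ?_
    rw [mul_assoc 2 C₅]
    exact mul_le_mul_of_nonneg_right (mul_le_mul_of_nonneg_left (hmain j hj) zero_le_two)
      (sqrt_nonneg _)
  set T := C₄ * √d / R with hT
  have hT0 : 0 ≤ T := by positivity
  have hβ : ∀ i < n, (approx (seedGam d) h z')^[i] (outer d R) 0 ≤ T + 2 * (B * X) * √T := by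
    intro i hi
    have h1 := hideal i hi.le (bdd_outer (d := d) R)
    rw [outer_sq] at h1
    have h2 : (prox V h)^[i] (outer d R) 0 ≤ T := (htail hd hV hG hh hh4 hR).1 i
    have h3 : 2 * (B * X) * √((prox V h)^[i] (outer d R) 0) ≤ 2 * (B * X) * √T := by gcongr
    linarith [(abs_le.1 h1).2]
  set g := cascade G M r h K f with hg
  have bg : Phases.Bdd g := bdd_cascade hV M K hf r h
  have e1 : |(approx (seedGam d) h z)^[n] g 0 - (approx (seedGam d) h z')^[n] g 0| ≤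
      n * (2 * (T + 2 * (B * X) * √T)) :=
    approx_iterate_close (seedGam d) hz hz' h R (fun y hy ω => by
      simp [z, z', Nat.floor_eq_zero.2 ((div_lt_one hR).2 hy)]) n hβ g bg
  have e2 : |(approx (seedGam d) h z')^[n] g 0 - (prox V h)^[n] g 0| ≤ 2 * (B * X) := by
    refine (hideal n le_rfl bg).trans (mul_le_of_le_one_right (by positivity) (sqrt_le_one.2 ?_))
    exact (le_abs_self _).trans (abs_prox_iterate hV hh.le (fun x => by
      rw [abs_pow]; exact pow_le_one₀ (abs_nonneg _) (bg.2 x)) n 0)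
  have e3 := hmix hV hG hh hh4 bg.1 bg.2 n hn
  have e4 := cascade_err hd hεq hC₁ hC₂ hse1
    (fun hh hh4 hr hs M y hy φ hφ hφ2 =>
      ((hstep hd hh hh4 hεq hr hs hV hG M y hy).1 φ hφ hφ2).2)
    (fun hh hh4 hs M y hy f hfm hfb => hlast hd hh hh4 hs hV hG M y hy hfm hfb) hV
    (fun h hh hh4 => (htail hd hV hG hh hh4 hR).2) hR hf K r h hh hh4 hr le_rfl hMR
    (hlast2.trans ((min_le_left _ _).trans (min_le_right _ _)))
  rw [← hg] at e4
  have h12 := abs_sub_le (algoOp G M r h n K f) ((approx (seedGam d) h z')^[n] g 0)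
    ((prox V h)^[n] g 0)
  have h123 := abs_sub_le (algoOp G M r h n K f) ((prox V h)^[n] g 0)
    (∫ x, fwd h g x ∂piLaw V)
  have h1234 := abs_sub_le (algoOp G M r h n K f) (∫ x, fwd h g x ∂piLaw V) (∫ x, f x ∂piLaw V)
  have ealg : algoOp G M r h n K f = (approx (seedGam d) h z)^[n] g 0 := rfl
  rw [← ealg] at e1
  have eT : √T = √C₄ * √(√d / R) := by rw [hT, mul_div_assoc, sqrt_mul hC₄]
  rw [eT] at e1
  rw [hT, mul_div_assoc] at e1
  rw [mul_div_assoc] at e4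
  rw [mul_assoc C₃] at e3
  rw [mul_assoc C₂] at e4
  refine le_trans ?_ (total_le hB0 (sqrt_nonneg C₄) hC₁ hC₂ hC₃ hC₄ hX0 (sqrt_nonneg _)
    (by positivity) hs0 (by positivity) (by positivity) (Nat.cast_nonneg n) (Nat.cast_nonneg K))
  linarith

end Vale.Agent.P347.Quarter
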