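import Mathlib

/-!
# P347: objects for the upper bound with exponent one quarter

Standard Gaussian laws, Gibbs tilts, Gaussian smoothing, the transport field of the first order
sampler and its quadrature.
-/

open MeasureTheory ProbabilityTheory Real
open scoped RealInnerProductSpace

namespace Vale.Agent.P347.Quarter

/-- Euclidean space with coordinates indexed by `ι`. -/
abbrev Eu (ι : Type) [Fintype ι] : Type := EuclideanSpace ℝ ι

/-- Euclidean space of dimension `d`. -/
abbrev Sp (d : ℕ) : Type := EuclideanSpace ℝ (Fin d)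

/-- The standard Gaussian law. -/
noncomputable def gam (ι : Type) [Fintype ι] : Measure (Eu ι) := stdGaussian (Eu ι)

instance instIsProbGam (ι : Type) [Fintype ι] : IsProbabilityMeasure (gam ι) := by
  unfold gam; infer_instance

/-- The standard Gaussian law in dimension `d`. -/
noncomputable abbrev gd (d : ℕ) : Measure (Sp d) := gam (Fin d)

/-- A twice continuously differentiable potential with gradient `G` and Hessian `H` between `lo`
and `hi`. -/
structure IsPot {d : ℕ} (W : Sp d → ℝ) (G : Sp d → Sp d) (H : Sp d → Sp d →L[ℝ] Sp d)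
    (lo hi : ℝ) : Prop where
  hasGrad : ∀ x, HasFDerivAt W (innerSL ℝ (G x)) x
  hasHess : ∀ x, HasFDerivAt G (H x) x
  contHess : Continuous H
  symHess : ∀ x u v, ⟪H x u, v⟫ = ⟪u, H x v⟫
  loHess : ∀ x v, lo * ‖v‖ ^ 2 ≤ ⟪H x v, v⟫
  hiHess : ∀ x v, ⟪H x v, v⟫ ≤ hi * ‖v‖ ^ 2

/-- The law proportional to `exp (-W)` against the standard Gaussian law. -/
noncomputable def gibbs {d : ℕ} (W : Sp d → ℝ) : Measure (Sp d) :=
  (gd d).tilted fun x => -W x

/-- Gaussian smoothing `x ↦ E g (a x + b Z)`. -/
noncomputable def smth {d : ℕ} {F : Type*} [NormedAddCommGroup F] [NormedSpace ℝ F]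
    (a b : ℝ) (g : Sp d → F) (x : Sp d) : F :=
  ∫ w, g (a • x + b • w) ∂gd d

/-- The Mehler average with correlation `v`. -/
noncomputable def pv {d : ℕ} {F : Type*} [NormedAddCommGroup F] [NormedSpace ℝ F]
    (v : ℝ) (g : Sp d → F) (x : Sp d) : F :=
  smth v (√(1 - v ^ 2)) g x

/-- The first order transport field: the average of `pv v G` over `v` in `[0, κ]`. -/
noncomputable def flow {d : ℕ} (κ : ℝ) (G : Sp d → Sp d) (x : Sp d) : Sp d :=
  ∫ v in (0:ℝ)..κ, pv v G x

/-- The transport map. -/
noncomputable def tmap {d : ℕ} (κ : ℝ) (G : Sp d → Sp d) (x : Sp d) : Sp d := x - flow κ G x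

/-- The potential of the law of `κ x + √(1-κ²) Z`, `x` of law `gibbs W`. -/
noncomputable def smPot {d : ℕ} (κ : ℝ) (W : Sp d → ℝ) (x : Sp d) : ℝ :=
  -Real.log (pv κ (fun z => Real.exp (-W z)) x)

/-- The quadrature of the transport field. -/
noncomputable def qflow {d N : ℕ} (w v : Fin N → ℝ) (G : Sp d → Sp d) (x : Sp d) : Sp d :=
  ∑ j, w j • pv (v j) G x

/-- One sample of the quadrature: every node uses the same Gaussian vector `z`. -/
noncomputable def qsamp {d N : ℕ} (w v : Fin N → ℝ) (G : Sp d → Sp d) (x z : Sp d) : Sp d :=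
  ∑ j, w j • G (v j • x + √(1 - v j ^ 2) • z)

/-- The forward step `g ↦ E g (x + √h Z)`. -/
noncomputable def fwd {d : ℕ} (h : ℝ) (g : Sp d → ℝ) (x : Sp d) : ℝ := smth 1 (√h) g x

/-- The restricted Gaussian oracle: the law proportional to `exp (-V x - |x - y|² / (2 h))`. -/
noncomputable def rgo {d : ℕ} (V : Sp d → ℝ) (h : ℝ) (y : Sp d) : Measure (Sp d) :=
  (gibbs fun z => V (y + √h • z)).map fun z => y + √h • z

/-- The exact proximal chain on observables. -/
noncomputable def prox {d : ℕ} (V : Sp d → ℝ) (h : ℝ) (g : Sp d → ℝ) (y : Sp d) : ℝ :=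
  ∫ x, fwd h g x ∂rgo V h y

/-- The target of one half step: a sample of the oracle plus half of the forward noise. -/
noncomputable def halfLaw {d : ℕ} (V : Sp d → ℝ) (h : ℝ) (y : Sp d) : Measure (Sp d) :=
  ((rgo V h y).prod (gd d)).map fun p => p.1 + √(h / 2) • p.2

/-- An approximate proximal chain: `z` is a random point from the seed, then half of the noise. -/
noncomputable def approx {d : ℕ} {Ω : Type*} [MeasurableSpace Ω] (P : Measure Ω) (h : ℝ)
    (z : Ω → Sp d → Sp d) (g : Sp d → ℝ) (y : Sp d) : ℝ :=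
  ∫ ω, fwd (h / 2) g (z ω y) ∂P

end Vale.Agent.P347.Quarter
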