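import Vale.Agent.P347.Quarter.Flow.Field
import Vale.Agent.P347.Quarter.Flow.LogDet
import Vale.Agent.P347.Quarter.Flow.Change

/-! # P347: the transport map -/

open MeasureTheory ProbabilityTheory Real
open scoped RealInnerProductSpace

namespace Vale.Agent.P347.Quarter

variable {d : ℕ} {W : Sp d → ℝ} {G : Sp d → Sp d} {H : Sp d → Sp d →L[ℝ] Sp d} {lo η : ℝ}

/-- Regularity and growth of the transport field. -/
theorem flow_spec (hW : IsPot W G H 0 η) (hη : 0 ≤ η) {κ : ℝ} (hκ : 0 ≤ κ) (hκ1 : κ ≤ 1) :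
    ContDiff ℝ 1 (flow κ G) ∧ (∀ x, ‖fderiv ℝ (flow κ G) x‖ ≤ η) ∧
      (∀ x, ‖flow κ G x‖ ≤ ‖G 0‖ + η * (‖x‖ + √d)) ∧
      ∀ x, ‖flow 1 G x - flow κ G x‖ ≤ (1 - κ) * (‖G 0‖ + η * (‖x‖ + √d)) := by
  have hd := hasFDerivAt_flow hW hη hκ hκ1
  refine ⟨contDiff_one_iff_fderiv.2 ⟨fun x => (hd x).differentiableAt, ?_⟩, fun x => ?_,
    norm_flow_le hW hη hκ hκ1, fun x => ?_⟩
  · rw [funext fun x => (hd x).fderiv]
    exact continuous_flD hW hη hκ1
  · rw [(hd x).fderiv]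
    exact norm_flD_le hW hη hκ hκ1 x
  · have hi : ∀ a b : ℝ, 0 ≤ a → a ≤ b → b ≤ 1 →
        IntervalIntegrable (fun v => pv v G x) volume a b := fun a b ha hab hb =>
      ((continuousOn_pv hW hη x).mono fun v hv => by
        rw [Set.uIcc_of_le hab] at hv
        exact ⟨by linarith [hv.1], hv.2.trans hb⟩).intervalIntegrable
    rw [flow, flow,
      intervalIntegral.integral_interval_sub_left (hi 0 1 le_rfl zero_le_one le_rfl)
        (hi 0 κ le_rfl hκ hκ1)]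
    refine (intervalIntegral.norm_integral_le_of_norm_le_const fun v hv => ?_).trans_eq
      (by rw [abs_of_nonneg (by linarith : (0:ℝ) ≤ 1 - κ), mul_comm])
    rw [Set.uIoc_of_le hκ1] at hv
    exact norm_pv_le hW hη (by linarith [hv.1]) hv.2 x

/-- Second derivatives of a Gaussian smoothing, in Frobenius norm. -/
theorem smth_hess (hW : IsPot W G H 0 η) {a b : ℝ} (hb : b ≠ 0) (u : Sp d) :
    ContDiff ℝ 1 (fun x => fderiv ℝ (smth a b G) x u) ∧
      ∀ x, ∑ i, ‖fderiv ℝ (fun y => fderiv ℝ (smth a b G) y u) x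
          ((EuclideanSpace.basisFun (Fin d) ℝ) i)‖ ^ 2 ≤ (a ^ 2 / |b| * η * ‖u‖) ^ 2 := by
  rcases Nat.eq_zero_or_pos d with rfl | hd
  · exact ⟨contDiff_of_subsingleton, fun x => by simp [sq_nonneg]⟩
  have hη := hW.hess_nonneg_const hd
  rw [funext fun x => congrArg (fun L : Sp d →L[ℝ] Sp d => L u)
    (show fderiv ℝ (smth a b G) x = sD a b H x from (hasFDerivAt_smth hW hη a b x).fderiv)]
  have h := hasFDerivAt_sD_apply (a := a) hW hη hb u
  refine ⟨contDiff_one_iff_fderiv.2 ⟨fun x => (h x).differentiableAt, ?_⟩, fun x => ?_⟩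
  · rw [funext fun x => (h x).fderiv]
    exact continuous_sH hW hη a b u
  · rw [(h x).fderiv]
    exact sum_sH_sq_le hW hη hb u x

lemma bijective_sub_contraction {a : Sp d → Sp d} (ha : ContDiff ℝ 1 a) {η : ℝ} (hη : 0 ≤ η)
    (hη1 : η < 1) (hb : ∀ x, ‖fderiv ℝ a x‖ ≤ η) : Function.Bijective fun x => x - a x := by
  have hlip : ∀ x y, ‖a x - a y‖ ≤ η * ‖x - y‖ := fun x y =>
    Convex.norm_image_sub_le_of_norm_fderiv_le
      (fun z _ => ha.differentiable one_ne_zero z) (fun z _ => hb z) convex_univ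
      (Set.mem_univ y) (Set.mem_univ x)
  refine ⟨fun x y h => ?_, fun y => ?_⟩
  · have h' : x - y = a x - a y := sub_eq_sub_iff_sub_eq_sub.1 h
    have h2 := hlip x y
    rw [← h'] at h2
    have h3 : ‖x - y‖ = 0 := by nlinarith [norm_nonneg (x - y)]
    exact sub_eq_zero.1 (norm_eq_zero.1 h3)
  · have hc : ContractingWith ⟨η, hη⟩ fun x => y + a x := by
      refine ⟨hη1, LipschitzWith.of_dist_le_mul fun x z => ?_⟩
      rw [dist_eq_norm, dist_eq_norm, add_sub_add_left_eq_sub]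
      exact hlip x z
    have h : y + a (ContractingWith.fixedPoint _ hc) = ContractingWith.fixedPoint _ hc :=
      hc.fixedPoint_isFixedPt
    exact ⟨_, sub_eq_iff_eq_add.2 h.symm⟩

/-- The derivative of the pullback potential has no first order part. -/
lemma pull_deriv_le (hW : IsPot W G H 0 η) (hη : 0 ≤ η) (hη1 : η ≤ 1 / 100) {κ : ℝ} (hκ : 0 ≤ κ)
    (hκ1 : κ ≤ 1) {Φ : Sp d → ℝ} {Φ' : Sp d → Sp d} (hc : Continuous Φ')
    (hΦ : ∀ x, HasFDerivAt Φ (innerSL ℝ (Φ' x)) x)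
    (hb : ∀ x, ‖Φ' x - κ • pv κ G x‖ ≤ 4 * η * (‖G 0‖ + η * (√d + ‖x‖))) :
    ContDiff ℝ 1 (pull (tmap κ G) (fun x => 1 - flD κ H x) Φ) ∧
      ∀ x, ‖fderiv ℝ (pull (tmap κ G) (fun x => 1 - flD κ H x) Φ) x‖
        ≤ 20 * η * (‖G 0‖ + η * (√d + ‖x‖)) := by
  set T := tmap κ G
  set D := flD κ H
  set a := flow κ G
  have hD : ∀ x, HasFDerivAt a (D x) x := hasFDerivAt_flow hW hη hκ hκ1
  have hT : ∀ x, HasFDerivAt T (1 - D x) x := fun x => (hasFDerivAt_id x).sub (hD x)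
  obtain ⟨hlc, hlog⟩ := hasFDerivAt_logdet (D := D) (contDiff_flD hW hη hκ hκ1)
    fun x => (norm_flD_le hW hη hκ hκ1 x).trans (by linarith)
  have hTC : ContDiff ℝ 1 T := contDiff_id.sub (flow_spec hW hη hκ hκ1).1
  have hΦC : ContDiff ℝ 1 Φ := contDiff_one_iff_fderiv.2 ⟨fun x => (hΦ x).differentiableAt, by
    rw [funext fun x => (hΦ x).fderiv]
    exact (innerSL ℝ).continuous.comp hc⟩
  refine ⟨((hΦC.comp hTC).add (((hTC.norm_sq ℝ).sub (contDiff_norm_sq ℝ)).div_const 2)).sub hlc,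
    fun x => ?_⟩
  refine ContinuousLinearMap.opNorm_le_bound _ (by positivity) fun u => ?_
  obtain ⟨M, -, hM, hl⟩ := hlog x
  set e := EuclideanSpace.basisFun (Fin d) ℝ
  have hfd : fderiv ℝ (pull T (fun x => 1 - D x) Φ) x u
      = ⟪Φ' (T x), u - D x u⟫ + (⟪T x, u - D x u⟫ - ⟪x, u⟫)
        + ∑ i, ⟪e i, M (fderiv ℝ D x u (e i))⟫ := by
    have h : HasFDerivAt (pull T (fun x => 1 - D x) Φ) _ x :=
      (((hΦ (T x)).comp x (hT x)).add
        (((hT x).norm_sq.sub (hasFDerivAt_id x).norm_sq).mul_const (2:ℝ)⁻¹)).sub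
          ((hlc.differentiable one_ne_zero x).hasFDerivAt)
    rw [h.fderiv]
    simp [hl u, inner_sub_right]
    ring
  have hDu : ∀ z, fderiv ℝ D x u z = flH κ H u x z := fun z => by
    have h1 := ((ContinuousLinearMap.apply ℝ (Sp d) z).hasFDerivAt.comp x
      ((contDiff_flD hW hη hκ hκ1).differentiable one_ne_zero x).hasFDerivAt).unique
      (hasFDerivAt_flD_apply hW hη hκ hκ1 z x)
    rw [flH_symm hW hη hκ hκ1 u z]
    exact (congrArg (fun L => L u) h1 :)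
  have hsplit : ∑ i, ⟪e i, M (fderiv ℝ D x u (e i))⟫
      = (⟪a x, u⟫ + ⟪D x x, u⟫ - κ * ⟪pv κ G x, u⟫)
        + ∑ i, ⟪e i, (M - 1) (flH κ H u x (e i))⟫ := by
    rw [flow_identity hW hη hκ hκ1 x u]
    simp only [hDu, sub_apply, one_apply_eq_self, inner_sub_right,
      Finset.sum_sub_distrib, a, D]
    ring
  have htr : |∑ i, ⟪e i, (M - 1) (flH κ H u x (e i))⟫| ≤ √d * (2 * η) * (η * ‖u‖) :=
    (trace_pair_le hW hη hκ hκ1 u x (M - 1)).trans (by
      have := hM.trans (mul_le_mul_of_nonneg_left (norm_flD_le hW hη hκ hκ1 x) two_pos.le)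
      gcongr)
  set E := ‖G 0‖ + η * (√d + ‖x‖) with hE
  have hE0 : 0 ≤ E := by positivity
  have hax : ‖a x‖ ≤ E := (norm_flow_le hW hη hκ hκ1 x).trans_eq (by rw [hE]; ring)
  have hTx : ‖T x‖ ≤ ‖x‖ + E := (norm_sub_le _ _).trans (add_le_add le_rfl hax)
  have hpx : ‖κ • pv κ G x‖ ≤ E := by
    rw [norm_smul, norm_eq_abs, abs_of_nonneg hκ]
    refine (mul_le_of_le_one_left (norm_nonneg _) hκ1).trans ?_
    exact (norm_pv_le hW hη hκ hκ1 x).trans_eq (by rw [hE]; ring)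
  have hlip : ‖κ • pv κ G (T x) - κ • pv κ G x‖ ≤ η * E := by
    rw [← smul_sub, norm_smul, norm_eq_abs, abs_of_nonneg hκ]
    refine (mul_le_of_le_one_left (norm_nonneg _) hκ1).trans ?_
    obtain ⟨hs, hsb⟩ := contDiff_smth hW hη κ (√(1 - κ ^ 2))
    have h1 : ‖pv κ G (T x) - pv κ G x‖ ≤ η * ‖T x - x‖ :=
      Convex.norm_image_sub_le_of_norm_fderiv_le
        (fun z _ => hs.differentiable one_ne_zero z)
        (fun z _ => (hsb z).trans (mul_le_of_le_one_left hη (by rwa [abs_of_nonneg hκ])))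
        convex_univ (Set.mem_univ x) (Set.mem_univ (T x))
    refine h1.trans (mul_le_mul_of_nonneg_left ?_ hη)
    rw [show T x - x = -a x from sub_sub_cancel_left x (a x), norm_neg]
    exact hax
  have hdiff : ‖Φ' (T x) - κ • pv κ G x‖ ≤ 9 * η * E := by
    refine (norm_sub_le_norm_sub_add_norm_sub _ (κ • pv κ G (T x)) _).trans ?_
    have h1 : ‖G 0‖ + η * (√d + ‖T x‖) ≤ 2 * E := by
      have := mul_le_mul_of_nonneg_left hTx hη
      nlinarith
    have h2 := (hb (T x)).trans (mul_le_mul_of_nonneg_left h1 (by positivity))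
    linarith
  have hΦn : ‖Φ' (T x)‖ ≤ 2 * E := by
    have h1 := norm_le_norm_sub_add (Φ' (T x)) (κ • pv κ G x)
    nlinarith
  have hDn : ‖D x u‖ ≤ η * ‖u‖ := (D x).le_of_opNorm_le (norm_flD_le hW hη hκ hκ1 x) u
  have hrw : fderiv ℝ (pull T (fun x => 1 - D x) Φ) x u
      = ⟪Φ' (T x) - κ • pv κ G x, u⟫ - ⟪Φ' (T x), D x u⟫ + ⟪a x, D x u⟫
        + ∑ i, ⟪e i, (M - 1) (flH κ H u x (e i))⟫ := by
    rw [hfd, hsplit, show T x = x - a x from rfl]
    simp only [inner_sub_left, inner_sub_right, real_inner_smul_left, D]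
    rw [flD_symm hW hη hκ1 x x u]
    ring
  rw [norm_eq_abs, hrw]
  have b1 := (abs_real_inner_le_norm (Φ' (T x) - κ • pv κ G x) u).trans
    (mul_le_mul_of_nonneg_right hdiff (norm_nonneg u))
  have b2 := (abs_real_inner_le_norm (Φ' (T x)) (D x u)).trans
    (mul_le_mul hΦn hDn (norm_nonneg _) (by positivity))
  have b3 := (abs_real_inner_le_norm (a x) (D x u)).trans
    (mul_le_mul hax hDn (norm_nonneg _) hE0)
  have b4 : √d * (2 * η) * (η * ‖u‖) ≤ 2 * η * E * ‖u‖ := by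
    have h1 : η * √d ≤ E := by
      rw [hE]
      nlinarith [norm_nonneg (G 0), mul_nonneg hη (norm_nonneg x)]
    calc √d * (2 * η) * (η * ‖u‖) = 2 * η * (η * √d) * ‖u‖ := by ring
      _ ≤ _ := by gcongr
  have b5 := mul_nonneg (mul_nonneg hη hE0) (norm_nonneg u)
  rw [abs_le] at b1 b2 b3 htr ⊢
  constructor <;> linarith [b1.1, b1.2, b2.1, b2.2, b3.1, b3.2, htr.1, htr.2]

/-- The transport map sends a small tilt of the Gaussian law to the law with potential `Φ`. -/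
theorem transport : ∃ C : ℝ, 0 ≤ C ∧ ∀ {d : ℕ} {W : Sp d → ℝ} {G : Sp d → Sp d}
    {H : Sp d → Sp d →L[ℝ] Sp d} {η κ : ℝ}, IsPot W G H 0 η → η ≤ 1 / 100 → 0 ≤ κ → κ ≤ 1 →
    ∀ {Φ : Sp d → ℝ} {Φ' : Sp d → Sp d}, Continuous Φ' →
      (∀ x, HasFDerivAt Φ (innerSL ℝ (Φ' x)) x) →
      (∀ x, ‖Φ' x - κ • pv κ G x‖ ≤ 4 * η * (‖G 0‖ + η * (√d + ‖x‖))) →
      ∃ r : Sp d → ℝ, ContDiff ℝ 1 r ∧
        (∀ x, ‖fderiv ℝ r x‖ ≤ C * η * (‖G 0‖ + η * (√d + ‖x‖))) ∧
        (gibbs r).map (tmap κ G) = gibbs Φ := by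
  refine ⟨20, by norm_num, @fun d W G H η κ hW hη1 hκ hκ1 Φ Φ' hc hΦ hb => ?_⟩
  rcases Nat.eq_zero_or_pos d with rfl | hd
  · refine ⟨Φ, ?_, fun x => ?_, ?_⟩
    · rw [show Φ = fun _ => Φ 0 from funext fun x => congrArg Φ (Subsingleton.elim x 0)]
      exact contDiff_const
    · rw [show fderiv ℝ Φ x = 0 from ContinuousLinearMap.ext fun v => by
        rw [Subsingleton.elim v (0 : Sp 0), map_zero, map_zero],
        show G 0 = 0 from Subsingleton.elim _ _,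
        show x = 0 from Subsingleton.elim _ _]
      simp
    · rw [show tmap κ G = id from funext fun x => Subsingleton.elim _ _, Measure.map_id]
  have hη := hW.hess_nonneg_const hd
  obtain ⟨h1, h2⟩ := pull_deriv_le hW hη hη1 hκ hκ1 hc hΦ hb
  refine ⟨_, h1, h2, map_gibbs_change
    (fun x => (hasFDerivAt_id x).sub (hasFDerivAt_flow hW hη hκ hκ1 x)) ?_ ?_
    (continuous_iff_continuousAt.2 fun x => (hΦ x).continuousAt) h1.continuous⟩
  · exact bijective_sub_contraction (flow_spec hW hη hκ hκ1).1 hη (by linarith)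
      (flow_spec hW hη hκ hκ1).2.1
  · intro x
    obtain ⟨-, h, -, -⟩ := (hasFDerivAt_logdet (contDiff_flD hW hη hκ hκ1)
      fun x => (norm_flD_le hW hη hκ hκ1 x).trans (by linarith : η ≤ 1 / 2)).2 x
    exact h

end Vale.Agent.P347.Quarter
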