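import Vale.Agent.P074.BrascampLieb
import Mathlib.Analysis.SpecialFunctions.Gaussian.FourierTransform
import Mathlib.Analysis.InnerProductSpace.Calculus
import Mathlib.Analysis.InnerProductSpace.Dual
import Mathlib.Analysis.Calculus.ContDiff.Basic
import Mathlib.Analysis.Calculus.FDeriv.Symmetric

/-!
Strongly log-concave weights `exp (-V)` on Euclidean space: integrability, the Poincaré inequality
with constant `1/a`, and sub-Gaussian concentration of Lipschitz functions.
-/

open MeasureTheory Filter Topology Set Metric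
open scoped RealInnerProductSpace ENNReal

namespace Vale.Agent.P347.Quarter

open Vale.Agent.P074 (Space)

variable {d : ℕ} {V : Space d → ℝ} {a : ℝ}

/-- The Hessian of `V` is at least `a` times the identity. -/
def HessGE (V : Space d → ℝ) (a : ℝ) : Prop :=
  ∀ x v, a * ‖v‖ ^ 2 ≤ iteratedFDeriv ℝ 2 V x ![v, v]

lemma hasDerivAt_ray (hV : ContDiff ℝ 2 V) (z w : Space d) (τ : ℝ) :
    HasDerivAt (fun t : ℝ => V (z + t • w)) (fderiv ℝ V (z + τ • w) w) τ ∧
    HasDerivAt (fun t : ℝ => fderiv ℝ V (z + t • w) w)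
      (iteratedFDeriv ℝ 2 V (z + τ • w) ![w, w]) τ := by
  have h1 : HasDerivAt (fun t : ℝ => z + t • w) w τ := by
    simpa using ((hasDerivAt_id τ).smul_const w).const_add z
  refine ⟨((hV.differentiable (by norm_num)) _).hasFDerivAt.comp_hasDerivAt τ h1, ?_⟩
  have hd : Differentiable ℝ (fderiv ℝ V) :=
    (hV.fderiv_right (m := 1) (by norm_num)).differentiable (by norm_num)
  have h3 := ((hd _).hasFDerivAt.comp_hasDerivAt τ h1).clm_apply (hasDerivAt_const τ w)
  rw [iteratedFDeriv_two_apply]
  simpa using h3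

/-- Strong midpoint convexity. -/
lemma HessGE.midpoint (hH : HessGE V a) (hV : ContDiff ℝ 2 V) (z w : Space d) :
    2 * V z + a * ‖w‖ ^ 2 ≤ V (z + w) + V (z - w) := by
  have h := Vale.Agent.P074.midpoint_gap (k := fun t => V (z + t • w))
    (k1 := fun t => fderiv ℝ V (z + t • w) w)
    (k2 := fun t => iteratedFDeriv ℝ 2 V (z + t • w) ![w, w]) (c := a * ‖w‖ ^ 2)
    (fun τ _ => (hasDerivAt_ray hV z w τ).1) (fun τ _ => (hasDerivAt_ray hV z w τ).2)
    (fun τ _ => hH _ w)
  simpa [sub_eq_add_neg] using h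

/-- Quadratic growth from the tangent plane at `z`. -/
lemma HessGE.tangent (hH : HessGE V a) (hV : ContDiff ℝ 2 V) (z w : Space d) :
    V z + fderiv ℝ V z w + a / 2 * ‖w‖ ^ 2 ≤ V (z + w) := by
  set k1 := fun t : ℝ => fderiv ℝ V (z + t • w) w - a * ‖w‖ ^ 2 * t with hk1
  have hd1 : ∀ t, HasDerivAt k1
      (iteratedFDeriv ℝ 2 V (z + t • w) ![w, w] - a * ‖w‖ ^ 2) t := fun t =>
    ((hasDerivAt_ray hV z w t).2.sub
      ((hasDerivAt_id' t).const_mul (a * ‖w‖ ^ 2))).congr_deriv (by simp)
  have hmono : Monotone k1 := monotone_of_hasDerivAt_nonneg hd1 fun t => sub_nonneg.2 (hH _ w)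
  have hd0 : ∀ t, HasDerivAt (fun t : ℝ => V (z + t • w) - a * ‖w‖ ^ 2 * t ^ 2 / 2) (k1 t) t :=
    fun t => by
      have := ((hasDerivAt_pow 2 t).const_mul (a * ‖w‖ ^ 2)).div_const 2
      refine ((hasDerivAt_ray hV z w t).1.sub this).congr_deriv ?_
      simp only [hk1]; push_cast; ring
  obtain ⟨c, hc, hc'⟩ := exists_hasDerivAt_eq_slope
    (fun t : ℝ => V (z + t • w) - a * ‖w‖ ^ 2 * t ^ 2 / 2) k1 (show (0:ℝ) < 1 by norm_num)
    (fun t _ => (hd0 t).continuousAt.continuousWithinAt) (fun t _ => hd0 t)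
  have h := hmono hc.1.le
  rw [hc'] at h
  simp [hk1] at h
  linarith

lemma HessGE.lower (hH : HessGE V a) (hV : ContDiff ℝ 2 V) (ha : 0 < a) :
    ∃ c : ℝ, ∀ x, a / 4 * ‖x‖ ^ 2 - c ≤ V x := by
  refine ⟨‖fderiv ℝ V 0‖ ^ 2 / a - V 0, fun x => ?_⟩
  have h := hH.tangent hV 0 x
  rw [zero_add] at h
  have h2 : |fderiv ℝ V 0 x| ≤ ‖fderiv ℝ V 0‖ * ‖x‖ := (fderiv ℝ V 0).le_opNorm x
  have h3 : ‖fderiv ℝ V 0‖ * ‖x‖ ≤ ‖fderiv ℝ V 0‖ ^ 2 / a + a / 4 * ‖x‖ ^ 2 := by
    have := sq_nonneg (‖fderiv ℝ V 0‖ / a - ‖x‖ / 2)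
    have e : ‖fderiv ℝ V 0‖ ^ 2 / a + a / 4 * ‖x‖ ^ 2 - ‖fderiv ℝ V 0‖ * ‖x‖
        = a * (‖fderiv ℝ V 0‖ / a - ‖x‖ / 2) ^ 2 := by field_simp; ring
    nlinarith [mul_nonneg ha.le this]
  linarith [(abs_le.1 h2).1]

lemma integrable_exp_neg_norm_sq {b : ℝ} (hb : 0 < b) :
    Integrable fun x : Space d => Real.exp (-b * ‖x‖ ^ 2) := by
  by_contra h
  have h1 := GaussianFourier.integral_rexp_neg_mul_sq_norm (V := Space d) hb
  rw [integral_undef h] at h1
  exact (Real.rpow_pos_of_pos (div_pos Real.pi_pos hb) _).ne h1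

/-- Continuous functions of at most exponential growth are integrable against `exp (-V)`. -/
lemma HessGE.integrable (hH : HessGE V a) (hV : ContDiff ℝ 2 V) (ha : 0 < a)
    {F : Space d → ℝ} (hF : Continuous F) {C c : ℝ} (hb : ∀ x, |F x| ≤ C * Real.exp (c * ‖x‖)) :
    Integrable fun x => Real.exp (-V x) * F x := by
  obtain ⟨e, he⟩ := hH.lower hV ha
  refine Integrable.mono' ((integrable_exp_neg_norm_sq (d := d) (show 0 < a / 8 by positivity)
    ).const_mul (|C| * Real.exp (e + 2 * c ^ 2 / a)))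
    ((Real.continuous_exp.comp hV.continuous.neg).mul hF).aestronglyMeasurable
    (Eventually.of_forall fun x => ?_)
  rw [Real.norm_eq_abs, abs_mul, Real.abs_exp]
  refine (mul_le_mul_of_nonneg_left ((hb x).trans (mul_le_mul_of_nonneg_right (le_abs_self C)
    (Real.exp_pos _).le)) (Real.exp_pos _).le).trans ?_
  rw [mul_left_comm, mul_assoc |C|, ← Real.exp_add, ← Real.exp_add]
  refine mul_le_mul_of_nonneg_left (Real.exp_le_exp.2 ?_) (abs_nonneg C)
  have e1 : 2 * c ^ 2 / a + a / 8 * ‖x‖ ^ 2 - c * ‖x‖ = 2 * a * (c / a - ‖x‖ / 4) ^ 2 := by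
    field_simp; ring
  nlinarith [he x, mul_nonneg (mul_nonneg two_pos.le ha.le) (sq_nonneg (c / a - ‖x‖ / 4))]

lemma HessGE.integrable_weight (hH : HessGE V a) (hV : ContDiff ℝ 2 V) (ha : 0 < a) :
    Integrable fun x => Real.exp (-V x) := by
  simpa using hH.integrable hV ha (F := fun _ => 1) continuous_const (C := 1) (c := 0)
    (fun x => by simp)

lemma HessGE.integral_weight_pos (hH : HessGE V a) (hV : ContDiff ℝ 2 V) (ha : 0 < a) :
    0 < ∫ x, Real.exp (-V x) :=
  integral_exp_pos (hH.integrable_weight hV ha)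

/-- Poincaré inequality for a strongly log-concave weight. -/
theorem HessGE.poincare (hH : HessGE V a) (hV : ContDiff ℝ 2 V) (ha : 0 < a)
    {g : Space d → ℝ} (hg : ContDiff ℝ 1 g)
    (hg2 : Integrable fun x => Real.exp (-V x) * g x ^ 2)
    (hDg : Integrable fun x => Real.exp (-V x) * ‖fderiv ℝ g x‖ ^ 2) :
    (∫ x, Real.exp (-V x)) * (∫ x, Real.exp (-V x) * g x ^ 2) - (∫ x, Real.exp (-V x) * g x) ^ 2
      ≤ (∫ x, Real.exp (-V x)) * ((∫ x, Real.exp (-V x) * ‖fderiv ℝ g x‖ ^ 2) / a) := by
  set e := fun x : Space d => Real.exp (-V x)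
  set G := fun x => ‖fderiv ℝ g x‖ ^ 2 / a with hG
  set T : (Space d →L[ℝ] ℝ) →L[ℝ] Space d := LinearMap.toContinuousLinearMap
    { toFun := fun l => (InnerProductSpace.toDual ℝ (Space d)).symm l
      map_add' := fun _ _ => map_add _ _ _
      map_smul' := fun _ _ => by simp } with hT
  have hTi : ∀ (l : Space d →L[ℝ] ℝ) (w : Space d), ⟪T l, w⟫ = l w := fun l w => by
    simp [hT]
  have hg1 : Integrable fun x => e x * g x := by
    refine Integrable.mono' ((hH.integrable_weight hV ha).add hg2)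
      ((Real.continuous_exp.comp hV.continuous.neg).mul hg.continuous).aestronglyMeasurable
      (Eventually.of_forall fun x => ?_)
    rw [Real.norm_eq_abs, abs_mul, Real.abs_exp]
    have : |g x| ≤ 1 + g x ^ 2 := by nlinarith [sq_abs (g x), sq_nonneg (|g x| - 1), abs_nonneg (g x)]
    refine (mul_le_mul_of_nonneg_left this (Real.exp_pos _).le).trans (le_of_eq ?_)
    simp only [Pi.add_apply]; ring
  have hGi : Integrable fun x => e x * G x := by
    simpa [e, hG, mul_div_assoc] using hDg.div_const a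
  have hball : ∀ k : ℕ, (∫ x in closedBall (0 : Space d) (k + 1), e x)
      * (∫ x in closedBall (0 : Space d) (k + 1), e x * g x ^ 2)
      - (∫ x in closedBall (0 : Space d) (k + 1), e x * g x) ^ 2
      ≤ (∫ x in closedBall (0 : Space d) (k + 1), e x)
        * ∫ x in closedBall (0 : Space d) (k + 1), e x * G x := fun k => by
    refine Vale.Agent.P074.brascamp_lieb (isCompact_closedBall _ _) (convex_closedBall _ _)
      (measure_closedBall_pos _ _ (by positivity)) hV.continuous.continuousOn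
      hg.continuous.continuousOn ((((hg.continuous_fderiv one_ne_zero).norm).pow 2).div_const a
        ).continuousOn
      (A := fun z => T.comp (fderiv ℝ (fderiv ℝ V) z))
      (Dg := fun z => T (fderiv ℝ g z)) ?_ ?_ (V1 := fun z w => fderiv ℝ V z w) ?_ ?_ ?_ ha ?_ ?_
    · exact (continuous_const.clm_comp
        ((hV.fderiv_right (m := 1) (by norm_num)).continuous_fderiv one_ne_zero)).continuousOn
    · exact (T.continuous.comp (hg.continuous_fderiv one_ne_zero)).continuousOn
    · intro w z _; simpa using (hasDerivAt_ray hV z w 0).1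
    · intro w z _
      rw [real_inner_comm, ContinuousLinearMap.comp_apply, hTi]
      simpa [iteratedFDeriv_two_apply] using (hasDerivAt_ray hV z w 0).2
    · intro w z _
      rw [hTi]
      have h1 : HasDerivAt (fun t : ℝ => z + t • w) w 0 := by
        simpa using ((hasDerivAt_id (0:ℝ)).smul_const w).const_add z
      exact (((hg.differentiable one_ne_zero) (z + (0:ℝ) • w)).hasFDerivAt.comp_hasDerivAt 0
        h1).congr_deriv (by simp)
    · intro z _ w
      rw [real_inner_comm, ContinuousLinearMap.comp_apply, hTi]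
      simpa [iteratedFDeriv_two_apply] using hH z w
    · intro z _ w
      rw [hTi, real_inner_comm, ContinuousLinearMap.comp_apply, hTi]
      have h1 := hH z w
      rw [iteratedFDeriv_two_apply] at h1
      have h2 := (abs_le.1 ((fderiv ℝ g z).le_opNorm w)).1
      have h3 := mul_nonneg (inv_pos.2 ha).le (sq_nonneg (‖fderiv ℝ g z‖ - a * ‖w‖))
      have h4 : a⁻¹ * (‖fderiv ℝ g z‖ - a * ‖w‖) ^ 2
          = G z - 2 * (‖fderiv ℝ g z‖ * ‖w‖) + a * ‖w‖ ^ 2 := by
        simp only [hG]; field_simp; ring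
      simp only [Matrix.cons_val_zero, Matrix.cons_val_one] at h1
      linarith
  have hlim : ∀ {F : Space d → ℝ}, Integrable F → Tendsto
      (fun k : ℕ => ∫ x in closedBall (0 : Space d) (k + 1), F x) atTop (𝓝 (∫ x, F x)) := by
    intro F hF
    have hu : (⋃ k : ℕ, closedBall (0 : Space d) ((k : ℝ) + 1)) = univ := by
      refine eq_univ_of_forall fun x => ?_
      obtain ⟨k, hk⟩ := exists_nat_ge ‖x‖
      exact mem_iUnion.2 ⟨k, mem_closedBall_zero_iff.2 (by linarith)⟩
    have := tendsto_setIntegral_of_monotone (μ := volume) (f := F)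
      (s := fun k : ℕ => closedBall (0 : Space d) ((k : ℝ) + 1))
      (fun k => measurableSet_closedBall)
      (fun i j hij => closedBall_subset_closedBall (by simpa using hij))
      (by rw [hu]; exact hF.integrableOn)
    simpa [hu] using this
  have := le_of_tendsto_of_tendsto'
    (((hlim (hH.integrable_weight hV ha)).mul (hlim hg2)).sub ((hlim hg1).pow 2))
    ((hlim (hH.integrable_weight hV ha)).mul (hlim hGi)) hball
  refine this.trans (le_of_eq ?_)
  rw [← integral_div]
  simp [e, hG, mul_div_assoc]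

/-- Two-sided exponential bound for a Lipschitz function (Prékopa–Leindler). -/
theorem HessGE.exp_mul_exp_neg_le (hH : HessGE V a) (hV : ContDiff ℝ 2 V) (ha : 0 < a)
    {f : Space d → ℝ} {L : ℝ} (hf : Continuous f) (hL : ∀ x y, |f x - f y| ≤ L * ‖x - y‖) :
    (∫ x, Real.exp (-V x) * Real.exp (f x)) * (∫ x, Real.exp (-V x) * Real.exp (-f x))
      ≤ Real.exp (L ^ 2 / a) * (∫ x, Real.exp (-V x)) ^ 2 := by
  have hfb : ∀ x, |f x| ≤ |f 0| + L * ‖x‖ := fun x => by
    have := hL x 0
    rw [sub_zero] at this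
    linarith [abs_sub_abs_le_abs_sub (f x) (f 0)]
  have hi : ∀ σ : ℝ, |σ| ≤ 1 → Integrable fun x => Real.exp (-V x) * Real.exp (σ * f x) :=
    fun σ hσ => hH.integrable hV ha (Real.continuous_exp.comp (continuous_const.mul hf))
      (C := Real.exp |f 0|) (c := L) fun x => by
        rw [Real.abs_exp, ← Real.exp_add]
        refine Real.exp_le_exp.2 ((le_abs_self _).trans ?_)
        rw [abs_mul]
        exact le_trans (mul_le_of_le_one_left (abs_nonneg _) hσ) (hfb x)
  have hi1 : Integrable fun x => Real.exp (-V x) * Real.exp (f x) := by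
    simpa using hi 1 (by simp)
  have hi2 : Integrable fun x => Real.exp (-V x) * Real.exp (-f x) := by
    simpa using hi (-1) (by simp)
  set K := Real.exp (L ^ 2 / (2 * a))
  have hP := Vale.Agent.P074.prekopa_leindler
    (f := fun x => ENNReal.ofReal (Real.exp (-V x) * Real.exp (f x)))
    (g := fun x => ENNReal.ofReal (Real.exp (-V x) * Real.exp (-f x)))
    (h := fun x => ENNReal.ofReal (K * Real.exp (-V x)))
    (ENNReal.measurable_ofReal.comp ((Real.continuous_exp.comp hV.continuous.neg).mul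
      (Real.continuous_exp.comp hf)).measurable)
    (ENNReal.measurable_ofReal.comp ((Real.continuous_exp.comp hV.continuous.neg).mul
      (Real.continuous_exp.comp hf.neg)).measurable)
    (ENNReal.measurable_ofReal.comp
      (continuous_const.mul (Real.continuous_exp.comp hV.continuous.neg)).measurable)
    fun x y => by
      set z := (1 / 2 : ℝ) • (x + y) with hz
      set w := (1 / 2 : ℝ) • (x - y) with hw
      have h1 : z + w = x := by simp only [hz, hw]; module
      have h2 : z - w = y := by simp only [hz, hw]; module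
      have hm := hH.midpoint hV z w
      rw [h1, h2] at hm
      have hl := (abs_le.1 (hL x y)).2
      have hn : ‖x - y‖ = 2 * ‖w‖ := by
        rw [hw, norm_smul]; norm_num; ring
      rw [hn] at hl
      rw [← ENNReal.ofReal_mul (by positivity), ← ENNReal.ofReal_pow (by positivity)]
      refine ENNReal.ofReal_le_ofReal ?_
      simp only [K, ← Real.exp_add, ← Real.exp_nat_mul]
      refine Real.exp_le_exp.2 ?_
      have e1 : L ^ 2 / a - 2 * L * ‖w‖ + a * ‖w‖ ^ 2 = (L - a * ‖w‖) ^ 2 / a := by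
        field_simp; ring
      have e2 : 0 ≤ (L - a * ‖w‖) ^ 2 / a := by positivity
      have e3 : ((2:ℕ):ℝ) * (L ^ 2 / (2 * a)) = L ^ 2 / a := by push_cast; field_simp
      push_cast at e3 ⊢
      linarith
  rw [← ofReal_integral_eq_lintegral_ofReal hi1 (Eventually.of_forall fun x => by positivity),
    ← ofReal_integral_eq_lintegral_ofReal hi2 (Eventually.of_forall fun x => by positivity),
    ← ofReal_integral_eq_lintegral_ofReal ((hH.integrable_weight hV ha).const_mul K)
      (Eventually.of_forall fun x => by positivity),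
    ← ENNReal.ofReal_mul (integral_nonneg fun x => by positivity),
    ← ENNReal.ofReal_pow (integral_nonneg fun x => by positivity),
    ENNReal.ofReal_le_ofReal_iff (sq_nonneg _), integral_const_mul, mul_pow] at hP
  refine hP.trans (le_of_eq ?_)
  simp only [K, ← Real.exp_nat_mul]
  congr 2
  push_cast; field_simp

/-- Sub-Gaussian concentration around the mean. -/
theorem HessGE.concentration (hH : HessGE V a) (hV : ContDiff ℝ 2 V) (ha : 0 < a)
    {f : Space d → ℝ} {L : ℝ} (hf : Continuous f) (hL : ∀ x y, |f x - f y| ≤ L * ‖x - y‖) {m : ℝ}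
    (hm : ∫ x, Real.exp (-V x) * f x = m * ∫ x, Real.exp (-V x)) :
    ∫ x, Real.exp (-V x) * Real.exp (f x - m) ≤ Real.exp (L ^ 2 / a) * ∫ x, Real.exp (-V x) := by
  set g := fun x => f x - m with hg
  have hgL : ∀ x y, |g x - g y| ≤ L * ‖x - y‖ := fun x y => by
    simpa [hg] using hL x y
  have hgc : Continuous g := hf.sub continuous_const
  have h := hH.exp_mul_exp_neg_le hV ha hgc hgL
  have hZ := hH.integral_weight_pos hV ha
  have hgb : ∀ x, |g x| ≤ (|g 0| + 1) * Real.exp (|L| * ‖x‖) := fun x => by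
    have h1 := hgL x 0
    rw [sub_zero] at h1
    have h2 : |g x| ≤ |g 0| + L * ‖x‖ := by linarith [abs_sub_abs_le_abs_sub (g x) (g 0)]
    have h3 := Real.add_one_le_exp (|L| * ‖x‖)
    have h4 : L * ‖x‖ ≤ |L| * ‖x‖ := mul_le_mul_of_nonneg_right (le_abs_self _) (norm_nonneg _)
    nlinarith [abs_nonneg (g 0), mul_nonneg (abs_nonneg L) (norm_nonneg x)]
  have hi : Integrable fun x => Real.exp (-V x) * g x := hH.integrable hV ha hgc hgb
  have hi0 := hH.integrable_weight hV ha
  have hg0 : ∫ x, Real.exp (-V x) * g x = 0 := by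
    have hfi : Integrable fun x => Real.exp (-V x) * f x := by
      refine (hi.add (hi0.const_mul m)).congr (Eventually.of_forall fun x => ?_)
      simp [hg]; ring
    simp only [hg, mul_sub]
    rw [integral_sub hfi (hi0.mul_const m), integral_mul_const, hm]
    ring
  have hin : Integrable fun x => Real.exp (-V x) * Real.exp (-g x) :=
    hH.integrable hV ha (Real.continuous_exp.comp hgc.neg) (C := Real.exp |g 0|) (c := L)
      fun x => by
        rw [Real.abs_exp, ← Real.exp_add]
        refine Real.exp_le_exp.2 ?_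
        have h1 := hgL x 0
        rw [sub_zero] at h1
        linarith [(abs_le.1 h1).1, (abs_le.1 (le_refl |g 0|)).1]
  have hlow : ∫ x, Real.exp (-V x) ≤ ∫ x, Real.exp (-V x) * Real.exp (-g x) := by
    have := integral_mono (hi0.sub hi) hin fun x => by
      have := mul_le_mul_of_nonneg_left (Real.add_one_le_exp (-g x)) (Real.exp_pos (-V x)).le
      simp only [Pi.sub_apply]
      linarith
    rw [integral_sub' hi0 hi, hg0, sub_zero] at this
    exact this
  refine le_of_mul_le_mul_right ?_ hZ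
  calc _ ≤ (∫ x, Real.exp (-V x) * Real.exp (g x)) * ∫ x, Real.exp (-V x) * Real.exp (-g x) :=
        mul_le_mul_of_nonneg_left hlow (integral_nonneg fun x => by positivity)
    _ ≤ _ := h
    _ = _ := by ring

end Vale.Agent.P347.Quarter
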