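import Vale.Agent.P347.Quarter.Defs
import Vale.Agent.P347.Quarter.Gauss.Poincare
import Vale.Agent.P347.Quarter.Gauss.Ibp

/-! # P347: Gaussian tools -/

open MeasureTheory ProbabilityTheory Real
open scoped RealInnerProductSpace ENNReal

namespace Vale.Agent.P347.Quarter

variable {ι : Type} [Fintype ι] {d : ℕ}

/-- A finite exponential `lintegral` is an integral. -/
lemma integral_of_lintegral_exp_le {g : Eu ι → ℝ} (hg : Continuous g) {M : ℝ} (hM : 0 ≤ M)
    (h : ∫⁻ x, ENNReal.ofReal (exp (g x)) ∂gam ι ≤ ENNReal.ofReal M) :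
    Integrable (fun x => exp (g x)) (gam ι) ∧ ∫ x, exp (g x) ∂gam ι ≤ M := by
  have hc : Continuous fun x => exp (g x) := continuous_exp.comp hg
  refine ⟨⟨hc.aestronglyMeasurable, ?_⟩, ?_⟩
  · rw [hasFiniteIntegral_iff_ofReal (ae_of_all _ fun x => (exp_pos _).le)]
    exact h.trans_lt ENNReal.ofReal_lt_top
  · rw [integral_eq_lintegral_of_nonneg_ae (ae_of_all _ fun x => (exp_pos _).le)
      hc.aestronglyMeasurable]
    exact ENNReal.toReal_le_of_le_ofReal hM h

/-- Square exponential moment of the norm. -/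
theorem integral_exp_norm_sq {a : ℝ} (ha : 0 ≤ a) (ha4 : a ≤ 1 / 4) :
    Integrable (fun x : Eu ι => exp (a * ‖x‖ ^ 2)) (gam ι) ∧
      ∫ x, exp (a * ‖x‖ ^ 2) ∂gam ι ≤ exp (2 * a * Fintype.card ι) := by
  refine integral_of_lintegral_exp_le (g := fun x => a * ‖x‖ ^ 2) (by fun_prop) (exp_pos _).le ?_
  have h := lintegral_exp_sq_le (E := Eu ι) ha ha4
  rwa [finrank_euclideanSpace] at h

/-- Maurey–Pisier for a gradient of linear growth. -/
theorem mp_grad {f : Eu ι → ℝ} (hf : ContDiff ℝ 1 f) {A B : ℝ} (hA : 0 ≤ A) (hB : 0 ≤ B)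
    (hB4 : π ^ 2 * B ^ 2 ≤ 1) (hbd : ∀ x, ‖fderiv ℝ f x‖ ≤ A + B * ‖x‖) :
    Integrable (fun x => exp (f x)) (gam ι) ∧ Integrable (fun x => exp (-f x)) (gam ι) ∧
      (∫ x, exp (f x) ∂gam ι) * ∫ x, exp (-f x) ∂gam ι ≤
        exp (π ^ 2 / 4 * A ^ 2 + π ^ 2 / 2 * B ^ 2 * Fintype.card ι) := by
  set P := ∫⁻ x, ENNReal.ofReal (exp (f x)) ∂gam ι
  set Q := ∫⁻ x, ENNReal.ofReal (exp (-f x)) ∂gam ι
  have hm1 : Measurable fun x => ENNReal.ofReal (exp (f x)) :=
    (continuous_exp.comp hf.continuous).measurable.ennreal_ofReal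
  have hm2 : Measurable fun x => ENNReal.ofReal (exp (-f x)) :=
    (continuous_exp.comp hf.continuous.neg).measurable.ennreal_ofReal
  have hPQ : P * Q ≤ ENNReal.ofReal (exp (π ^ 2 / 4 * A ^ 2 + π ^ 2 / 2 * B ^ 2 * Fintype.card ι)) := by
    have e : P * Q = ∫⁻ z, ENNReal.ofReal (exp (f z.1 - f z.2)) ∂(gam ι).prod (gam ι) := by
      simp only [P, Q, ← lintegral_prod_mul hm1.aemeasurable hm2.aemeasurable,
        ← ENNReal.ofReal_mul (exp_pos _).le, ← exp_add, sub_eq_add_neg]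
    rw [e]
    refine (lintegral_exp_sub_le hf).trans ?_
    refine (lintegral_mono (g := fun x => ENNReal.ofReal (exp (π ^ 2 / 4 * A ^ 2)) *
      ENNReal.ofReal (exp (π ^ 2 / 4 * B ^ 2 * ‖x‖ ^ 2))) fun x => ?_).trans ?_
    · beta_reduce
      rw [← ENNReal.ofReal_mul (exp_pos _).le, ← exp_add]
      refine ENNReal.ofReal_le_ofReal (exp_le_exp.2 ?_)
      have h1 := pow_le_pow_left₀ (norm_nonneg _) (hbd x) 2
      have h2 := mul_le_mul_of_nonneg_left h1 (show (0:ℝ) ≤ π ^ 2 / 8 by positivity)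
      nlinarith [mul_nonneg (show (0:ℝ) ≤ π ^ 2 / 8 by positivity) (sq_nonneg (A - B * ‖x‖))]
    · rw [lintegral_const_mul' _ _ ENNReal.ofReal_ne_top]
      have h3 := lintegral_exp_sq_le (E := Eu ι) (c := π ^ 2 / 4 * B ^ 2) (by positivity)
        (by linarith)
      rw [finrank_euclideanSpace] at h3
      refine (mul_le_mul' le_rfl h3).trans (le_of_eq ?_)
      rw [← ENNReal.ofReal_mul (exp_pos _).le, ← exp_add]
      ring_nf
  have hne : (gam ι) ≠ 0 := IsProbabilityMeasure.ne_zero _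
  have hP0 : P ≠ 0 := by
    intro h
    have := (lintegral_eq_zero_iff hm1).1 h
    have h2 : ∀ᵐ x ∂gam ι, False := this.mono fun x hx => by
      simp [not_le.2 (exp_pos _)] at hx
    exact hne (by simpa using h2)
  have hQ0 : Q ≠ 0 := by
    intro h
    have := (lintegral_eq_zero_iff hm2).1 h
    have h2 : ∀ᵐ x ∂gam ι, False := this.mono fun x hx => by
      simp [not_le.2 (exp_pos _)] at hx
    exact hne (by simpa using h2)
  have hlt : P * Q < ⊤ := hPQ.trans_lt ENNReal.ofReal_lt_top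
  have hPt : P < ⊤ := by
    by_contra h
    rw [not_lt_top_iff.1 h, ENNReal.top_mul hQ0] at hlt
    exact lt_irrefl _ hlt
  have hQt : Q < ⊤ := by
    by_contra h
    rw [not_lt_top_iff.1 h, ENNReal.mul_top hP0] at hlt
    exact lt_irrefl _ hlt
  refine ⟨⟨(continuous_exp.comp hf.continuous).aestronglyMeasurable,
    (hasFiniteIntegral_iff_ofReal (ae_of_all _ fun x => (exp_pos _).le)).2 hPt⟩,
    ⟨(continuous_exp.comp hf.continuous.neg).aestronglyMeasurable,
    (hasFiniteIntegral_iff_ofReal (ae_of_all _ fun x => (exp_pos _).le)).2 hQt⟩, ?_⟩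
  rw [integral_eq_lintegral_of_nonneg_ae (ae_of_all _ fun x => (exp_pos _).le)
      (continuous_exp.comp hf.continuous).aestronglyMeasurable,
    integral_eq_lintegral_of_nonneg_ae (f := fun x => exp (-f x))
      (ae_of_all _ fun x => (exp_pos _).le)
      (continuous_exp.comp hf.continuous.neg).aestronglyMeasurable, ← ENNReal.toReal_mul]
  exact ENNReal.toReal_le_of_le_ofReal (exp_pos _).le hPQ

/-- A Lipschitz function is integrable. -/
lemma integrable_of_lip {F : Type*} [NormedAddCommGroup F] [NormedSpace ℝ F]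
    [SecondCountableTopology F] {f : Eu ι → F}
    (hf : ContDiff ℝ 1 f) {L : ℝ} (hL : ∀ x, ‖fderiv ℝ f x‖ ≤ L) :
    Integrable f (gam ι) ∧ Integrable (fun x => ‖f x‖ ^ 2) (gam ι) := by
  have hb : ∀ x, ‖f x‖ ≤ (‖f 0‖ + 1) * exp (L * ‖x‖) := fun x => by
    have h := convex_univ.norm_image_sub_le_of_norm_fderiv_le
      (fun y _ => hf.differentiable one_ne_zero y) (fun y _ => hL y)
      (Set.mem_univ (0 : Eu ι)) (Set.mem_univ x)
    rw [sub_zero] at h
    have h2 := norm_sub_norm_le (f x) (f 0)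
    have h3 := add_one_le_exp (L * ‖x‖)
    have h4 : 0 ≤ L * ‖x‖ := mul_nonneg ((norm_nonneg _).trans (hL 0)) (norm_nonneg _)
    nlinarith [norm_nonneg (f 0)]
  refine ⟨integrable_gam_of_le hf.continuous hb,
    integrable_gam_of_le (hf.continuous.norm.pow 2) (C := (‖f 0‖ + 1) ^ 2) (K := 2 * L) fun x => ?_⟩
  rw [norm_pow, norm_norm]
  refine (pow_le_pow_left₀ (norm_nonneg _) (hb x) 2).trans (le_of_eq ?_)
  rw [mul_pow, ← exp_nat_mul]
  push_cast
  ring_nf

/-- Exponential moments of Lipschitz functions. -/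
theorem lip_exp {f : Eu ι → ℝ} (hf : ContDiff ℝ 1 f) {L : ℝ} (hL : ∀ x, ‖fderiv ℝ f x‖ ≤ L) :
    Integrable f (gam ι) ∧ Integrable (fun x => exp (f x)) (gam ι) ∧
      ∫ x, exp (f x - ∫ y, f y ∂gam ι) ∂gam ι ≤ exp (π ^ 2 * L ^ 2 / 8) := by
  obtain ⟨hi, -⟩ := integrable_of_lip hf hL
  have h := (lintegral_exp_centred_le hf hi).trans (lintegral_mono
    (g := fun _ => ENNReal.ofReal (exp (π ^ 2 * L ^ 2 / 8))) fun x => ENNReal.ofReal_le_ofReal
      (exp_le_exp.2 (by
        nlinarith [pow_le_pow_left₀ (norm_nonneg _) (hL x) 2, sq_nonneg π])))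
  simp only [lintegral_const, measure_univ, mul_one] at h
  obtain ⟨h1, h2⟩ := integral_of_lintegral_exp_le
    (g := fun x => f x - ∫ y, f y ∂gam ι) (hf.continuous.sub continuous_const) (exp_pos _).le h
  refine ⟨hi, ?_, h2⟩
  have := h1.mul_const (exp (∫ y, f y ∂gam ι))
  simpa [← exp_add] using this

/-- Square exponential moments of Lipschitz functions. -/
theorem lip_exp_sq {f : Eu ι → ℝ} (hf : ContDiff ℝ 1 f) {L a : ℝ}
    (hL : ∀ x, ‖fderiv ℝ f x‖ ≤ L) (ha : 0 ≤ a) (haL : π ^ 2 * a * L ^ 2 ≤ 1 / 2) :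
    Integrable (fun x => exp (a * (f x - ∫ y, f y ∂gam ι) ^ 2)) (gam ι) ∧
      ∫ x, exp (a * (f x - ∫ y, f y ∂gam ι) ^ 2) ∂gam ι ≤ exp (π ^ 2 * a * L ^ 2) := by
  obtain ⟨hi, -⟩ := integrable_of_lip hf hL
  set m := ∫ y, f y ∂gam ι
  have hn : ContDiff ℝ 1 fun x => f x - m := hf.sub contDiff_const
  have h := lintegral_exp_norm_sq_le (n := fun x => f x - m) hn (L := L) (lam := a)
    (fun x => by rw [fderiv_sub_const]; exact hL x) (hi.sub (integrable_const m))
    (by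
      change ∫ x, f x - m ∂gam ι = 0
      rw [integral_sub hi (integrable_const m)]; simp [m]) ha (by linarith)
  simp only [norm_eq_abs, sq_abs, Module.finrank_self, Nat.cast_one, mul_one] at h
  refine integral_of_lintegral_exp_le (g := fun x => a * (f x - m) ^ 2)
    (by have := hf.continuous; fun_prop) (exp_pos _).le (h.trans (ENNReal.ofReal_le_ofReal (exp_le_exp.2 ?_)))
  have : 0 ≤ π ^ 2 * a * L ^ 2 := by positivity
  linarith

/-- The norm of a functional. -/
lemma norm_sq_functional (l : Eu ι →L[ℝ] ℝ) :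
    ‖l‖ ^ 2 = ∑ i, l (EuclideanSpace.basisFun ι ℝ i) ^ 2 := by
  obtain ⟨y, rfl⟩ := (InnerProductSpace.toDual ℝ (Eu ι)).surjective l
  rw [LinearIsometryEquiv.norm_map, ← (EuclideanSpace.basisFun ι ℝ).sum_sq_norm_inner_left y]
  refine Finset.sum_congr rfl fun i _ => ?_
  simp [InnerProductSpace.toDual_apply_apply, norm_eq_abs, sq_abs]

/-- Poincaré for vector fields. -/
theorem poincare_vec {F : Eu ι → Sp d} (hF : ContDiff ℝ 1 F) {L : ℝ}
    (hL : ∀ x, ‖fderiv ℝ F x‖ ≤ L) {M : ℝ}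
    (hM : ∀ x, ∑ i, ‖fderiv ℝ F x ((EuclideanSpace.basisFun ι ℝ) i)‖ ^ 2 ≤ M) :
    Integrable F (gam ι) ∧ Integrable (fun x => ‖F x - ∫ y, F y ∂gam ι‖ ^ 2) (gam ι) ∧
      ∫ x, ‖F x - ∫ y, F y ∂gam ι‖ ^ 2 ∂gam ι ≤ M := by
  obtain ⟨hi, -⟩ := integrable_of_lip hF hL
  set m := ∫ y, F y ∂gam ι with hm
  have hG : ContDiff ℝ 1 fun x => F x - m := hF.sub contDiff_const
  have hGL : ∀ x, ‖fderiv ℝ (fun x => F x - m) x‖ ≤ L := fun x => by
    rw [fderiv_sub_const]; exact hL x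
  obtain ⟨hiG, hiG2⟩ := integrable_of_lip hG hGL
  refine ⟨hi, hiG2, ?_⟩
  set g : Fin d → Eu ι → ℝ := fun k x => (F x - m) k
  have hg : ∀ k, ContDiff ℝ 1 (g k) := fun k =>
    (EuclideanSpace.proj (𝕜 := ℝ) k).contDiff.comp hG
  have hgd : ∀ k x v, fderiv ℝ (g k) x v = (fderiv ℝ F x v) k := fun k x v => by
    have h1 := ((EuclideanSpace.proj (𝕜 := ℝ) k).hasFDerivAt.comp x
      ((hF.differentiable one_ne_zero x).hasFDerivAt.sub_const m)).fderiv
    simpa [g, Function.comp_def] using congrArg (fun l : Eu ι →L[ℝ] ℝ => l v) h1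
  have hgL : ∀ k x, ‖fderiv ℝ (g k) x‖ ≤ L := fun k x => by
    refine ContinuousLinearMap.opNorm_le_bound _ ((norm_nonneg _).trans (hL x)) fun v => ?_
    rw [hgd]
    exact (PiLp.norm_apply_le _ k).trans (((fderiv ℝ F x).le_opNorm v).trans
      (mul_le_mul_of_nonneg_right (hL x) (norm_nonneg _)))
  have hgi := fun k => integrable_of_lip (hg k) (hgL k)
  have hgD : ∀ k, Integrable (fun x => ‖fderiv ℝ (g k) x‖ ^ 2) (gam ι) := fun k =>
    (integrable_const (L ^ 2)).mono'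
      (((hg k).continuous_fderiv one_ne_zero).norm.pow 2).aestronglyMeasurable
      (ae_of_all _ fun x => by
        rw [norm_pow, norm_norm]; exact pow_le_pow_left₀ (norm_nonneg _) (hgL k x) 2)
  have hg2 : ∀ k, Integrable (fun x => g k x ^ 2) (gam ι) := fun k => by
    simpa [norm_eq_abs, sq_abs] using (hgi k).2
  have h0 : ∀ k, ∫ x, g k x ∂gam ι = 0 := fun k => by
    have := (EuclideanSpace.proj (𝕜 := ℝ) k).integral_comp_comm hiG
    rw [integral_sub hi (integrable_const m), integral_const, ← hm] at this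
    simpa [g, gam] using this
  calc ∫ x, ‖F x - m‖ ^ 2 ∂gam ι = ∑ k, ∫ x, g k x ^ 2 ∂gam ι := by
        rw [← integral_finsetSum _ fun k _ => hg2 k]
        refine integral_congr_ae (ae_of_all _ fun x => ?_)
        simp [EuclideanSpace.norm_sq_eq, g]
    _ ≤ ∑ k, ∫ x, ‖fderiv ℝ (g k) x‖ ^ 2 ∂gam ι := Finset.sum_le_sum fun k _ => by
        have := poincare_gam (hg k) (hg2 k) (hgD k)
        rw [h0] at this
        simpa using this
    _ = ∫ x, ∑ k, ‖fderiv ℝ (g k) x‖ ^ 2 ∂gam ι := (integral_finsetSum _ fun k _ => hgD k).symm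
    _ ≤ ∫ _, M ∂gam ι := integral_mono (integrable_finsetSum _ fun k _ => hgD k)
        (integrable_const M) fun x => by
          refine le_trans (le_of_eq ?_) (hM x)
          simp only [norm_sq_functional, hgd]
          rw [Finset.sum_comm]
          refine Finset.sum_congr rfl fun i _ => ?_
          simp [EuclideanSpace.norm_sq_eq]
    _ = M := by simp

/-- The second moment. -/
theorem integral_norm_sq : Integrable (fun x : Eu ι => ‖x‖ ^ 2) (gam ι) ∧
    ∫ x, ‖x‖ ^ 2 ∂gam ι = Fintype.card ι := by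
  have hi : ∀ i, Integrable (fun x : Eu ι => x i ^ 2) (gam ι) ∧ ∫ x, x i ^ 2 ∂gam ι = 1 := fun i => by
    set l : StrongDual ℝ (Eu ι) := innerSL ℝ (EuclideanSpace.basisFun ι ℝ i) with hl
    have e : ∀ x : Eu ι, l x = x i := fun x => by
      simp [hl]
    have hm : MemLp l 2 (gam ι) := IsGaussian.memLp_dual (stdGaussian (Eu ι)) l 2 (by simp)
    have hint : Integrable (fun x : Eu ι => x i ^ 2) (gam ι) := by
      simpa [e] using hm.integrable_sq
    refine ⟨hint, ?_⟩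
    have h := variance_dual_stdGaussian l
    rw [variance_of_integral_eq_zero l.continuous.aemeasurable (integral_strongDual_stdGaussian l)]
      at h
    simp only [hl, innerSL_apply_norm, OrthonormalBasis.norm_eq_one] at h
    simpa [gam] using h
  have e : (fun x : Eu ι => ‖x‖ ^ 2) = fun x => ∑ i, x i ^ 2 := funext fun x => by
    simp [EuclideanSpace.norm_sq_eq]
  rw [e]
  refine ⟨integrable_finsetSum _ fun i _ => (hi i).1, ?_⟩
  rw [integral_finsetSum _ fun i _ => (hi i).1]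
  simp [fun i => (hi i).2]

/-- Integration by parts. -/
theorem gauss_ibp {F : Eu ι → ℝ} (hF : ContDiff ℝ 1 F) {C K : ℝ}
    (h0 : ∀ x, |F x| ≤ C * exp (K * ‖x‖)) (h1 : ∀ x, ‖fderiv ℝ F x‖ ≤ C * exp (K * ‖x‖))
    (v : Eu ι) :
    ∫ x, fderiv ℝ F x v ∂gam ι = ∫ x, F x * ⟪x, v⟫ ∂gam ι :=
  gam_ibp hF h0 h1 v

/-- Rotations of a pair. -/
theorem gauss_rotate {κ b : ℝ} (h : κ ^ 2 + b ^ 2 = 1) :
    MeasurePreserving (fun p : Eu ι × Eu ι => (κ • p.1 + b • p.2, b • p.1 - κ • p.2))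
      ((gam ι).prod (gam ι)) ((gam ι).prod (gam ι)) := by
  obtain ⟨θ, hc, hs⟩ : ∃ θ, cos θ = κ ∧ sin θ = b := by
    have hκ : -1 ≤ κ ∧ κ ≤ 1 := by constructor <;> nlinarith [sq_nonneg b]
    rcases le_total 0 b with hb | hb
    · refine ⟨arccos κ, cos_arccos hκ.1 hκ.2, ?_⟩
      rw [sin_arccos, show 1 - κ ^ 2 = b ^ 2 by linarith, sqrt_sq hb]
    · refine ⟨-arccos κ, by rw [cos_neg, cos_arccos hκ.1 hκ.2], ?_⟩
      rw [sin_neg, sin_arccos, show 1 - κ ^ 2 = (-b) ^ 2 by rw [neg_sq]; linarith,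
        sqrt_sq (by linarith), neg_neg]
  have h1 : MeasurePreserving (ContinuousLinearMap.rotation (E := Eu ι) θ)
      ((gam ι).prod (gam ι)) ((gam ι).prod (gam ι)) :=
    ⟨by fun_prop, IsGaussian.map_rotation_eq_self (μ := stdGaussian (Eu ι))
      (integral_id_stdGaussian (E := Eu ι)) θ⟩
  have h2 : MeasurePreserving (fun x : Eu ι => -x) (gam ι) (gam ι) :=
    ⟨by fun_prop, stdGaussian_map (LinearIsometryEquiv.neg ℝ (E := Eu ι))⟩
  have h3 := ((MeasurePreserving.id (gam ι)).prod h2).comp h1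
  convert h3 using 1
  funext p
  simp [ContinuousLinearMap.rotation_apply, hc, hs, sub_eq_add_neg, add_comm]

/-- A linear combination of two independent vectors. -/
theorem gauss_combine (a b : ℝ) :
    ((gam ι).prod (gam ι)).map (fun p : Eu ι × Eu ι => a • p.1 + b • p.2) =
      (gam ι).map fun x => √(a ^ 2 + b ^ 2) • x := by
  rcases eq_or_ne (a ^ 2 + b ^ 2) 0 with h | h
  · obtain ⟨ha, hb⟩ := (add_eq_zero_iff_of_nonneg (sq_nonneg a) (sq_nonneg b)).1 h
    rw [sq_eq_zero_iff] at ha hb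
    simp [ha, hb, Measure.map_const]
  · have hp : 0 < a ^ 2 + b ^ 2 := lt_of_le_of_ne (by positivity) (Ne.symm h)
    set s := √(a ^ 2 + b ^ 2)
    have hs : 0 < s := sqrt_pos.2 hp
    have hs2 : s ^ 2 = a ^ 2 + b ^ 2 := sq_sqrt hp.le
    have hr := gauss_rotate (ι := ι) (κ := a / s) (b := b / s) (by field_simp; linarith)
    have h1 := (measurePreserving_fst (μ := gam ι) (ν := gam ι)).comp hr
    conv_rhs => rw [← h1.map_eq, Measure.map_map (by fun_prop) h1.measurable]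
    congr 1
    funext p
    simp [Function.comp_def, smul_add, smul_smul, mul_div_cancel₀ _ hs.ne']

/-- Translation. -/
theorem gauss_translate (m : Eu ι) :
    (gam ι).map (fun x => x + m) = (gam ι).tilted fun x => ⟪m, x⟫ :=
  gam_map_add m

end Vale.Agent.P347.Quarter
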