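import Vale.Agent.P249.Lower.GaussEnergy

/-!
Exponential moment bounds from the Gaussian rotation trick of Maurey and Pisier: for `C¹` scalar
functions, and for centred vector-valued maps with bounded derivative.
-/

namespace Vale.Agent.P347.Quarter

open MeasureTheory ProbabilityTheory Real
open scoped ENNReal NNReal RealInnerProductSpace
open Vale.Agent.P249.Lower (rotation_lintegral)

variable {E F : Type*} [NormedAddCommGroup E] [InnerProductSpace ℝ E] [FiniteDimensional ℝ E]
  [MeasurableSpace E] [BorelSpace E] [NormedAddCommGroup F] [InnerProductSpace ℝ F]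
  [FiniteDimensional ℝ F] [MeasurableSpace F] [BorelSpace F]

/-- Moment generating function of a linear functional. -/
lemma lintegral_exp_dual (L : StrongDual ℝ E) :
    ∫⁻ y, ENNReal.ofReal (exp (L y)) ∂stdGaussian E = ENNReal.ofReal (exp (‖L‖ ^ 2 / 2)) := by
  set v : ℝ≥0 := ⟨‖L‖ ^ 2, sq_nonneg _⟩
  have hmap : (stdGaussian E).map L = gaussianReal 0 v := by
    rw [IsGaussian.map_eq_gaussianReal, integral_strongDual_stdGaussian, variance_dual_stdGaussian]
    congr 1
    ext
    exact Real.coe_toNNReal _ (sq_nonneg _)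
  have hm : Measurable fun z : ℝ => ENNReal.ofReal (exp z) := by fun_prop
  rw [← lintegral_map hm L.continuous.measurable, hmap, ← ofReal_integral_eq_lintegral_ofReal
    (by simpa using integrable_exp_mul_gaussianReal (μ := 0) (v := v) 1)
    (ae_of_all _ fun z => (exp_pos z).le)]
  congr 1
  have h := congrFun (mgf_id_gaussianReal (μ := 0) (v := v)) 1
  have hv : (v : ℝ) = ‖L‖ ^ 2 := rfl
  simpa [mgf, hv] using h

omit [FiniteDimensional ℝ E] [MeasurableSpace E] [BorelSpace E] in
/-- Jensen along the quarter circle from `b` to `a`. -/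
lemma arc_exp {f : E → ℝ} (hf : ContDiff ℝ 1 f) (a b : E) :
    ENNReal.ofReal (exp (f a - f b)) ≤ ENNReal.ofReal (2 / π) *
      ∫⁻ θ in Set.Ioc (0 : ℝ) (π / 2), ENNReal.ofReal
        (exp (π / 2 * fderiv ℝ f (cos θ • b + sin θ • a) (-sin θ • b + cos θ • a))) := by
  have hT : (0 : ℝ) < π / 2 := by positivity
  obtain ⟨h, hh⟩ : ∃ h : ℝ → ℝ, h = fun θ =>
      fderiv ℝ f (cos θ • b + sin θ • a) (-sin θ • b + cos θ • a) := ⟨_, rfl⟩
  have hc : Continuous h := by
    rw [hh]; exact ((hf.continuous_fderiv one_ne_zero).comp (by fun_prop)).clm_apply (by fun_prop)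
  have hder : ∀ θ, HasDerivAt (fun θ => f (cos θ • b + sin θ • a)) (h θ) θ := fun θ => by
    rw [hh]
    exact ((hf.differentiable one_ne_zero _).hasFDerivAt).comp_hasDerivAt θ
      (((hasDerivAt_cos θ).smul_const b).add ((hasDerivAt_sin θ).smul_const a))
  have hftc : ∫ θ in (0 : ℝ)..(π / 2), h θ = f a - f b := by
    rw [intervalIntegral.integral_eq_sub_of_hasDerivAt (fun θ _ => hder θ)
      (hc.intervalIntegrable _ _)]
    simp
  have hμ : volume (Set.Ioc (0 : ℝ) (π / 2)) = ENNReal.ofReal (π / 2) := by simp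
  have hc2 : Continuous fun θ => π / 2 * h θ := continuous_const.mul hc
  have hJ := convexOn_exp.map_set_average_le (μ := volume)
    continuous_exp.continuousOn isClosed_univ
    (t := Set.Ioc (0 : ℝ) (π / 2)) (f := fun θ => π / 2 * h θ)
    (by rw [hμ]; simp [hT]) (by rw [hμ]; exact ENNReal.ofReal_ne_top)
    (ae_of_all _ fun θ => Set.mem_univ _)
    hc2.integrableOn_Ioc (continuous_exp.comp hc2).integrableOn_Ioc
  simp only [setAverage_eq, smul_eq_mul, Measure.real, hμ, ENNReal.toReal_ofReal hT.le,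
    ← intervalIntegral.integral_of_le hT.le] at hJ
  rw [intervalIntegral.integral_const_mul, hftc, inv_mul_cancel_left₀ hT.ne', inv_div] at hJ
  refine (ENNReal.ofReal_le_ofReal hJ).trans (le_of_eq ?_)
  rw [ENNReal.ofReal_mul (by positivity), intervalIntegral.integral_of_le hT.le,
    ofReal_integral_eq_lintegral_ofReal ?_ (ae_of_all _ fun θ => (exp_pos _).le)]
  · subst hh; rfl
  · exact (continuous_exp.comp hc2).integrableOn_Ioc

/-- (M): `E exp (f x - f x') ≤ E exp (π²/8 |∇f|²)`. -/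
theorem lintegral_exp_sub_le {f : E → ℝ} (hf : ContDiff ℝ 1 f) :
    ∫⁻ z, ENNReal.ofReal (exp (f z.1 - f z.2)) ∂(stdGaussian E).prod (stdGaussian E)
      ≤ ∫⁻ x, ENNReal.ofReal (exp (π ^ 2 / 8 * ‖fderiv ℝ f x‖ ^ 2)) ∂stdGaussian E := by
  obtain ⟨γ, hγ⟩ : ∃ γ : Measure (E × E), γ = (stdGaussian E).prod (stdGaussian E) := ⟨_, rfl⟩
  obtain ⟨G, hG⟩ : ∃ G : E × E → ℝ → ℝ≥0∞, G = fun z θ => ENNReal.ofReal
      (exp (π / 2 * fderiv ℝ f (cos θ • z.1 + sin θ • z.2) (-sin θ • z.1 + cos θ • z.2))) := ⟨_, rfl⟩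
  have hGm : Measurable (Function.uncurry G) := by
    rw [hG]
    refine Measurable.ennreal_ofReal (Continuous.measurable ?_)
    exact continuous_exp.comp (continuous_const.mul
      (((hf.continuous_fderiv one_ne_zero).comp (by fun_prop)).clm_apply (by fun_prop)))
  have hc : Continuous fun w : E × E => exp (π / 2 * fderiv ℝ f w.1 w.2) :=
    continuous_exp.comp (continuous_const.mul
      (((hf.continuous_fderiv one_ne_zero).comp continuous_fst).clm_apply continuous_snd))
  set M := ∫⁻ x, ENNReal.ofReal (exp (π ^ 2 / 8 * ‖fderiv ℝ f x‖ ^ 2)) ∂stdGaussian E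
  have hθ : ∀ θ, ∫⁻ z, G z θ ∂γ = M := fun θ => by
    rw [hγ, hG]
    refine (rotation_lintegral θ hc.measurable.ennreal_ofReal).trans ?_
    rw [lintegral_prod _ hc.measurable.ennreal_ofReal.aemeasurable]
    refine lintegral_congr fun x => ?_
    have := lintegral_exp_dual ((π / 2) • fderiv ℝ f x)
    simp only [smul_apply, smul_eq_mul, norm_smul, norm_eq_abs,
      abs_of_pos (show (0:ℝ) < π / 2 by positivity)] at this
    rw [this]
    congr 2
    ring
  have hpt : ∀ z : E × E, ENNReal.ofReal (exp (f z.2 - f z.1))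
      ≤ ENNReal.ofReal (2 / π) * ∫⁻ θ in Set.Ioc (0 : ℝ) (π / 2), G z θ := fun z => by
    rw [hG]; exact arc_exp hf z.2 z.1
  have hsw : ∫⁻ z, ENNReal.ofReal (exp (f z.1 - f z.2)) ∂(stdGaussian E).prod (stdGaussian E)
      = ∫⁻ z, ENNReal.ofReal (exp (f z.2 - f z.1)) ∂(stdGaussian E).prod (stdGaussian E) := by
    exact (lintegral_prod_swap (fun z : E × E => ENNReal.ofReal (exp (f z.1 - f z.2)))).symm
  rw [hsw, ← hγ]
  refine (lintegral_mono hpt).trans ?_
  have : SFinite γ := by rw [hγ]; infer_instance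
  rw [lintegral_const_mul' _ _ ENNReal.ofReal_ne_top, lintegral_lintegral_swap hGm.aemeasurable]
  simp only [hθ]
  rw [setLIntegral_const, Real.volume_Ioc, sub_zero, mul_left_comm,
    ← ENNReal.ofReal_mul (by positivity), show 2 / π * (π / 2) = 1 by field_simp,
    ENNReal.ofReal_one, mul_one]

/-- Centred exponential moment from (M) and Jensen. -/
theorem lintegral_exp_centred_le {f : E → ℝ} (hf : ContDiff ℝ 1 f)
    (hi : Integrable f (stdGaussian E)) :
    ∫⁻ x, ENNReal.ofReal (exp (f x - ∫ y, f y ∂stdGaussian E)) ∂stdGaussian E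
      ≤ ∫⁻ x, ENNReal.ofReal (exp (π ^ 2 / 8 * ‖fderiv ℝ f x‖ ^ 2)) ∂stdGaussian E := by
  refine le_trans ?_ (lintegral_exp_sub_le hf)
  have hm : Measurable fun z : E × E => ENNReal.ofReal (exp (f z.1 - f z.2)) :=
    (continuous_exp.comp ((hf.continuous.comp continuous_fst).sub
      (hf.continuous.comp continuous_snd))).measurable.ennreal_ofReal
  rw [lintegral_prod _ hm.aemeasurable]
  refine lintegral_mono fun x => ?_
  by_cases hj : Integrable (fun y => exp (f x - f y)) (stdGaussian E)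
  · rw [← ofReal_integral_eq_lintegral_ofReal hj (ae_of_all _ fun y => (exp_pos _).le)]
    refine ENNReal.ofReal_le_ofReal ?_
    have h := convexOn_exp.map_integral_le (μ := stdGaussian E) continuous_exp.continuousOn
      isClosed_univ (f := fun y => f x - f y) (ae_of_all _ fun y => Set.mem_univ _)
      ((integrable_const _).sub hi) hj
    rw [integral_sub (integrable_const _) hi, integral_const, probReal_univ, one_smul] at h
    exact h
  · refine le_top.trans (le_of_eq ?_)
    by_contra hne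
    refine hj ⟨(continuous_exp.comp (continuous_const.sub hf.continuous)).aestronglyMeasurable, ?_⟩
    rw [hasFiniteIntegral_iff_ofReal (ae_of_all _ fun y => (exp_pos _).le)]
    exact lt_top_iff_ne_top.2 (Ne.symm hne)

/-- `E exp (c |x|²) ≤ exp (2 c dim)`. -/
lemma lintegral_exp_sq_le {c : ℝ} (hc0 : 0 ≤ c) (hc : c ≤ 1 / 4) :
    ∫⁻ x, ENNReal.ofReal (exp (c * ‖x‖ ^ 2)) ∂stdGaussian E
      ≤ ENNReal.ofReal (exp (2 * c * Module.finrank ℝ E)) := by
  obtain ⟨n, hn⟩ : ∃ n, n = Module.finrank ℝ E := ⟨_, rfl⟩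
  rw [← hn]
  set e : OrthonormalBasis (Fin n) ℝ E := hn ▸ stdOrthonormalBasis ℝ E
  have h1 : ∫⁻ x, ENNReal.ofReal (exp (c * ‖x‖ ^ 2)) ∂stdGaussian E
      = ∫⁻ x : Fin n → ℝ, ENNReal.ofReal (∏ i, exp (c * x i ^ 2))
          ∂Measure.pi fun _ => gaussianReal 0 1 := by
    rw [stdGaussian_eq_map_pi_orthonormalBasis e,
      lintegral_map (by fun_prop) (by fun_prop)]
    refine lintegral_congr fun x => ?_
    congr 1
    rw [← exp_sum, ← Finset.mul_sum]
    congr 2
    rw [← real_inner_self_eq_norm_sq, e.orthonormal.inner_sum]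
    simp [sq]
  have hone : ∫ x, exp (c * x ^ 2) ∂gaussianReal 0 1 = (√(1 - 2 * c))⁻¹ := by
    rw [integral_gaussianReal_eq_integral_smul one_ne_zero]
    have e : ∀ x : ℝ, gaussianPDFReal 0 1 x • exp (c * x ^ 2)
        = (√(2 * π))⁻¹ * exp (-(1 / 2 - c) * x ^ 2) := fun x => by
      simp only [gaussianPDFReal, NNReal.coe_one, mul_one, sub_zero, smul_eq_mul, mul_assoc,
        ← exp_add]
      congr 2
      ring
    simp only [e]
    rw [integral_const_mul, integral_gaussian, ← sqrt_inv, ← sqrt_mul (by positivity), ← sqrt_inv]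
    congr 1
    field_simp
  have hint : Integrable (fun x : ℝ => exp (c * x ^ 2)) (gaussianReal 0 1) := by
    by_contra h
    rw [integral_undef h] at hone
    have : 0 < (√(1 - 2 * c))⁻¹ := inv_pos.2 (sqrt_pos.2 (by linarith))
    linarith
  rw [h1, ← ofReal_integral_eq_lintegral_ofReal (Integrable.fintype_prod fun _ => hint)
    (ae_of_all _ fun x => Finset.prod_nonneg fun i _ => (exp_pos _).le)]
  refine ENNReal.ofReal_le_ofReal ?_
  rw [integral_fintype_prod_eq_prod (fun _ : Fin n => fun x : ℝ => exp (c * x ^ 2))]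
  simp only [hone, Finset.prod_const, Finset.card_univ, Fintype.card_fin]
  rw [show 2 * c * (n : ℝ) = (n : ℝ) * (2 * c) by ring, exp_nat_mul]
  refine pow_le_pow_left₀ (by positivity) ?_ _
  rw [inv_le_iff_one_le_mul₀' (sqrt_pos.2 (by linarith))]
  have h2 : 0 ≤ 1 - 2 * c := by linarith
  have h3 := add_one_le_exp (2 * c)
  have h4 : 1 ≤ (1 - 2 * c) * (2 * c + 1) ^ 2 := by nlinarith [mul_nonneg hc0 (sub_nonneg.2 hc)]
  have h5 : 1 ≤ (√(1 - 2 * c) * exp (2 * c)) ^ 2 := by
    rw [mul_pow, sq_sqrt h2]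
    exact h4.trans (mul_le_mul_of_nonneg_left (pow_le_pow_left₀ (by linarith) h3 2) h2)
  nlinarith [mul_nonneg (sqrt_nonneg (1 - 2 * c)) (exp_pos (2 * c)).le]

/-- (T): a centred map with derivative at most `L` has Gaussian-like squared norm. -/
theorem lintegral_exp_norm_sq_le {n : E → F} (hn : ContDiff ℝ 1 n) {L lam : ℝ}
    (hL : ∀ x, ‖fderiv ℝ n x‖ ≤ L) (hi : Integrable n (stdGaussian E))
    (h0 : ∫ x, n x ∂stdGaussian E = 0) (hlam : 0 ≤ lam) (hsmall : π ^ 2 * lam * L ^ 2 ≤ 1) :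
    ∫⁻ x, ENNReal.ofReal (exp (lam * ‖n x‖ ^ 2)) ∂stdGaussian E
      ≤ ENNReal.ofReal (exp (π ^ 2 * lam * L ^ 2 / 2 * Module.finrank ℝ F)) := by
  set s := √(2 * lam)
  have hs : s ^ 2 = 2 * lam := sq_sqrt (by linarith)
  have hpt : ∀ x, ENNReal.ofReal (exp (lam * ‖n x‖ ^ 2))
      = ∫⁻ G, ENNReal.ofReal (exp (s * ⟪G, n x⟫)) ∂stdGaussian F := fun x => by
    have := lintegral_exp_dual (s • innerSL ℝ (n x))
    simp only [smul_apply, smul_eq_mul, norm_smul, innerSL_apply_norm,
      norm_eq_abs, mul_pow, sq_abs, hs, innerSL_apply_apply] at this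
    rw [show lam * ‖n x‖ ^ 2 = 2 * lam * ‖n x‖ ^ 2 / 2 by ring, ← this]
    exact lintegral_congr fun G => by rw [real_inner_comm]
  have hjm : Measurable fun q : E × F => ENNReal.ofReal (exp (s * ⟪q.2, n q.1⟫)) :=
    (continuous_exp.comp (continuous_const.mul
      (continuous_snd.inner (hn.continuous.comp continuous_fst)))).measurable.ennreal_ofReal
  simp only [hpt]
  rw [lintegral_lintegral_swap hjm.aemeasurable]
  refine le_trans (lintegral_mono (g := fun G =>
    ENNReal.ofReal (exp (π ^ 2 * lam * L ^ 2 / 4 * ‖G‖ ^ 2))) fun G => ?_) ?_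
  · set l : F →L[ℝ] ℝ := s • innerSL ℝ G
    have hf : ContDiff ℝ 1 fun x => l (n x) := l.contDiff.comp hn
    have hl : ∀ x, l (n x) = s * ⟪G, n x⟫ := fun x => rfl
    have hint : ∫ x, l (n x) ∂stdGaussian E = 0 := by
      rw [l.integral_comp_comm hi, h0, map_zero]
    have h := lintegral_exp_centred_le hf (l.integrable_comp hi)
    simp only [hint, sub_zero] at h
    simp only [hl] at h
    refine h.trans ((lintegral_mono (g := fun _ =>
      ENNReal.ofReal (exp (π ^ 2 * lam * L ^ 2 / 4 * ‖G‖ ^ 2))) fun x => ?_).trans (le_of_eq ?_))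
    · refine ENNReal.ofReal_le_ofReal (exp_le_exp.2 ?_)
      have hd : fderiv ℝ (fun x => s * ⟪G, n x⟫) x = l.comp (fderiv ℝ n x) :=
        (l.hasFDerivAt.comp x (hn.differentiable one_ne_zero x).hasFDerivAt).fderiv
      have hnl : ‖l‖ = s * ‖G‖ := by
        simp [l, norm_smul, abs_of_nonneg (sqrt_nonneg _), s]
      have h2 : ‖fderiv ℝ (fun x => s * ⟪G, n x⟫) x‖ ≤ s * ‖G‖ * L := by
        rw [hd, ← hnl]
        exact (ContinuousLinearMap.opNorm_comp_le _ _).trans
          (mul_le_mul_of_nonneg_left (hL x) (norm_nonneg _))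
      have h3 := pow_le_pow_left₀ (norm_nonneg _) h2 2
      rw [mul_pow, mul_pow, hs] at h3
      have h4 := mul_le_mul_of_nonneg_left h3 (show (0:ℝ) ≤ π ^ 2 / 8 by positivity)
      refine h4.trans (le_of_eq ?_)
      ring
    · rw [lintegral_const, measure_univ, mul_one]
  · refine (lintegral_exp_sq_le (E := F) (by positivity) (by linarith)).trans (le_of_eq ?_)
    congr 2
    ring

end Vale.Agent.P347.Quarter
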