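import Vale.Agent.P347.Quarter.Algo

/-! # P347: the half step and the last draw against the oracle law -/

open MeasureTheory ProbabilityTheory Real
open scoped RealInnerProductSpace

namespace Vale.Agent.P347.Quarter

variable {d : ℕ} {V : Sp d → ℝ} {G : Sp d → Sp d} {H : Sp d → Sp d →L[ℝ] Sp d} {h : ℝ}

/-- The centre is close enough to the minimiser. -/
lemma norm_whG_centre (hV : IsPot V G H 1 2) (hG0 : G 0 = 0) (hh : 0 < h) {M : ℕ} {y : Sp d}
    (hM : (2 * h) ^ M * ‖y‖ ≤ √(h * d)) :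
    ‖whG G h y (centre G h M y) 0‖ ≤ 2 * h * √(d : ℝ) := by
  refine (centre_resid hV hG0 hh M y).trans ?_
  rw [mul_assoc _ ((2 * h) ^ M) ‖y‖]
  refine (mul_le_mul_of_nonneg_left hM (by positivity)).trans_eq ?_
  rw [sqrt_mul hh.le, ← mul_assoc, mul_assoc 2 √h √h, mul_self_sqrt hh.le]

theorem halfStep_spec (C₀ : ℝ) : ∃ C c₀ : ℝ, 0 ≤ C ∧ 0 < c₀ ∧
    ∀ {d N : ℕ} {r : Rule N} {h εq : ℝ}, 1 ≤ d → 0 < h → h ≤ 1 / 4 → 0 ≤ εq →
    IsRule d C₀ h εq r → stepErr d h εq ^ 2 ≤ c₀ →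
    ∀ {V : Sp d → ℝ} {G : Sp d → Sp d} {H : Sp d → Sp d →L[ℝ] Sp d}, IsPot V G H 1 2 → G 0 = 0 →
    ∀ (M : ℕ) (y : Sp d), (2 * h) ^ M * ‖y‖ ≤ √(h * d) →
      (∀ φ : Sp d → ℝ, Measurable φ → MemLp φ 2 (halfLaw V h y) →
        Integrable (fun p => φ (halfStep r G h M p y)) (seedGam d) ∧
          |(∫ p, φ (halfStep r G h M p y) ∂seedGam d) - ∫ x, φ x ∂halfLaw V h y| ≤
            C * stepErr d h εq * √(∫ x, φ x ^ 2 ∂halfLaw V h y)) ∧
      ‖(∫ p, halfStep r G h M p y ∂seedGam d) - ∫ x, x ∂rgo V h y‖ ≤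
        √h * (C * meanErr d (2 * h) (2 * h) εq) := by
  obtain ⟨C, c₀, hC, hc₀, hstep⟩ := step_whitened C₀
  refine ⟨C, c₀, hC, hc₀, ?_⟩
  intro d N r h εq hd hh hh4 hεq hr hse V G H hV hG0 M y hM
  set x := centre G h M y with hx
  have hW : IsPot (whW V h y x) (whG G h y x) (fun z => h • H (x + √h • z)) 0 (2 * h) :=
    isPot_whW hV hh y x
  have hW0 : ‖whG G h y x 0‖ ≤ 2 * h * √(d : ℝ) := norm_whG_centre hV hG0 hh hM
  rw [stepErr, sq_sqrt (by positivity)] at hse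
  obtain ⟨hchi, hint, hmean⟩ := hstep hd hW hW0 (by linarith : 0 < 2 * h) (by linarith) hεq
    hr.node₀ hr.node₁ hr.sum₀ hr.sum₁ hr.mass (hr.err₀ hW hW0) (hr.err₁ hW hW0) hse
  have := isProb_gibbs hW le_rfl
  set μ := ((gibbs (whW V h y x)).prod (gd d)).map fun p => p.1 + √(1 / 2) • p.2 with hμ
  have he : Measurable fun z : Sp d => x + √h • z := by fun_prop
  have hhalf : halfLaw V h y = μ.map fun z => x + √h • z := by
    rw [halfLaw_whiten hV hh y x, hμ, Measure.map_map he (by fun_prop)]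
    rfl
  refine ⟨fun φ hφ hφ2 => ?_, ?_⟩
  · rw [hhalf] at hφ2 ⊢
    have h2 : MemLp (fun z => φ (x + √h • z)) 2 μ :=
      (memLp_map_measure_iff hφ.aestronglyMeasurable he.aemeasurable).1 hφ2
    obtain ⟨hi, hb⟩ := hchi (fun z => φ (x + √h • z)) (hφ.comp he) h2
    rw [integral_map he.aemeasurable hφ.aestronglyMeasurable,
      integral_map he.aemeasurable (hφ.pow_const 2).aestronglyMeasurable]
    exact ⟨hi, hb⟩
  · set Z := stepZ r.w₀ r.v₀ r.w₁ r.v₁ (2 * h) (whG G h y x) with hZ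
    have e : (fun p => halfStep r G h M p y) = fun p => x + √h • Z p := rfl
    have hid : Integrable (fun z : Sp d => z) (gibbs (whW V h y x)) :=
      (gibbs_exp_norm hW le_rfl 1).mono' aestronglyMeasurable_id (ae_of_all _ fun z => by
        linarith [add_one_le_exp (1 * ‖z‖)])
    rw [e, integral_add (integrable_const x) (hint.fun_smul √h), integral_smul,
      rgo_whiten hV hh y x, integral_map (f := fun z : Sp d => z) he.aemeasurable
        aestronglyMeasurable_id,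
      integral_add (integrable_const x) (hid.fun_smul √h), integral_smul, integral_const,
      integral_const, probReal_univ, probReal_univ, add_sub_add_left_eq_sub, ← smul_sub,
      norm_smul, norm_of_nonneg (sqrt_nonneg h)]
    exact mul_le_mul_of_nonneg_left hmean (sqrt_nonneg h)

theorem lastOp_spec : ∃ C c₀ : ℝ, 0 ≤ C ∧ 0 < c₀ ∧
    ∀ {d : ℕ} {h : ℝ}, 1 ≤ d → 0 < h → h ≤ 1 / 4 → h ^ 2 * d ≤ c₀ →
    ∀ {V : Sp d → ℝ} {G : Sp d → Sp d} {H : Sp d → Sp d →L[ℝ] Sp d}, IsPot V G H 1 2 → G 0 = 0 →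
    ∀ (M : ℕ) (y : Sp d), (2 * h) ^ M * ‖y‖ ≤ √(h * d) →
    ∀ {f : Sp d → ℝ}, Measurable f → (∀ x, |f x| ≤ 1) →
      |lastOp G h M f y - ∫ x, f x ∂rgo V h y| ≤ C * h * √d := by
  obtain ⟨C, c₀, hC, hc₀, htilt⟩ := tilt_chi
  refine ⟨4 * C, c₀ / 12, by positivity, by positivity, ?_⟩
  intro d h hd hh hh4 hsmall V G H hV hG0 M y hM f hf hf1
  set x := centre G h M y with hx
  have hW : IsPot (whW V h y x) (whG G h y x) (fun z => h • H (x + √h • z)) 0 (2 * h) :=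
    isPot_whW hV hh y x
  have hW0 : ‖whG G h y x 0‖ ≤ 2 * h * √(d : ℝ) := norm_whG_centre hV hG0 hh hM
  have := isProb_gibbs hW le_rfl
  have hd1 : (1 : ℝ) ≤ d := by exact_mod_cast hd
  have hfd : fderiv ℝ (whW V h y x) = fun z => innerSL ℝ (whG G h y x z) :=
    funext fun z => (hW.hasGrad z).fderiv
  have hsm : ContDiff ℝ 1 (whW V h y x) := contDiff_one_iff_fderiv.2
    ⟨fun z => (hW.hasGrad z).differentiableAt, by
      rw [hfd]; exact (innerSL ℝ).continuous.comp hW.continuous_grad⟩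
  have hbd : ∀ z, ‖fderiv ℝ (whW V h y x) z‖ ≤ 2 * h * √(d : ℝ) + 2 * h * ‖z‖ := fun z => by
    rw [hfd, innerSL_apply_norm]
    exact (hW.norm_grad_le (by positivity) z).trans (add_le_add hW0 le_rfl)
  have hA : (2 * h * √(d : ℝ)) ^ 2 + (2 * h) ^ 2 * d + (2 * h) ^ 2 ≤ 12 * (h ^ 2 * d) := by
    rw [mul_pow, sq_sqrt (Nat.cast_nonneg d)]
    nlinarith [mul_le_mul_of_nonneg_left hd1 (sq_nonneg h)]
  have he : Measurable fun z : Sp d => x + √h • z := by fun_prop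
  have hφ : Measurable fun z : Sp d => f (x + √h • z) := hf.comp he
  obtain ⟨-, hb⟩ := htilt hsm (by positivity) (by positivity) hbd (hA.trans (by linarith))
    (fun z => f (x + √h • z)) hφ
    (MemLp.of_bound hφ.aestronglyMeasurable 1 (ae_of_all _ fun z => hf1 _))
  rw [lastOp, ← hx, rgo_whiten hV hh y x, integral_map he.aemeasurable hf.aestronglyMeasurable]
  refine hb.trans ?_
  have hs : √(∫ z, f (x + √h • z) ^ 2 ∂gibbs (whW V h y x)) ≤ 1 := by
    rw [sqrt_le_one]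
    refine (le_abs_self _).trans ((norm_integral_le_of_norm_le_const (C := 1)
      (μ := gibbs (whW V h y x)) (f := fun z => f (x + √h • z) ^ 2)
      (ae_of_all _ fun z => ?_)).trans_eq (by simp))
    rw [norm_pow, norm_eq_abs]
    exact pow_le_one₀ (abs_nonneg _) (hf1 _)
  have hq : √(12 * (h ^ 2 * d)) ≤ 4 * h * √(d : ℝ) := by
    rw [sqrt_le_left (by positivity), mul_pow, sq_sqrt (Nat.cast_nonneg d)]
    nlinarith [mul_nonneg (sq_nonneg h) (Nat.cast_nonneg (α := ℝ) d)]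
  calc C * √((2 * h * √(d : ℝ)) ^ 2 + (2 * h) ^ 2 * d + (2 * h) ^ 2) *
        √(∫ z, f (x + √h • z) ^ 2 ∂gibbs (whW V h y x))
      ≤ C * (4 * h * √(d : ℝ)) * 1 :=
        mul_le_mul (mul_le_mul_of_nonneg_left ((sqrt_le_sqrt hA).trans hq) hC) hs (sqrt_nonneg _)
          (by positivity)
    _ = 4 * C * h * √(d : ℝ) := by ring

end Vale.Agent.P347.Quarter
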