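import Mathlib.Probability.Kernel.Composition.MeasureComp
import Mathlib.MeasureTheory.Measure.GiryMonad
import Mathlib.MeasureTheory.Measure.Prod
import Mathlib.MeasureTheory.Constructions.Pi
import Mathlib.MeasureTheory.Integral.Prod

/-! # P347: adaptive randomised programs with a query budget, and their composition -/

namespace Vale.Agent.P347.Quarter

open MeasureTheory

/-- An adaptive randomised program from inputs `α` to outputs `β` asking questions in `X` and
receiving answers in `R`. The history is a sequence; only the answered places differ from the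
default. -/
structure Prog (X R α β : Type) [MeasurableSpace X] [MeasurableSpace R] [MeasurableSpace α]
    [MeasurableSpace β] where
  /-- the space of seeds -/
  Seed : Type
  seedSpace : MeasurableSpace Seed
  seedLaw : @Measure Seed seedSpace
  seedProb : @IsProbabilityMeasure Seed seedSpace seedLaw
  /-- the question number `k` -/
  qry : ℕ → Seed → α → (ℕ → R) → X
  /-- the output -/
  out : Seed → α → (ℕ → R) → β
  /-- the number of questions asked -/
  cost : ℕ
  qry_meas : ∀ k, Measurable fun p : Seed × α × (ℕ → R) => qry k p.1 p.2.1 p.2.2
  out_meas : Measurable fun p : Seed × α × (ℕ → R) => out p.1 p.2.1 p.2.2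

attribute [instance] Prog.seedSpace Prog.seedProb

variable {X R α β γ : Type} [MeasurableSpace X] [MeasurableSpace R] [Inhabited R]
  [MeasurableSpace α] [MeasurableSpace β] [MeasurableSpace γ]

namespace Prog

/-- The history after `k` questions. -/
def hist (p : Prog X R α β) (O : X → R) (s : p.Seed) (a : α) : ℕ → ℕ → R
  | 0 => fun _ => default
  | k + 1 => Function.update (p.hist O s a k) k (O (p.qry k s a (p.hist O s a k)))

/-- The output against the oracle `O`. -/
def run (p : Prog X R α β) (O : X → R) (s : p.Seed) (a : α) : β :=
  p.out s a (p.hist O s a p.cost)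

/-- The law of the output. -/
noncomputable def law (p : Prog X R α β) (O : X → R) (a : α) : Measure β :=
  p.seedLaw.map fun s => p.run O s a

variable (p : Prog X R α β) {O : X → R}

theorem measurable_hist (hO : Measurable O) (k : ℕ) :
    Measurable fun q : p.Seed × α => p.hist O q.1 q.2 k := by
  induction k with
  | zero => exact measurable_const
  | succ k ih =>
    refine measurable_pi_lambda _ fun j => ?_
    by_cases h : j = k
    · subst h
      simp only [hist, Function.update_self]
      exact hO.comp ((p.qry_meas j).comp (measurable_fst.prodMk (measurable_snd.prodMk ih)))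
    · simp only [hist, Function.update_of_ne h]
      exact (measurable_pi_apply j).comp ih

theorem measurable_run (hO : Measurable O) :
    Measurable fun q : p.Seed × α => p.run O q.1 q.2 :=
  p.out_meas.comp (measurable_fst.prodMk (measurable_snd.prodMk (p.measurable_hist hO p.cost)))

theorem isProbabilityMeasure_law (hO : Measurable O) (a : α) :
    IsProbabilityMeasure (p.law O a) :=
  Measure.isProbabilityMeasure_map
    ((p.measurable_run hO).comp measurable_prodMk_right).aemeasurable

theorem measurable_law (hO : Measurable O) : Measurable fun a => p.law O a := by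
  refine Measure.measurable_of_measurable_coe _ fun B hB => ?_
  have hr := p.measurable_run hO
  have e : (fun a => p.law O a B) =
      fun a => p.seedLaw ((fun s => (s, a)) ⁻¹' ((fun q => p.run O q.1 q.2) ⁻¹' B)) := by
    funext a
    have h : Measurable fun s => p.run O s a := hr.comp measurable_prodMk_right
    rw [Prog.law, Measure.map_apply h hB]
    rfl
  rw [e]
  exact measurable_measure_prodMk_right (hr hB)

/-- No question. -/
noncomputable def ofFun [Nonempty X] (S : Type) [MeasurableSpace S] (μ : Measure S) [IsProbabilityMeasure μ]
    (f : S → α → β) (hf : Measurable fun q : S × α => f q.1 q.2) : Prog X R α β where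
  Seed := S
  seedSpace := inferInstance
  seedLaw := μ
  seedProb := inferInstance
  qry := fun _ _ _ _ => Classical.ofNonempty
  out := fun s a _ => f s a
  cost := 0
  qry_meas := fun _ => measurable_const
  out_meas := hf.comp (measurable_fst.prodMk (measurable_fst.comp measurable_snd))

variable (r : Prog X R β γ)

/-- The first `n` places of a history. -/
def cutHist (n : ℕ) (h : ℕ → R) : ℕ → R := fun j => if j < n then h j else default

omit [MeasurableSpace X] [MeasurableSpace α] [MeasurableSpace β] [MeasurableSpace γ] in
theorem measurable_cutHist (n : ℕ) : Measurable (cutHist (R := R) n) :=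
  measurable_pi_lambda _ fun j => by
    by_cases h : j < n
    · simpa only [cutHist, if_pos h] using measurable_pi_apply (X := fun _ : ℕ => R) j
    · simpa only [cutHist, if_neg h] using measurable_const

/-- Run `p`, then `r` on its output, with independent seeds. -/
noncomputable def andThen (p : Prog X R α β) (r : Prog X R β γ) : Prog X R α γ where
  Seed := p.Seed × r.Seed
  seedSpace := inferInstance
  seedLaw := p.seedLaw.prod r.seedLaw
  seedProb := inferInstance
  qry := fun k s a h =>
    if k < p.cost then p.qry k s.1 a h
    else r.qry (k - p.cost) s.2 (p.out s.1 a (cutHist p.cost h)) (fun j => h (p.cost + j))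
  out := fun s a h => r.out s.2 (p.out s.1 a (cutHist p.cost h)) (fun j => h (p.cost + j))
  cost := p.cost + r.cost
  qry_meas := fun k => by
    have hmid : Measurable fun q : (p.Seed × r.Seed) × α × (ℕ → R) =>
        p.out q.1.1 q.2.1 (cutHist p.cost q.2.2) :=
      p.out_meas.comp (f := fun q : (p.Seed × r.Seed) × α × (ℕ → R) =>
        (q.1.1, q.2.1, cutHist p.cost q.2.2)) ((measurable_fst.comp measurable_fst).prodMk
          ((measurable_fst.comp measurable_snd).prodMk
            ((measurable_cutHist _).comp (measurable_snd.comp measurable_snd))))
    have hshift : Measurable fun q : (p.Seed × r.Seed) × α × (ℕ → R) =>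
        fun j => q.2.2 (p.cost + j) :=
      measurable_pi_lambda _ fun j =>
        (measurable_pi_apply _).comp (measurable_snd.comp measurable_snd)
    by_cases h : k < p.cost
    · simp only [if_pos h]
      exact (p.qry_meas k).comp (f := fun q : (p.Seed × r.Seed) × α × (ℕ → R) => (q.1.1, q.2))
        ((measurable_fst.comp measurable_fst).prodMk measurable_snd)
    · simp only [if_neg h]
      exact (r.qry_meas _).comp ((measurable_snd.comp measurable_fst).prodMk (hmid.prodMk hshift))
  out_meas := by
    have hmid : Measurable fun q : (p.Seed × r.Seed) × α × (ℕ → R) =>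
        p.out q.1.1 q.2.1 (cutHist p.cost q.2.2) :=
      p.out_meas.comp (f := fun q : (p.Seed × r.Seed) × α × (ℕ → R) =>
        (q.1.1, q.2.1, cutHist p.cost q.2.2)) ((measurable_fst.comp measurable_fst).prodMk
          ((measurable_fst.comp measurable_snd).prodMk
            ((measurable_cutHist _).comp (measurable_snd.comp measurable_snd))))
    exact r.out_meas.comp ((measurable_snd.comp measurable_fst).prodMk (hmid.prodMk
      (measurable_pi_lambda _ fun j =>
        (measurable_pi_apply _).comp (measurable_snd.comp measurable_snd))))

theorem hist_eq_default (O : X → R) (s : p.Seed) (a : α) :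
    ∀ k j, k ≤ j → p.hist O s a k j = default
  | 0, _, _ => rfl
  | k + 1, j, h => by
    simp only [hist]
    rw [Function.update_of_ne (by omega)]
    exact hist_eq_default O s a k j (by omega)

theorem hist_andThen_left (O : X → R) (s : (p.andThen r).Seed) (a : α) :
    ∀ k, k ≤ p.cost → (p.andThen r).hist O s a k = p.hist O s.1 a k
  | 0, _ => rfl
  | k + 1, hk => by
    simp only [hist]
    rw [hist_andThen_left O s a k (by omega)]
    simp [andThen, Nat.lt_of_succ_le hk]

theorem hist_andThen_right (O : X → R) (s : (p.andThen r).Seed) (a : α) :
    ∀ k, cutHist p.cost ((p.andThen r).hist O s a (p.cost + k)) = p.hist O s.1 a p.cost ∧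
      (fun j => (p.andThen r).hist O s a (p.cost + k) (p.cost + j)) =
        r.hist O s.2 (p.run O s.1 a) k
  | 0 => by
    rw [Nat.add_zero, hist_andThen_left p r O s a p.cost le_rfl]
    refine ⟨funext fun j => ?_, funext fun j => ?_⟩
    · by_cases h : j < p.cost
      · simp [cutHist, h]
      · simp [cutHist, h, hist_eq_default p O s.1 a p.cost j (by omega)]
    · simp [hist, hist_eq_default p O s.1 a p.cost (p.cost + j) (by omega)]
  | k + 1 => by
    obtain ⟨h1, h2⟩ := hist_andThen_right O s a k
    have hq : (p.andThen r).qry (p.cost + k) s a ((p.andThen r).hist O s a (p.cost + k)) =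
        r.qry k s.2 (p.run O s.1 a) (r.hist O s.2 (p.run O s.1 a) k) := by
      simp only [andThen, show ¬ p.cost + k < p.cost by omega, if_false,
        show p.cost + k - p.cost = k by omega]
      rw [show p.run O s.1 a = p.out s.1 a (p.hist O s.1 a p.cost) from rfl]
      exact congrArg₂ (fun b h => r.qry k s.2 b h) (congrArg (p.out s.1 a) h1) h2
    refine ⟨funext fun j => ?_, funext fun j => ?_⟩
    · rw [← congrFun h1 j]
      by_cases h : j < p.cost
      · simp [cutHist, h, hist, show j ≠ p.cost + k by omega]
      · simp [cutHist, h]
    · rw [show p.cost + (k + 1) = p.cost + k + 1 by omega]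
      simp only [hist]
      by_cases h : j = k
      · subst h
        rw [Function.update_self, Function.update_self, hq]
      · rw [Function.update_of_ne (by omega), Function.update_of_ne h, ← congrFun h2 j]

theorem run_andThen (O : X → R) (s : (p.andThen r).Seed) (a : α) :
    (p.andThen r).run O s a = r.run O s.2 (p.run O s.1 a) := by
  obtain ⟨h1, h2⟩ := hist_andThen_right p r O s a r.cost
  exact congrArg₂ (fun b h => r.out s.2 b h) (congrArg (p.out s.1 a) h1) h2

/-- The law of a composition is the composition of the laws. -/
theorem law_andThen (hO : Measurable O) (a : α) :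
    (p.andThen r).law O a = (p.law O a).bind fun b => r.law O b := by
  have hp : Measurable fun s => p.run O s a := (p.measurable_run hO).comp measurable_prodMk_right
  have hr := r.measurable_run hO
  have hlaw := r.measurable_law hO
  ext B hB
  rw [Measure.bind_apply hB hlaw.aemeasurable]
  have hpr : Measurable fun s => (p.andThen r).run O s a :=
    ((p.andThen r).measurable_run hO).comp measurable_prodMk_right
  rw [Prog.law, Measure.map_apply hpr hB]
  have hg : Measurable fun b => r.law O b B := (Measure.measurable_coe hB).comp hlaw
  rw [Prog.law, lintegral_map hg hp]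
  change (p.seedLaw.prod r.seedLaw) _ = _
  have e : (fun s => (p.andThen r).run O s a) ⁻¹' B =
      (fun s : p.Seed × r.Seed => r.run O s.2 (p.run O s.1 a)) ⁻¹' B := by
    ext s
    show (p.andThen r).run O s a ∈ B ↔ r.run O s.2 (p.run O s.1 a) ∈ B
    rw [run_andThen]
  have hm : MeasurableSet ((fun s : p.Seed × r.Seed => r.run O s.2 (p.run O s.1 a)) ⁻¹' B) :=
    (hr.comp (measurable_snd.prodMk (hp.comp measurable_fst))) hB
  erw [e, Measure.prod_apply hm]
  refine lintegral_congr fun s => ?_
  have hrs : Measurable fun t => r.run O t (p.run O s a) := hr.comp measurable_prodMk_right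
  rw [Prog.law, Measure.map_apply hrs hB]
  rfl

/-- The identity. -/
noncomputable def idle [Nonempty X] : Prog X R α α :=
  ofFun Unit (Measure.dirac ()) (fun _ a => a) measurable_snd

/-- `n` runs in a row. -/
noncomputable def iter [Nonempty X] (p : Prog X R α α) : ℕ → Prog X R α α
  | 0 => idle
  | n + 1 => (p.iter n).andThen p

theorem cost_iter [Nonempty X] (p : Prog X R α α) : ∀ n, (p.iter n).cost = n * p.cost
  | 0 => by simp [iter, idle, ofFun]
  | n + 1 => by
    change (p.iter n).cost + p.cost = _
    rw [cost_iter p n]
    ring

theorem law_idle [Nonempty X] (a : α) : (idle : Prog X R α α).law O a = Measure.dirac a := by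
  simp only [Prog.law, Prog.run, idle, ofFun]
  exact Measure.map_dirac' measurable_const ()

theorem law_iter_succ [Nonempty X] (p : Prog X R α α) (hO : Measurable O) (n : ℕ) (a : α) :
    (p.iter (n + 1)).law O a = ((p.iter n).law O a).bind fun b => p.law O b :=
  law_andThen _ p hO a

/-- One question at `f s a`, then the output `g s a` of the answer. -/
noncomputable def askOne (S : Type) [MeasurableSpace S] (μ : Measure S) [IsProbabilityMeasure μ]
    (f : S → α → X) (hf : Measurable fun q : S × α => f q.1 q.2) (g : S → α → R → β)
    (hg : Measurable fun q : S × α × R => g q.1 q.2.1 q.2.2) : Prog X R α β where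
  Seed := S
  seedSpace := inferInstance
  seedLaw := μ
  seedProb := inferInstance
  qry := fun _ s a _ => f s a
  out := fun s a h => g s a (h 0)
  cost := 1
  qry_meas := fun _ => hf.comp (measurable_fst.prodMk (measurable_fst.comp measurable_snd))
  out_meas := hg.comp (measurable_fst.prodMk ((measurable_fst.comp measurable_snd).prodMk
    ((measurable_pi_apply 0).comp (measurable_snd.comp measurable_snd))))

theorem run_askOne (S : Type) [MeasurableSpace S] (μ : Measure S) [IsProbabilityMeasure μ]
    (f : S → α → X) (hf : Measurable fun q : S × α => f q.1 q.2) (g : S → α → R → β)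
    (hg : Measurable fun q : S × α × R => g q.1 q.2.1 q.2.2) (s : S) (a : α) :
    (askOne S μ f hf g hg).run O s a = g s a (O (f s a)) := by
  simp [Prog.run, askOne, hist]

theorem cost_andThen : (p.andThen r).cost = p.cost + r.cost := rfl

omit [Inhabited R] in
theorem cost_idle [Nonempty X] : (idle : Prog X R α α).cost = 0 := rfl

omit [Inhabited R] in
theorem cost_ofFun [Nonempty X] (S : Type) [MeasurableSpace S] (μ : Measure S)
    [IsProbabilityMeasure μ] (f : S → α → β) (hf : Measurable fun q : S × α => f q.1 q.2) :
    (ofFun S μ f hf : Prog X R α β).cost = 0 := rfl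

theorem run_ofFun [Nonempty X] (S : Type) [MeasurableSpace S] (μ : Measure S)
    [IsProbabilityMeasure μ] (f : S → α → β) (hf : Measurable fun q : S × α => f q.1 q.2)
    (O : X → R) (s : S) (a : α) : (ofFun S μ f hf : Prog X R α β).run O s a = f s a := rfl

/-- Feed the input `f a` and output `g a b`. -/
noncomputable def adapt {δ : Type} [MeasurableSpace δ] (p : Prog X R α β) (f : δ → α)
    (hf : Measurable f) (g : δ → β → γ) (hg : Measurable (Function.uncurry g)) : Prog X R δ γ where
  Seed := p.Seed
  seedSpace := p.seedSpace
  seedLaw := p.seedLaw
  seedProb := p.seedProb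
  qry := fun k s a h => p.qry k s (f a) h
  out := fun s a h => g a (p.out s (f a) h)
  cost := p.cost
  qry_meas := fun k => (p.qry_meas k).comp (measurable_fst.prodMk
    ((hf.comp (measurable_fst.comp measurable_snd)).prodMk (measurable_snd.comp measurable_snd)))
  out_meas := hg.comp ((measurable_fst.comp measurable_snd).prodMk
    (p.out_meas.comp (measurable_fst.prodMk ((hf.comp (measurable_fst.comp measurable_snd)).prodMk
      (measurable_snd.comp measurable_snd)))))

theorem run_adapt {δ : Type} [MeasurableSpace δ] (f : δ → α)
    (hf : Measurable f) (g : δ → β → γ) (hg : Measurable (Function.uncurry g)) (O : X → R)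
    (s : p.Seed) (a : δ) : (p.adapt f hf g hg).run O s a = g a (p.run O s (f a)) := by
  have h : ∀ k, (p.adapt f hf g hg).hist O s a k = p.hist O s (f a) k := by
    intro k
    induction k with
    | zero => rfl
    | succ k ih =>
      change Function.update _ _ _ = _
      rw [ih]
      rfl
  exact congrArg (fun h => g a (p.out s (f a) h)) (h p.cost)

/-- The composed output, seed by seed. -/
theorem integral_law (hO : Measurable O) {f : β → ℝ} (hf : Measurable f) (a : α) :
    ∫ b, f b ∂p.law O a = ∫ s, f (p.run O s a) ∂p.seedLaw := by
  have h : Measurable fun s => p.run O s a := (p.measurable_run hO).comp measurable_prodMk_right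
  exact integral_map h.aemeasurable hf.aestronglyMeasurable

theorem measurable_integral_law (hO : Measurable O) {f : β → ℝ} (hf : Measurable f) :
    Measurable fun a => ∫ b, f b ∂p.law O a := by
  simp only [p.integral_law hO hf]
  exact ((hf.comp ((p.measurable_run hO).comp measurable_swap)).stronglyMeasurable
    |>.integral_prod_right').measurable

theorem abs_integral_law_le (hO : Measurable O) {f : β → ℝ} {M : ℝ} (hb : ∀ b, |f b| ≤ M)
    (a : α) : |∫ b, f b ∂p.law O a| ≤ M := by
  have := p.isProbabilityMeasure_law hO a
  simpa using norm_integral_le_of_norm_le_const (μ := p.law O a)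
    (Filter.Eventually.of_forall fun b => (Real.norm_eq_abs _).trans_le (hb b))

/-- Integrals against a composition are iterated. -/
theorem integral_andThen (hO : Measurable O) {f : γ → ℝ} (hf : Measurable f) {M : ℝ}
    (hb : ∀ c, |f c| ≤ M) (a : α) :
    ∫ c, f c ∂(p.andThen r).law O a = ∫ b, (∫ c, f c ∂r.law O b) ∂p.law O a := by
  rw [(p.andThen r).integral_law hO hf, p.integral_law hO (r.measurable_integral_law hO hf)]
  simp only [run_andThen, r.integral_law hO hf]
  have hm : Measurable fun s : p.Seed × r.Seed => f (r.run O s.2 (p.run O s.1 a)) :=
    hf.comp ((r.measurable_run hO).comp (measurable_snd.prodMk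
      (((p.measurable_run hO).comp measurable_prodMk_right).comp measurable_fst)))
  exact integral_prod _ (Integrable.of_bound hm.aestronglyMeasurable M
    (Filter.Eventually.of_forall fun _ => hb _))

/-- Integrals against `n` runs in a row. -/
theorem integral_iter [Nonempty X] (p : Prog X R α α) (hO : Measurable O) {M : ℝ} :
    ∀ (n : ℕ) {f : α → ℝ}, Measurable f → (∀ x, |f x| ≤ M) → ∀ a,
      ∫ x, f x ∂(p.iter n).law O a = (fun g b => ∫ x, g x ∂p.law O b)^[n] f a
  | 0, f, hf, _, a => by
    change ∫ x, f x ∂(idle : Prog X R α α).law O a = f a
    rw [law_idle, integral_dirac' f a hf.stronglyMeasurable]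
  | n + 1, f, hf, hb, a => by
    rw [Function.iterate_succ_apply]
    change ∫ x, f x ∂((p.iter n).andThen p).law O a = _
    rw [integral_andThen _ _ hO hf hb,
      integral_iter p hO n (p.measurable_integral_law hO hf) (p.abs_integral_law_le hO hb)]

/-- The transcript form: question `m` sees the seed and the first `m` answers. -/
theorem exists_transcript (a : α) :
    ∃ (query : (m : Fin p.cost) → p.Seed → (Fin m → R) → X)
      (out : p.Seed → (Fin p.cost → R) → β),
      (∀ m, Measurable (Function.uncurry (query m))) ∧ Measurable (Function.uncurry out) ∧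
      ∀ O : X → R, Measurable O → ∃ tr : p.Seed → Fin p.cost → R, Measurable tr ∧
        (∀ s m, tr s m = O (query m s fun j => tr s (Fin.castLE m.isLt.le j))) ∧
        p.seedLaw.map (fun s => out s (tr s)) = p.law O a := by
  let ext : (n : ℕ) → (Fin n → R) → ℕ → R := fun n h j => if hj : j < n then h ⟨j, hj⟩ else default
  have hext : ∀ n, Measurable (ext n) := fun n => measurable_pi_lambda _ fun j => by
    by_cases hj : j < n
    · simpa only [ext, dif_pos hj] using measurable_pi_apply (⟨j, hj⟩ : Fin n)
    · simpa only [ext, dif_neg hj] using measurable_const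
  refine ⟨fun m s h => p.qry m s a (ext m h), fun s h => p.out s a (ext p.cost h), fun m =>
    (p.qry_meas m).comp (measurable_fst.prodMk (measurable_const.prodMk
      ((hext m).comp measurable_snd))),
    p.out_meas.comp (measurable_fst.prodMk (measurable_const.prodMk
      ((hext p.cost).comp measurable_snd))), fun O hO => ?_⟩
  let tr : p.Seed → Fin p.cost → R := fun s m => p.hist O s a p.cost m
  have hstab : ∀ s k n j, j < k → k ≤ n → p.hist O s a n j = p.hist O s a k j := by
    intro s k n j hj hn
    induction n, hn using Nat.le_induction with
    | base => rfl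
    | succ n hn ih =>
      rw [← ih]
      exact Function.update_of_ne (by omega) _ _
  have hre : ∀ s n (hn : n ≤ p.cost),
      ext n (fun j => tr s (Fin.castLE hn j)) = p.hist O s a n := by
    intro s n hn
    funext j
    by_cases hj : j < n
    · simp only [ext, dif_pos hj, tr, Fin.val_castLE]
      exact hstab s n p.cost j hj hn
    · simp only [ext, dif_neg hj]
      exact (p.hist_eq_default O s a n j (by omega)).symm
  refine ⟨tr, measurable_pi_lambda _ fun m => (measurable_pi_apply _).comp
    ((p.measurable_hist hO p.cost).comp measurable_prodMk_right), fun s m => ?_, ?_⟩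
  · simp only [hre s m m.isLt.le]
    refine (hstab s (m + 1) p.cost m (by omega) m.isLt).trans ?_
    exact Function.update_self _ _ _
  · refine congrArg (Measure.map · p.seedLaw) (funext fun s => ?_)
    exact congrArg (p.out s a) (hre s p.cost le_rfl)

end Prog

end Vale.Agent.P347.Quarter
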