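import Vale.Agent.P347.Quarter.Algo
import Vale.Agent.P347.Quarter.Machine

/-! # P347: the algorithm as a program with first order queries -/

open MeasureTheory ProbabilityTheory Real
open scoped RealInnerProductSpace

namespace Vale.Agent.P347.Quarter

variable {d N : ℕ} {α β γ : Type} [MeasurableSpace α] [MeasurableSpace β] [MeasurableSpace γ]

/-- `F` is computed by some program with at most `k` gradient questions, whatever its seed. -/
def Calc (k : ℕ) (F : (Sp d → Sp d) → α → β) : Prop :=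
  ∃ p : Prog (Sp d) (ℝ × Sp d) α β, p.cost ≤ k ∧
    ∀ (V : Sp d → ℝ) (G : Sp d → Sp d) s a, p.run (fun x => (V x, G x)) s a = F G a

namespace Calc

variable {k l : ℕ} {F : (Sp d → Sp d) → α → β}

lemma congr (h : Calc k F) {F' : (Sp d → Sp d) → α → β} (e : ∀ G a, F G a = F' G a) :
    Calc k F' := by
  obtain ⟨p, hp, hr⟩ := h
  exact ⟨p, hp, fun V G s a => (hr V G s a).trans (e G a)⟩

lemma mono (h : Calc k F) (hkl : k ≤ l) : Calc l F := by
  obtain ⟨p, hp, hr⟩ := h
  exact ⟨p, hp.trans hkl, hr⟩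

lemma pure {f : α → β} (hf : Measurable f) : Calc (d := d) 0 fun _ => f :=
  ⟨Prog.ofFun Unit (Measure.dirac ()) (fun _ a => f a) (hf.comp measurable_snd), le_rfl,
    fun _ _ _ _ => rfl⟩

lemma ask {u : α → Sp d} (hu : Measurable u) {g : α → Sp d → β}
    (hg : Measurable (Function.uncurry g)) : Calc 1 fun G a => g a (G (u a)) :=
  ⟨Prog.askOne Unit (Measure.dirac ()) (fun _ a => u a) (hu.comp measurable_snd)
    (fun _ a t => g a t.2) (hg.comp ((measurable_fst.comp measurable_snd).prodMk
      (measurable_snd.comp (measurable_snd.comp measurable_snd)))), le_rfl,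
    fun _ _ s a => Prog.run_askOne Unit (Measure.dirac ()) _ _ _ _ s a⟩

lemma comp (h : Calc k F) {F' : (Sp d → Sp d) → β → γ} (h' : Calc l F') :
    Calc (k + l) fun G a => F' G (F G a) := by
  obtain ⟨p, hp, hr⟩ := h
  obtain ⟨q, hq, hr'⟩ := h'
  refine ⟨p.andThen q, add_le_add hp hq, fun V G s a => ?_⟩
  rw [Prog.run_andThen, hr, hr']

lemma keep (h : Calc k F) : Calc k fun G a => (a, F G a) := by
  obtain ⟨p, hp, hr⟩ := h
  exact ⟨p.adapt id measurable_id (fun a b => (a, b)) measurable_id, hp, fun V G s a =>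
    (p.run_adapt _ _ _ _ _ s a).trans (congrArg (Prod.mk a) (hr V G s a))⟩

lemma pair (h : Calc k F) {F' : (Sp d → Sp d) → α → γ} (h' : Calc l F') :
    Calc (k + l) fun G a => (F G a, F' G a) := by
  obtain ⟨p, hp, hr⟩ := h'
  exact h.keep.comp (F' := fun G t => (t.2, F' G t.1)) ⟨p.adapt Prod.fst measurable_fst (fun t c => (t.2, c))
    ((measurable_snd.comp measurable_fst).prodMk measurable_snd), hp, fun V G s a =>
    (p.run_adapt _ _ _ _ _ s a).trans (congrArg (Prod.mk a.2) (hr V G s a.1))⟩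

lemma sum {n : ℕ} {F : Fin n → (Sp d → Sp d) → α → Sp d} (h : ∀ j, Calc k (F j)) :
    Calc (n * k) fun G a => ∑ j, F j G a := by
  induction n with
  | zero => exact ((pure (f := fun _ => (0 : Sp d)) measurable_const).mono (Nat.zero_le _)).congr fun G a => by simp
  | succ n ih =>
    refine ((((h 0).pair (ih fun j => h j.succ)).comp
      (pure (f := fun t : Sp d × Sp d => t.1 + t.2) (by fun_prop))).mono ?_).congr fun G a => ?_
    · rw [add_zero, add_mul, one_mul, add_comm]
    · simp [Fin.sum_univ_succ]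

lemma iterate {F : (Sp d → Sp d) → α → α} (h : Calc k F) (n : ℕ) :
    Calc (n * k) fun G a => (F G)^[n] a := by
  induction n with
  | zero => exact (pure measurable_id).mono (Nat.zero_le _)
  | succ n ih =>
    refine ((ih.comp h).mono ?_).congr fun G a => (Function.iterate_succ_apply' _ _ _).symm
    rw [add_mul, one_mul]

/-- The computed map followed by a fresh seed. -/
lemma draw {S : Type} [MeasurableSpace S] (μ : Measure S) [IsProbabilityMeasure μ]
    {F : (Sp d → Sp d) → S × α → β} (h : Calc k F) :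
    ∃ p : Prog (Sp d) (ℝ × Sp d) α β, p.cost ≤ k ∧
      ∀ {V : Sp d → ℝ} {G : Sp d → Sp d}, Continuous V → Continuous G →
        (Measurable (F G)) ∧ ∀ {f : β → ℝ}, Measurable f → ∀ {C : ℝ}, (∀ b, |f b| ≤ C) → ∀ a,
          ∫ b, f b ∂p.law (fun x => (V x, G x)) a = ∫ s, f (F G (s, a)) ∂μ := by
  obtain ⟨q, hq, hr⟩ := h
  refine ⟨(Prog.ofFun S μ (fun s a => (s, a)) measurable_id).andThen q,
    (zero_add q.cost).trans_le hq, fun {V G} hV hG => ?_⟩
  have hO : Measurable fun x => (V x, G x) := (hV.prodMk hG).measurable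
  obtain ⟨s₀⟩ := nonempty_of_isProbabilityMeasure q.seedLaw
  have hF : Measurable (F G) := by
    rw [← funext (hr V G s₀)]
    exact (q.measurable_run hO).comp measurable_prodMk_left
  refine ⟨hF, fun {f} hf {C} hb a => ?_⟩
  rw [Prog.integral_andThen _ _ hO hf hb,
    Prog.integral_law _ hO (q.measurable_integral_law hO hf)]
  simp only [q.integral_law hO hf, hr, integral_const, probReal_univ, one_smul]
  rfl

end Calc

lemma calc_centre (h : ℝ) (M : ℕ) : Calc M fun G (y : Sp d) => centre G h M y := by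
  have hs : Calc 1 fun G (t : Sp d × Sp d) => (t.1, proxStep G h t.1 t.2) :=
    Calc.ask (g := fun (t : Sp d × Sp d) v => (t.1, t.1 - h • v)) measurable_snd (by fun_prop)
  refine ((((Calc.pure (f := fun y : Sp d => (y, y)) (by fun_prop)).comp (hs.iterate M)).comp
    (Calc.pure measurable_snd)).mono (by simp)).congr fun G y => ?_
  have e : ∀ m, (fun t : Sp d × Sp d => (t.1, proxStep G h t.1 t.2))^[m] (y, y) =
      (y, (proxStep G h y)^[m] y) := by
    intro m
    induction m with
    | zero => rfl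
    | succ m ih => rw [Function.iterate_succ_apply', Function.iterate_succ_apply', ih]
  exact congrArg Prod.snd (e M)

lemma calc_qsamp (w v : Fin N → ℝ) (h : ℝ) {Y X S Z : α → Sp d} (hY : Measurable Y)
    (hX : Measurable X) (hS : Measurable S) (hZ : Measurable Z) :
    Calc N fun G a => qsamp w v (whG G h (Y a) (X a)) (S a) (Z a) :=
  ((Calc.sum fun j => Calc.ask
    (u := fun a => X a + √h • (v j • S a + √(1 - v j ^ 2) • Z a)) (by fun_prop)
    (g := fun a g => w j • (√h • g + (√h / h) • (X a - Y a))) (by fun_prop)).mono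
      (mul_one N).le).congr fun _ _ => rfl

lemma calc_halfStep (r : Rule N) (h : ℝ) (M : ℕ) :
    Calc (M + 3 * N + 1) fun G (t : Seed d × Sp d) => halfStep r G h M t.1 t.2 := by
  have hA : Calc N fun G (b : (Seed d × Sp d) × Sp d) =>
      qsamp r.w₀ r.v₀ (whG G h b.1.2 b.2) b.1.1.1.1 (fstB b.1.1.2) :=
    calc_qsamp _ _ h (by fun_prop) (by fun_prop) (by fun_prop) (by fun_prop)
  have hB : Calc N fun G (b : (Seed d × Sp d) × Sp d) => qsamp r.w₀ r.v₀ (whG G h b.1.2 b.2)
      (fstB (fstB (sndB b.1.1.2))) (sndB (fstB (sndB b.1.1.2))) :=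
    calc_qsamp _ _ h (by fun_prop) (by fun_prop) (by fun_prop) (by fun_prop)
  have hE : Calc N fun G (b : (Seed d × Sp d) × Sp d) =>
      (b, evalPt r.w₁ r.v₁ (2 * h) (whG G h b.1.2 b.2) b.1.1.2) :=
    (((calc_qsamp r.w₁ r.v₁ h (Y := fun b : (Seed d × Sp d) × Sp d => b.1.2) (X := fun b => b.2)
      (S := fun b => fstB (sndB (sndB b.1.1.2)))
      (Z := fun b => sndB (sndB (sndB (sndB b.1.1.2)))) (by fun_prop) (by fun_prop) (by fun_prop)
      (by fun_prop)).keep.comp (Calc.pure (f := fun t : ((Seed d × Sp d) × Sp d) × Sp d =>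
        (t.1, √(1 - 2 * h) • fstB (sndB (sndB t.1.1.1.2)) +
          √(2 * h) • fstB (sndB (sndB (sndB t.1.1.1.2))) - t.2)) (by fun_prop)))).congr
        fun _ _ => rfl
  have hC : Calc (N + 1) fun G (b : (Seed d × Sp d) × Sp d) =>
      whG G h b.1.2 b.2 (evalPt r.w₁ r.v₁ (2 * h) (whG G h b.1.2 b.2) b.1.1.2) :=
    (hE.comp (Calc.ask (u := fun t : ((Seed d × Sp d) × Sp d) × Sp d => t.1.2 + √h • t.2) (by fun_prop)
      (g := fun t v => √h • v + (√h / h) • (t.1.2 - t.1.1.2)) (by fun_prop))).congr fun _ _ => rfl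
  have hX : Calc M fun G (t : Seed d × Sp d) => centre G h M t.2 :=
    ((Calc.pure measurable_snd).comp (calc_centre h M)).mono (zero_add M).le
  refine ((hX.keep.comp (((hA.pair hB).pair hC).keep.comp
    (Calc.pure (f := fun t : ((Seed d × Sp d) × Sp d) × (Sp d × Sp d) × Sp d => t.1.2 + √h •
      (scl • (t.1.1.1.1.1 - t.2.1.1) + (1 / 2 : ℝ) • t.1.1.1.1.2 + (scl • t.2.1.2 - t.2.2)))
      (by fun_prop)))).mono (by omega)).congr fun _ _ => rfl

lemma calc_step (r : Rule N) (h : ℝ) (M : ℕ) : Calc (M + 3 * N + 1)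
    fun G (t : (Seed d × Sp d) × Sp d) =>
      halfStep r G h M t.1.1 t.2 + √(h / 2) • t.1.2 :=
  (((((Calc.pure (f := fun t : (Seed d × Sp d) × Sp d => (t.1.1, t.2)) (by fun_prop)).comp
    (calc_halfStep r h M)).keep.comp (Calc.pure
      (f := fun t : ((Seed d × Sp d) × Sp d) × Sp d => t.2 + √(h / 2) • t.1.1.2)
      (by fun_prop))).mono (by omega))).congr fun _ _ => rfl

lemma calc_last (h : ℝ) (M : ℕ) :
    Calc M fun G (t : Sp d × Sp d) => centre G h M t.2 + √h • t.1 :=
  (((((Calc.pure measurable_snd).comp (calc_centre h M)).keep.comp (Calc.pure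
      (f := fun t : (Sp d × Sp d) × Sp d => t.2 + √h • t.1.1) (by fun_prop))).mono
        (by omega))).congr fun _ _ => rfl

lemma exists_cascade (M : ℕ) : ∀ (K : ℕ) (r : ℕ → Rule N) (h : ℝ),
    ∃ p : Prog (Sp d) (ℝ × Sp d) (Sp d) (Sp d), p.cost ≤ K * (M + 3 * N + 1) + M ∧
      ∀ {V : Sp d → ℝ} {G : Sp d → Sp d}, Continuous V → Continuous G →
        ∀ {f : Sp d → ℝ}, Measurable f → (∀ x, |f x| ≤ 1) → ∀ y,
          ∫ x, f x ∂p.law (fun x => (V x, G x)) y = cascade G M r h K f y := by
  intro K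
  induction K with
  | zero =>
    intro r h
    obtain ⟨p, hp, hl⟩ := (calc_last (d := d) h M).draw (gd d)
    refine ⟨p, hp.trans (by simp), fun {V G} hV hG {f} hf hb y => ?_⟩
    exact ((hl hV hG).2 hf hb y).trans rfl
  | succ K ih =>
    intro r h
    obtain ⟨p, hp, hl⟩ := (calc_halfStep (d := d) (r 0) h M).draw (seedGam d)
    obtain ⟨q, hq, hlq⟩ := ih (fun k => r (k + 1)) (h / 2)
    refine ⟨p.andThen q, ?_, fun {V G} hV hG {f} hf hb y => ?_⟩
    · rw [Prog.cost_andThen, add_mul, one_mul]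
      omega
    have hO : Measurable fun x => (V x, G x) := (hV.prodMk hG).measurable
    rw [Prog.integral_andThen _ _ hO hf hb, (hl hV hG).2 (q.measurable_integral_law hO hf)
      (q.abs_integral_law_le hO hb)]
    simp only [hlq hV hG hf hb]
    rfl

/-- The algorithm uses at most `(n + K) (M + 3 N + 2) + M + 1` queries of the oracle. -/
theorem exists_prog {d N : ℕ} (r : ℕ → Rule N) (h : ℝ) (M n K : ℕ) :
    ∃ p : Prog (Sp d) (ℝ × Sp d) Unit (Sp d), p.cost ≤ (n + K) * (M + 3 * N + 2) + M + 1 ∧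
      ∀ {V : Sp d → ℝ} {G : Sp d → Sp d}, Continuous V → Continuous G →
        ∀ {f : Sp d → ℝ}, Measurable f → (∀ x, |f x| ≤ 1) →
          ∫ x, f x ∂p.law (fun x => (V x, G x)) () = algoOp G M r h n K f := by
  obtain ⟨p, hp, hl⟩ := (calc_step (d := d) (r 0) h M).draw ((seedGam d).prod (gd d))
  obtain ⟨q, hq, hlq⟩ := exists_cascade (d := d) M K r h
  refine ⟨(Prog.ofFun Unit (Measure.dirac ()) (fun _ _ => (0 : Sp d)) measurable_const).andThen
    ((p.iter n).andThen q), ?_, fun {V G} hV hG {f} hf hb => ?_⟩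
  · simp only [Prog.cost_andThen, Prog.cost_ofFun, Prog.cost_iter]
    nlinarith
  have hO : Measurable fun x => (V x, G x) := (hV.prodMk hG).measurable
  have hm := q.measurable_integral_law hO hf
  have hbq := q.abs_integral_law_le hO hb
  obtain ⟨hFm, hpl⟩ := hl hV hG
  have key : ∀ (m : ℕ) {g : Sp d → ℝ}, Measurable g → (∀ x, |g x| ≤ 1) → ∀ y,
      ∫ x, g x ∂(p.iter m).law (fun x => (V x, G x)) y =
        (approx (seedGam d) h (halfStep (r 0) G h M))^[m] g y := by
    intro m
    induction m with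
    | zero => exact fun hg hgb y => p.integral_iter hO 0 hg hgb y
    | succ m ih =>
      intro g hg hgb y
      have e : (fun b => ∫ x, g x ∂p.law (fun x => (V x, G x)) b) =
          approx (seedGam d) h (halfStep (r 0) G h M) g := by
        funext b
        rw [hpl hg hgb b]
        simp only [approx, fwd, smth, one_smul]
        exact integral_prod _ (Integrable.of_bound
          (hg.comp (hFm.comp measurable_prodMk_right)).aestronglyMeasurable 1
          (Filter.Eventually.of_forall fun _ => hgb _))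
      rw [Function.iterate_succ_apply, ← e]
      refine ((p.iter m).integral_andThen p hO hg hgb y).trans ?_
      exact ih (p.measurable_integral_law hO hg) (p.abs_integral_law_le hO hgb) y
  rw [Prog.integral_andThen _ _ hO hf hb,
    Prog.integral_law _ hO (((p.iter n).andThen q).measurable_integral_law hO hf)]
  refine (integral_dirac _ ()).trans ?_
  change ∫ x, f x ∂((p.iter n).andThen q).law (fun x => (V x, G x)) 0 = _
  rw [Prog.integral_andThen _ _ hO hf hb, key n hm hbq]
  simp only [hlq hV hG hf hb]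
  rfl

end Vale.Agent.P347.Quarter
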