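import Vale.Agent.P347.Quarter.Quad.Scalar
import Vale.Agent.P347.Quarter.Quad.Moment
import Vale.Agent.P347.Quarter.Quad.Mehler

/-! # P347: quadrature of the transport field -/

open MeasureTheory ProbabilityTheory Real Filter Finset
open scoped RealInnerProductSpace Topology

namespace Vale.Agent.P347.Quarter

namespace Quad

theorem norm_sq_combination {d : ℕ} {ι : Type} (s : Finset ι) (c : ι → ℝ)
    (f : ι → Sp d → Sp d) (hf : ∀ i, MemLp (f i) 2 (gd d)) :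
    ‖∑ i ∈ s, c i • (hf i).toLp (f i)‖ ^ 2 = ∫ x, ‖∑ i ∈ s, c i • f i x‖ ^ 2 ∂gd d := by
  have hii : ∀ i j, ⟪(hf i).toLp (f i), (hf j).toLp (f j)⟫ = ∫ x, ⟪f i x, f j x⟫ ∂gd d := by
    intro i j
    rw [MeasureTheory.L2.inner_def]
    refine integral_congr_ae ?_
    filter_upwards [(hf i).coeFn_toLp, (hf j).coeFn_toLp] with x h1 h2
    rw [h1, h2]
  have hint : ∀ i j, Integrable (fun x => ⟪f i x, f j x⟫) (gd d) := by
    intro i j
    refine (MeasureTheory.L2.integrable_inner (𝕜 := ℝ) ((hf i).toLp (f i)) ((hf j).toLp (f j))).congr ?_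
    filter_upwards [(hf i).coeFn_toLp, (hf j).coeFn_toLp] with x h1 h2
    rw [h1, h2]
  rw [← real_inner_self_eq_norm_sq, sum_inner]
  simp_rw [inner_sum, real_inner_smul_left, real_inner_smul_right, hii, ← real_inner_self_eq_norm_sq,
    sum_inner, inner_sum, real_inner_smul_left, real_inner_smul_right]
  rw [integral_finsetSum _ fun i _ => integrable_finsetSum _ fun j _ =>
    ((hint i j).const_mul _).const_mul _]
  refine Finset.sum_congr rfl fun i _ => ?_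
  rw [integral_finsetSum _ fun j _ => ((hint i j).const_mul _).const_mul _]
  simp_rw [integral_const_mul]

/-- A geometric Riemann sum of `v ^ (m - 1)`. -/
theorem geom_ratio {z m : ℝ} (hz : 0 < z) (hm : 1 ≤ m) :
    |(1 - exp (-z)) / (1 - exp (-(z * m))) - 1 / m| ≤ 1 - exp (-z) := by
  set δ := 1 - exp (-z) with hδ
  have hr : exp (-z) < 1 := exp_lt_one_iff.2 (by linarith)
  have hδ0 : 0 < δ := by linarith
  have hρ : exp (-(z * m)) < 1 := exp_lt_one_iff.2 (by nlinarith)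
  have hlow : 1 - exp (-(z * m)) ≤ m * δ := by
    have h := one_add_mul_self_le_rpow_one_add (s := -δ) (by linarith [exp_pos (-z)]) hm
    rw [show 1 + -δ = exp (-z) by rw [hδ]; ring, ← exp_mul] at h
    rw [show -(z * m) = -z * m by ring]
    linarith
  have hup : exp (-(z * m)) * (1 + m * δ) ≤ 1 := by
    have hδz : δ ≤ z := by linarith [Real.add_one_le_exp (-z)]
    have h1 : 1 + m * δ ≤ exp (z * m) := by
      have := Real.add_one_le_exp (z * m)
      nlinarith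
    calc exp (-(z * m)) * (1 + m * δ) ≤ exp (-(z * m)) * exp (z * m) := by gcongr
      _ = 1 := by rw [← exp_add]; simp
  have hm0 : 0 < m := by linarith
  rw [abs_le]
  constructor
  · have h : 1 / m ≤ δ / (1 - exp (-(z * m))) := by
      rw [div_le_div_iff₀ hm0 (by linarith)]; linarith
    linarith
  · have h : δ / (1 - exp (-(z * m))) ≤ 1 / m + δ := by
      rw [show 1 / m + δ = (1 + m * δ) / m by field_simp, div_le_div_iff₀ (by linarith) hm0]
      nlinarith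
    linarith

/-- Geometric Riemann sums converge to the integral. -/
theorem tendsto_geom_sum {F : Type*} [NormedAddCommGroup F] [NormedSpace ℝ F] [CompleteSpace F]
    {g : ℝ → F} (hg : ContinuousOn g (Set.Icc 0 1)) {κ : ℝ} (hκ : 0 ≤ κ) (hκ1 : κ ≤ 1)
    {r : ℕ → ℝ} {M : ℕ → ℕ} (hr0 : ∀ K, 0 ≤ r K) (hr1 : ∀ K, r K ≤ 1)
    (hr : Tendsto r atTop (𝓝 1)) (hM : Tendsto (fun K => r K ^ M K) atTop (𝓝 0)) :
    Tendsto (fun K => ∑ i ∈ range (M K), ((1 - r K) * (κ * r K ^ i)) • g (κ * r K ^ i)) atTop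
      (𝓝 (∫ v in (0:ℝ)..κ, g v)) := by
  obtain ⟨B, hB⟩ := isCompact_Icc.exists_bound_of_continuousOn hg
  have hB0 : 0 ≤ B := (norm_nonneg _).trans (hB 0 ⟨le_rfl, zero_le_one⟩)
  have huc := isCompact_Icc.uniformContinuousOn_of_continuous hg
  rw [Metric.uniformContinuousOn_iff] at huc
  rw [Metric.tendsto_nhds]
  intro ε hε
  obtain ⟨η, hη, hηg⟩ := huc (ε / 4) (by linarith)
  have e1 : ∀ᶠ K in atTop, 1 - r K < η := by
    have : Tendsto (fun K => 1 - r K) atTop (𝓝 0) := by simpa using hr.const_sub 1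
    exact this.eventually_lt_const hη
  have e2 : ∀ᶠ K in atTop, B * r K ^ M K < ε / 4 := by
    have : Tendsto (fun K => B * r K ^ M K) atTop (𝓝 0) := by simpa using hM.const_mul B
    exact this.eventually_lt_const (by linarith)
  filter_upwards [e1, e2] with K hK1 hK2
  set ρ := r K with hρ
  set a : ℕ → ℝ := fun i => κ * ρ ^ i with ha
  have hmem : ∀ i, a i ∈ Set.Icc (0:ℝ) 1 := fun i =>
    ⟨mul_nonneg hκ (pow_nonneg (hr0 K) i),
      mul_le_one₀ hκ1 (pow_nonneg (hr0 K) i) (pow_le_one₀ (hr0 K) (hr1 K))⟩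
  have hii : ∀ x y : ℝ, x ∈ Set.Icc (0:ℝ) 1 → y ∈ Set.Icc (0:ℝ) 1 →
      IntervalIntegrable g volume x y := fun x y hx hy =>
    (hg.mono (Set.uIcc_subset_Icc hx hy)).intervalIntegrable
  have hstep : ∀ i, a i - a (i + 1) = (1 - ρ) * a i := by
    intro i; simp only [ha, pow_succ]; ring
  have h0 : (0:ℝ) ∈ Set.Icc (0:ℝ) 1 := ⟨le_rfl, zero_le_one⟩
  have hdec : (∫ v in (0:ℝ)..κ, g v) - ∑ i ∈ range (M K), ((1 - ρ) * a i) • g (a i) =
      (∫ v in (0:ℝ)..a (M K), g v) +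
        ∑ i ∈ range (M K), ∫ v in a (i + 1)..a i, (g v - g (a i)) := by
    have hsum := intervalIntegral.sum_integral_adjacent_intervals (f := g) (μ := volume) (a := a)
      (n := M K) fun k _ => hii _ _ (hmem k) (hmem (k + 1))
    have h1 : ∀ i ∈ range (M K), ∫ v in a (i + 1)..a i, (g v - g (a i)) =
        -(∫ v in a i..a (i + 1), g v) - ((1 - ρ) * a i) • g (a i) := by
      intro i _
      rw [intervalIntegral.integral_sub (hii _ _ (hmem _) (hmem _)) intervalIntegrable_const,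
        intervalIntegral.integral_const, hstep, intervalIntegral.integral_symm]
    rw [Finset.sum_congr rfl h1, Finset.sum_sub_distrib, Finset.sum_neg_distrib, hsum]
    have := intervalIntegral.integral_add_adjacent_intervals (hii _ _ h0 (hmem 0))
      (hii _ _ (hmem 0) (hmem (M K)))
    have ha0 : a 0 = κ := by simp [ha]
    rw [ha0] at this ⊢
    rw [← this]
    abel
  rw [dist_comm, dist_eq_norm, hdec]
  have hT : ‖∫ v in (0:ℝ)..a (M K), g v‖ ≤ B * ρ ^ M K := by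
    refine (intervalIntegral.norm_integral_le_of_norm_le_const (C := B) fun v hv => ?_).trans ?_
    · rw [Set.uIoc_of_le (hmem _).1] at hv
      exact hB v ⟨hv.1.le, hv.2.trans (hmem _).2⟩
    · rw [sub_zero, abs_of_nonneg (hmem _).1]
      exact mul_le_mul_of_nonneg_left (mul_le_of_le_one_left (pow_nonneg (hr0 K) _) hκ1) hB0
  have hS : ‖∑ i ∈ range (M K), ∫ v in a (i + 1)..a i, (g v - g (a i))‖ ≤ ε / 4 := by
    refine (norm_sum_le _ _).trans ?_
    have hle : ∀ i, a (i + 1) ≤ a i := fun i => by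
      nlinarith [hstep i, mul_nonneg (sub_nonneg.2 (hr1 K)) (hmem i).1]
    calc ∑ i ∈ range (M K), ‖∫ v in a (i + 1)..a i, (g v - g (a i))‖
        ≤ ∑ i ∈ range (M K), ε / 4 * (a i - a (i + 1)) := by
          refine Finset.sum_le_sum fun i _ => ?_
          refine (intervalIntegral.norm_integral_le_of_norm_le_const (C := ε / 4) fun v hv => ?_).trans
            (le_of_eq (by rw [abs_of_nonneg (by linarith [hle i])]))
          rw [Set.uIoc_of_le (hle i)] at hv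
          rw [← dist_eq_norm]
          refine (hηg v ⟨(hmem _).1.trans hv.1.le, hv.2.trans (hmem _).2⟩ (a i) (hmem i) ?_).le
          rw [Real.dist_eq, abs_of_nonpos (by linarith [hv.2])]
          have : (1 - ρ) * a i ≤ 1 - ρ := mul_le_of_le_one_right (sub_nonneg.2 (hr1 K)) (hmem i).2
          linarith [hstep i, hv.1]
      _ = ε / 4 * (a 0 - a (M K)) := by rw [← Finset.mul_sum, Finset.sum_range_sub']
      _ ≤ ε / 4 := mul_le_of_le_one_right (by linarith) (by linarith [(hmem 0).2, (hmem (M K)).1])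
  linarith [norm_add_le (∫ v in (0:ℝ)..a (M K), g v)
    (∑ i ∈ range (M K), ∫ v in a (i + 1)..a i, (g v - g (a i)))]

/-- The grid sum against the rule, in scalar form. -/
theorem grid_scalar {t₀ u z κ E : ℝ} {K k₀ M : ℕ} {ι : Type} [Fintype ι] {w : ι → ℝ} {n : ι → ℕ}
    (hz : 0 < z) (hzu : (K + 1 : ℝ) * z = u) (hκ : κ = exp (-t₀)) (hk : (k₀ : ℝ) * z = t₀)
    (hk₀ : 1 ≤ k₀) (ht₀ : 0 < t₀) (hE : 0 ≤ E) (hn : ∀ j, 1 ≤ n j)
    (herr : ∀ m : ℝ, 1 ≤ m →
      |exp (-(m * t₀)) / m - ∑ j, w j * exp (-((m - 1) * (n j * u)))| ≤ E)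
    {y : ℝ} (hy : y ∈ Set.Icc (0:ℝ) 1) :
    |(∑ i ∈ range M, (1 - exp (-z)) * (κ * exp (-z) ^ i) * y ^ (k₀ + i)) -
        ∑ j, w j * y ^ ((K + 1) * n j)| ≤ (1 - exp (-z)) + 2 * exp (-z) ^ M + E := by
  set r := exp (-z) with hr
  have hr1 : r ≤ 1 := exp_le_one_iff.2 (by linarith)
  have hrM : 0 ≤ r ^ M := pow_nonneg (exp_pos _).le _
  by_cases hy0 : y = 0
  · subst hy0
    rw [Finset.sum_eq_zero, Finset.sum_eq_zero, sub_zero, abs_zero]
    · linarith
    · intro j _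
      rw [zero_pow (Nat.mul_ne_zero (by omega) (by have := hn j; omega)), mul_zero]
    · intro i _
      rw [zero_pow (by omega), mul_zero]
  have hyp : 0 < y := lt_of_le_of_ne hy.1 (Ne.symm hy0)
  set m : ℝ := 1 - log y / z with hm
  have hm1 : 1 ≤ m := by
    have : log y / z ≤ 0 := div_nonpos_of_nonpos_of_nonneg (log_nonpos hy.1 hy.2) hz.le
    linarith
  have hye : y = exp (-((m - 1) * z)) := by
    rw [show -((m - 1) * z) = log y by rw [hm]; field_simp; ring, exp_log hyp]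
  set ρ : ℝ := exp (-(z * m)) with hρ
  have hρ1 : ρ < 1 := exp_lt_one_iff.2 (by nlinarith)
  have h1 : r * y = ρ := by
    rw [hr, hρ, hye, ← exp_add]; congr 1; ring
  have h2 : κ * y ^ k₀ = exp (-(m * t₀)) := by
    rw [hκ, hye, ← exp_nat_mul, ← exp_add]; congr 1
    linear_combination (1 - m) * hk
  have hterm : ∀ i : ℕ, (1 - r) * (κ * r ^ i) * y ^ (k₀ + i) =
      exp (-(m * t₀)) * (1 - r) * ρ ^ i := by
    intro i
    rw [← h1, ← h2, pow_add, mul_pow]; ring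
  have hnode : ∀ j, y ^ ((K + 1) * n j) = exp (-((m - 1) * (n j * u))) := by
    intro j
    rw [hye, ← exp_nat_mul]; congr 1
    push_cast
    linear_combination -(((n j : ℝ)) * (m - 1)) * hzu
  simp_rw [hterm, hnode]
  rw [← Finset.mul_sum, geom_sum_eq hρ1.ne,
    show (ρ ^ M - 1) / (ρ - 1) = (1 - ρ ^ M) / (1 - ρ) by
      rw [← neg_sub, ← neg_sub (1:ℝ) ρ, neg_div_neg_eq]]
  have hg := geom_ratio hz hm1
  rw [← hr, ← hρ] at hg
  have he : exp (-(m * t₀)) ≤ 1 := exp_le_one_iff.2 (by nlinarith)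
  have hρM : ρ ^ M ≤ r ^ M :=
    pow_le_pow_left₀ (exp_pos _).le (exp_le_exp.2 (by nlinarith)) _
  have hρ0 : 0 ≤ ρ ^ M := pow_nonneg (exp_pos _).le _
  have hR1 : (1 - r) / (1 - ρ) ≤ 2 := by
    have : 1 / m ≤ 1 := by rw [div_le_one (by linarith)]; exact hm1
    linarith [(abs_le.1 hg).2, exp_pos (-z)]
  have hR0 : 0 ≤ (1 - r) / (1 - ρ) := div_nonneg (by linarith) (by linarith)
  have e1 : |exp (-(m * t₀)) * (1 - r) * ((1 - ρ ^ M) / (1 - ρ)) - exp (-(m * t₀)) / m|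
      ≤ (1 - r) + 2 * r ^ M := by
    rw [show exp (-(m * t₀)) * (1 - r) * ((1 - ρ ^ M) / (1 - ρ)) - exp (-(m * t₀)) / m =
      exp (-(m * t₀)) * (((1 - r) / (1 - ρ) - 1 / m) - ρ ^ M * ((1 - r) / (1 - ρ))) by ring,
      abs_mul, abs_of_pos (exp_pos _)]
    refine (mul_le_of_le_one_left (abs_nonneg _) he).trans ((abs_sub _ _).trans ?_)
    rw [abs_of_nonneg (mul_nonneg hρ0 hR0)]
    have : ρ ^ M * ((1 - r) / (1 - ρ)) ≤ r ^ M * 2 := mul_le_mul hρM hR1 hR0 hrM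
    linarith
  exact (abs_sub_le _ (exp (-(m * t₀)) / m) _).trans (add_le_add e1 (herr m hm1))

/-- A combination of Mehler averages on a geometric grid, in `L²`. -/
theorem grid_bound {d : ℕ} {G : Sp d → Sp d} {L : NNReal} (hG : LipschitzWith L G) {s : ℝ}
    (hs : 0 ≤ s) (hs1 : s ≤ 1) {ι : Type} (q : Finset ι) (c : ι → ℝ) (e : ι → ℕ) {B : ℝ}
    (hB0 : 0 ≤ B) (hB : ∀ y ∈ Set.Icc (0:ℝ) 1, |∑ j ∈ q, c j * y ^ e j| ≤ B) :
    ∫ x, ‖∑ j ∈ q, c j • pv (s ^ e j) G x‖ ^ 2 ∂gd d ≤ B ^ 2 * ∫ x, ‖G x‖ ^ 2 ∂gd d := by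
  set h : ℝ := √s with hh
  have hh01 : ∀ i : ℕ, 0 ≤ h ^ i ∧ h ^ i ≤ 1 := fun i =>
    ⟨pow_nonneg (Real.sqrt_nonneg _) i, pow_le_one₀ (Real.sqrt_nonneg _) (Real.sqrt_le_one.2 hs1)⟩
  have hse : ∀ k : ℕ, h ^ (2 * k) = s ^ k := fun k => by rw [pow_mul, hh, Real.sq_sqrt hs]
  set f : ℕ → Sp d → Sp d := fun i => pv (h ^ i) G with hfdef
  have hf : ∀ i, MemLp (f i) 2 (gd d) := fun i => memLp_pv hG (hh01 i).1 (hh01 i).2
  set U : ℕ → Lp (Sp d) 2 (gd d) := fun i => (hf i).toLp (f i) with hUdef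
  have hinner : ∀ i j, ⟪U i, U j⟫ = ∫ x, ⟪G x, pv (h ^ (i + j)) G x⟫ ∂gd d := by
    intro i j
    rw [MeasureTheory.L2.inner_def, pow_add,
      ← inner_pv_pv hG (hh01 i).1 (hh01 i).2 (hh01 j).1 (hh01 j).2]
    refine integral_congr_ae ?_
    filter_upwards [(hf i).coeFn_toLp, (hf j).coeFn_toLp] with x h1 h2
    simp only [hUdef]
    rw [h1, h2]
  have hU : ∀ i j, ⟪U i, U j⟫ = ⟪U 0, U (i + j)⟫ := fun i j => by
    rw [hinner, hinner, zero_add]
  have hU1 : ∀ i, ‖U i‖ ^ 2 = ∫ x, ‖f i x‖ ^ 2 ∂gd d := by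
    intro i
    have hi := norm_sq_combination {i} (fun _ => (1:ℝ)) f hf
    simp only [Finset.sum_singleton, one_smul] at hi
    exact hi
  have hbd : ∀ i, ‖U i‖ ≤ √(∫ x, 2 * (grow G L ^ 2 + (L:ℝ) ^ 2) * (1 + ‖x‖ ^ 2) ∂gd d) := by
    intro i
    refine Real.le_sqrt_of_sq_le ?_
    rw [hU1]
    refine integral_mono_of_nonneg (ae_of_all _ fun x => sq_nonneg _)
      (((integrable_const (1:ℝ)).add (integral_norm_sq (ι := Fin d)).1).const_mul _)
      (ae_of_all _ fun x => ?_)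
    refine (pow_le_pow_left₀ (norm_nonneg _) (norm_pv_le hG (hh01 i).1 (hh01 i).2 x) 2).trans ?_
    nlinarith [sq_nonneg (grow G L - L * ‖x‖), mul_nonneg (sq_nonneg (grow G L)) (sq_nonneg ‖x‖),
      sq_nonneg (L:ℝ)]
  have hG2 : ∫ x, ‖G x‖ ^ 2 ∂gd d = ‖U 0‖ ^ 2 := by
    rw [hU1]
    refine integral_congr_ae (ae_of_all _ fun x => ?_)
    simp [hfdef, pv_one]
  have hsum : ∫ x, ‖∑ j ∈ q, c j • pv (s ^ e j) G x‖ ^ 2 ∂gd d =
      ‖∑ j ∈ q, c j • U (2 * e j)‖ ^ 2 := by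
    simp only [← hse]
    exact (norm_sq_combination q c (fun j => f (2 * e j)) fun j => hf _).symm
  rw [hsum, hG2, ← mul_pow]
  exact pow_le_pow_left₀ (norm_nonneg _) (hankel_bound hU hbd q c e hB0 hB) 2

/-- The dominating function. -/
theorem norm_comb_le {d : ℕ} {G : Sp d → Sp d} {L : NNReal} (hG : LipschitzWith L G) {ι : Type}
    (q : Finset ι) (c a : ι → ℝ) (ha : ∀ i ∈ q, 0 ≤ a i ∧ a i ≤ 1) (x : Sp d) :
    ‖∑ i ∈ q, c i • pv (a i) G x‖ ≤ (∑ i ∈ q, |c i|) * (grow G L + L * ‖x‖) := by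
  rw [Finset.sum_mul]
  refine (norm_sum_le _ _).trans (Finset.sum_le_sum fun i hi => ?_)
  rw [norm_smul, Real.norm_eq_abs]
  exact mul_le_mul_of_nonneg_left (norm_pv_le hG (ha i hi).1 (ha i hi).2 x) (abs_nonneg _)

end Quad

open Quad in
/-- A rule with `N p b` nodes, exact of order `p` on geometric blocks. -/
theorem quad_rule {p : ℕ} (hp : 1 ≤ p) :
    ∃ C : ℝ, 0 ≤ C ∧ ∀ {t₀ : ℝ}, 0 < t₀ → t₀ ≤ 1 → ∀ N b : ℕ, 1 ≤ N →
      ∃ w v : Fin (N * p * b) → ℝ, (∀ j, 0 ≤ v j ∧ v j ≤ 1) ∧ ∑ j, |w j| ≤ C ∧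
        |∑ j, w j - exp (-t₀)| ≤ C * (b * (1 / (N:ℝ)) ^ p + exp (-(t₀ * 2 ^ b))) ∧
        ∀ {d : ℕ} {G : Sp d → Sp d} {L : NNReal}, ContDiff ℝ 1 G → LipschitzWith L G →
          ∫ x, ‖flow (exp (-t₀)) G x - qflow w v G x‖ ^ 2 ∂gd d ≤
            (C * (b * (1 / (N:ℝ)) ^ p + exp (-(t₀ * 2 ^ b)))) ^ 2 * ∫ x, ‖G x‖ ^ 2 ∂gd d := by
  obtain ⟨C, hC, hrule⟩ := scalar_rule hp
  refine ⟨C, hC, fun {t₀} ht₀ _ N b hN => ?_⟩
  obtain ⟨w, n, hn, hw, herr⟩ := hrule ht₀ N b hN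
  set u : ℝ := t₀ / (p * N) with hu
  have hu0 : 0 < u := by
    have : (0:ℝ) < p * N := by exact_mod_cast Nat.mul_pos hp hN
    positivity
  set v : Fin (N * p * b) → ℝ := fun j => exp (-(n j * u)) with hv
  have hv01 : ∀ j, 0 ≤ v j ∧ v j ≤ 1 := fun j =>
    ⟨(exp_pos _).le, exp_le_one_iff.2 (by simp only [Left.neg_nonpos_iff]; positivity)⟩
  refine ⟨w, v, hv01, hw, ?_, fun {d G L} _ hG => ?_⟩
  · have := herr 1 le_rfl
    rw [abs_sub_comm]
    simpa using this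
  set E : ℝ := C * (b * (1 / (N:ℝ)) ^ p + exp (-(t₀ * 2 ^ b))) with hE
  have hE0 : 0 ≤ E := by positivity
  set κ : ℝ := exp (-t₀) with hκ
  have hκ01 : 0 ≤ κ ∧ κ ≤ 1 := ⟨(exp_pos _).le, exp_le_one_iff.2 (by linarith)⟩
  -- the grids
  set z : ℕ → ℝ := fun K => u / (K + 1) with hz
  set r : ℕ → ℝ := fun K => exp (-z K) with hr
  set M : ℕ → ℕ := fun K => (K + 1) * (K + 1) with hM
  have hz0 : ∀ K, 0 < z K := fun K => by simp only [hz]; positivity
  have hr0 : ∀ K, 0 ≤ r K := fun K => (exp_pos _).le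
  have hr1 : ∀ K, r K ≤ 1 := fun K => exp_le_one_iff.2 (by linarith [hz0 K])
  have hzlim : Tendsto z atTop (𝓝 0) := by
    have := (tendsto_one_div_add_atTop_nhds_zero_nat (𝕜 := ℝ)).const_mul u
    simpa [hz, div_eq_mul_inv] using this
  have hrlim : Tendsto r atTop (𝓝 1) := by
    have := (continuous_exp.tendsto _).comp hzlim.neg
    simpa [hr, Function.comp_def] using this
  have hrM : Tendsto (fun K => r K ^ M K) atTop (𝓝 0) := by
    have h1 : ∀ K, r K ^ M K = exp (-(u * (K + 1))) := by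
      intro K
      simp only [hr, hz, hM]
      rw [← exp_nat_mul]
      congr 1
      push_cast; field_simp
    simp_rw [h1]
    refine tendsto_exp_atBot.comp (tendsto_neg_atTop_atBot.comp ?_)
    exact (tendsto_natCast_atTop_atTop.atTop_add tendsto_const_nhds).const_mul_atTop hu0
  -- the approximations of the field
  set F : ℕ → Sp d → Sp d := fun K x =>
    (∑ i ∈ range (M K), ((1 - r K) * (κ * r K ^ i)) • pv (κ * r K ^ i) G x) - qflow w v G x with hF
  have hai : ∀ K i, 0 ≤ κ * r K ^ i ∧ κ * r K ^ i ≤ 1 := fun K i =>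
    ⟨mul_nonneg hκ01.1 (pow_nonneg (hr0 K) i),
      mul_le_one₀ hκ01.2 (pow_nonneg (hr0 K) i) (pow_le_one₀ (hr0 K) (hr1 K))⟩
  have hlimx : ∀ x, Tendsto (fun K => ‖F K x‖ ^ 2) atTop
      (𝓝 (‖flow κ G x - qflow w v G x‖ ^ 2)) := fun x =>
    (((tendsto_geom_sum (continuousOn_pv hG x) hκ01.1 hκ01.2 hr0 hr1 hrlim hrM)).sub_const _).norm.pow 2
  have hFc : ∀ K, Continuous (F K) := fun K => by
    simp only [hF, qflow]
    exact (continuous_finsetSum _ fun i _ =>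
        (lip_pv hG (hai K i).1 (hai K i).2).continuous.const_smul ((1 - r K) * (κ * r K ^ i))).sub
      (continuous_finsetSum _ fun j _ =>
        (lip_pv hG (hv01 j).1 (hv01 j).2).continuous.const_smul (w j))
  have hdom : ∀ K x, ‖F K x‖ ≤ (1 + C) * (grow G L + L * ‖x‖) := by
    intro K x
    have hB : 0 ≤ grow G L + L * ‖x‖ := add_nonneg grow_nonneg (by positivity)
    have hc : ∑ i ∈ range (M K), (1 - r K) * (κ * r K ^ i) ≤ 1 := by
      have : ∀ i, (1 - r K) * (κ * r K ^ i) = κ * r K ^ i - κ * r K ^ (i + 1) := fun i => by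
        rw [pow_succ]; ring
      simp_rw [this]
      rw [Finset.sum_range_sub' (fun i => κ * r K ^ i)]
      linarith [(hai K 0).2, (hai K (M K)).1]
    simp only [hF, qflow]
    refine (norm_sub_le _ _).trans ?_
    rw [add_mul]
    refine add_le_add ((norm_comb_le hG _ _ _ (fun i _ => hai K i) x).trans ?_)
      ((norm_comb_le hG _ _ _ (fun j _ => hv01 j) x).trans ?_)
    · refine mul_le_mul_of_nonneg_right ?_ hB
      refine le_trans (le_of_eq (Finset.sum_congr rfl fun i _ => ?_)) hc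
      exact abs_of_nonneg (mul_nonneg (sub_nonneg.2 (hr1 K)) (hai K i).1)
    · exact mul_le_mul_of_nonneg_right hw hB
  have hbound : Integrable (fun x => ((1 + C) * (grow G L + L * ‖x‖)) ^ 2) (gd d) := by
    refine (((integrable_const (1:ℝ)).add (integral_norm_sq (ι := Fin d)).1).const_mul
      (2 * (1 + C) ^ 2 * (grow G L ^ 2 + (L:ℝ) ^ 2))).mono' (by fun_prop) (ae_of_all _ fun x => ?_)
    simp only [Real.norm_eq_abs, abs_pow, sq_abs, Pi.add_apply]
    rw [mul_pow]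
    have : (grow G L + L * ‖x‖) ^ 2 ≤ 2 * (grow G L ^ 2 + (L:ℝ) ^ 2) * (1 + ‖x‖ ^ 2) := by
      nlinarith [sq_nonneg (grow G L - L * ‖x‖), mul_nonneg (sq_nonneg (grow G L)) (sq_nonneg ‖x‖),
        sq_nonneg (L:ℝ)]
    calc (1 + C) ^ 2 * (grow G L + L * ‖x‖) ^ 2
        ≤ (1 + C) ^ 2 * (2 * (grow G L ^ 2 + (L:ℝ) ^ 2) * (1 + ‖x‖ ^ 2)) := by gcongr
      _ = _ := by ring
  have hlim : Tendsto (fun K => ∫ x, ‖F K x‖ ^ 2 ∂gd d) atTop
      (𝓝 (∫ x, ‖flow κ G x - qflow w v G x‖ ^ 2 ∂gd d)) :=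
    tendsto_integral_of_dominated_convergence _ (fun K => ((hFc K).norm.pow 2).aestronglyMeasurable)
      hbound (fun K => ae_of_all _ fun x => by
        simpa using pow_le_pow_left₀ (norm_nonneg _) (hdom K x) 2) (ae_of_all _ hlimx)
  -- the bound for each grid
  have hK : ∀ K, ∫ x, ‖F K x‖ ^ 2 ∂gd d ≤
      ((1 - r K) + 2 * r K ^ M K + E) ^ 2 * ∫ x, ‖G x‖ ^ 2 ∂gd d := by
    intro K
    set k₀ : ℕ := p * N * (K + 1) with hk₀
    have hk : (k₀ : ℝ) * z K = t₀ := by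
      have : (p:ℝ) ≠ 0 := by positivity
      have : (N:ℝ) ≠ 0 := by positivity
      simp only [hk₀, hz, hu]; push_cast; field_simp
    have hzu : ((K:ℝ) + 1) * z K = u := by simp only [hz]; field_simp
    set cc : Fin (M K) ⊕ Fin (N * p * b) → ℝ :=
      Sum.elim (fun i => (1 - r K) * (κ * r K ^ (i:ℕ))) fun j => -w j with hcc
    set ee : Fin (M K) ⊕ Fin (N * p * b) → ℕ :=
      Sum.elim (fun i => k₀ + i) fun j => (K + 1) * n j with hee
    have hFK : ∀ x, F K x = ∑ q, cc q • pv (r K ^ ee q) G x := by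
      intro x
      simp only [hF, Fintype.sum_sum_type, hcc, hee, Sum.elim_inl, Sum.elim_inr, qflow]
      rw [Fin.sum_univ_eq_sum_range
        (fun i => ((1 - r K) * (κ * r K ^ i)) • pv (r K ^ (k₀ + i)) G x) (M K), sub_eq_add_neg,
        ← Finset.sum_neg_distrib]
      congr 1
      · refine Finset.sum_congr rfl fun i _ => ?_
        congr 2
        rw [pow_add]
        congr 1
        simp only [hκ, hr]
        rw [← exp_nat_mul]; congr 1; linarith
      · refine Finset.sum_congr rfl fun j _ => ?_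
        rw [neg_smul]
        congr 3
        simp only [hv, hr]
        rw [← exp_nat_mul]; congr 1; push_cast
        linear_combination (n j : ℝ) * hzu
    simp_rw [hFK]
    refine grid_bound hG (hr0 K) (hr1 K) Finset.univ cc ee
      (by have := pow_nonneg (hr0 K) (M K); linarith [hr1 K]) fun y hy => ?_
    have hg := grid_scalar (M := M K) (hz0 K) hzu hκ hk
      (one_le_mul (one_le_mul hp hN) (by omega)) ht₀ hE0 hn herr hy
    simp only [Fintype.sum_sum_type, hcc, hee, Sum.elim_inl, Sum.elim_inr, neg_mul,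
      Finset.sum_neg_distrib, ← sub_eq_add_neg]
    rw [Fin.sum_univ_eq_sum_range (fun i => (1 - r K) * (κ * r K ^ i) * y ^ (k₀ + i)) (M K)]
    exact hg
  have hrhs : Tendsto (fun K => ((1 - r K) + 2 * r K ^ M K + E) ^ 2 * ∫ x, ‖G x‖ ^ 2 ∂gd d) atTop
      (𝓝 (E ^ 2 * ∫ x, ‖G x‖ ^ 2 ∂gd d)) := by
    have := (((hrlim.const_sub 1).add (hrM.const_mul 2)).add_const E).pow 2
    simpa using this.mul_const (∫ x, ‖G x‖ ^ 2 ∂gd d)
  exact le_of_tendsto_of_tendsto' hlim hrhs hK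

end Vale.Agent.P347.Quarter
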