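import Vale.Agent.P347.Quarter.Algo
import Vale.Agent.P347.Quarter.Quad

/-! # P347: the choice of the parameters -/

open MeasureTheory ProbabilityTheory Real Filter
open scoped RealInnerProductSpace NNReal

namespace Vale.Agent.P347.Quarter

/-- The error of the whole algorithm, as bounded in `compose_main`. -/
noncomputable def totalErr (d : ℕ) (h εq R : ℝ) (n K : ℕ) : ℝ :=
  chainErr d h εq n * (1 + n * √(√d / R)) + √((d:ℝ) / h) * (1 + h)⁻¹ ^ (n - 1) +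
    K * stepErr d h εq + h / 2 ^ K * √d + (n + K + 1) * (√d / R)

lemma IsPot.lipschitz {d : ℕ} {W : Sp d → ℝ} {G : Sp d → Sp d} {H : Sp d → Sp d →L[ℝ] Sp d}
    {η : ℝ} (hW : IsPot W G H 0 η) (hη : 0 ≤ η) : LipschitzWith η.toNNReal G :=
  LipschitzWith.of_dist_le_mul fun x y => by
    rw [dist_eq_norm, dist_eq_norm, coe_toNNReal _ hη]
    exact hW.norm_grad_sub hη x y

lemma integral_sq_grad_le {d : ℕ} {W : Sp d → ℝ} {G : Sp d → Sp d}
    {H : Sp d → Sp d →L[ℝ] Sp d} {η : ℝ} (hW : IsPot W G H 0 η) (hη : 0 ≤ η)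
    (hG0 : ‖G 0‖ ≤ η * √d) : ∫ x, ‖G x‖ ^ 2 ∂gd d ≤ (2 * η * √d) ^ 2 := by
  obtain ⟨hi, he⟩ := integral_norm_sq (ι := Fin d)
  rw [Fintype.card_fin] at he
  refine (integral_mono_of_nonneg (Eventually.of_forall fun x => sq_nonneg _)
    ((integrable_const (2 * (η * √d) ^ 2)).add (hi.const_mul (2 * η ^ 2)))
    (Eventually.of_forall fun x => ?_)).trans_eq ?_
  · have h := (hW.norm_grad_le hη x).trans (add_le_add_left hG0 _)
    have h2 := pow_le_pow_left₀ (norm_nonneg _) h 2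
    simp only [Pi.add_apply]
    linarith [sq_nonneg (η * √d - η * ‖x‖)]
  · rw [integral_add' (integrable_const _) (hi.const_mul _), integral_const, integral_const_mul,
      he, probReal_univ, one_smul, mul_pow, mul_pow, sq_sqrt (Nat.cast_nonneg d)]
    ring

/-- Rules for one step. -/
theorem exists_isRule {p : ℕ} (hp : 1 ≤ p) : ∃ C : ℝ, 0 ≤ C ∧
    ∀ {d : ℕ} {h : ℝ}, 0 < h → h ≤ 1 / 25 → ∀ N b : ℕ, 1 ≤ N → ∀ εq : ℝ,
      4 * C * h * √d * (b * (1 / (N:ℝ)) ^ p + exp (-(2 * h * 2 ^ b))) ≤ εq →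
      ∃ r : Rule (N * p * b), IsRule d C h εq r := by
  obtain ⟨C, hC, hq⟩ := quad_rule hp
  refine ⟨C, hC, fun {d h} hh hh25 N b hN εq hε => ?_⟩
  have hk : kap0 ≤ 9 / 10 :=
    (abs_le_of_sq_le_sq' (kap0_sq.trans_le (by norm_num)) (by norm_num)).2
  have hk0 := kap0_pos
  have hl := log_le_sub_one_of_pos hk0
  have hl' : -1 ≤ log kap0 := by
    rw [← log_exp (-1)]
    refine log_le_log (exp_pos _) ?_
    have he : exp (-1 : ℝ) ≤ 1 / 2 := by
      rw [exp_neg, one_div]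
      exact inv_anti₀ two_pos (by linarith [add_one_le_exp (1:ℝ)])
    nlinarith [kap0_sq]
  have h12 : 1 / 2 ≤ 1 - 2 * h := by linarith
  have hl2 := log_le_sub_one_of_pos (show 0 < 1 - 2 * h by linarith)
  have hl2' : -1 ≤ log (1 - 2 * h) := by
    have h' := log_le_log (by norm_num : (0:ℝ) < 1 / 2) h12
    rw [one_div, log_inv] at h'
    linarith [log_two_lt_d9]
  obtain ⟨w₀, v₀, hv₀, hw₀, hm₀, he₀⟩ :=
    hq (t₀ := -log kap0) (by linarith) (by linarith) N b hN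
  obtain ⟨w₁, v₁, hv₁, hw₁, -, he₁⟩ :=
    hq (t₀ := -log (1 - 2 * h)) (by linarith) (by linarith) N b hN
  rw [neg_neg, exp_log hk0] at hm₀
  set E := (b:ℝ) * (1 / (N:ℝ)) ^ p + exp (-(2 * h * 2 ^ b)) with hE
  have hmono : ∀ t : ℝ, 2 * h ≤ t →
      (b:ℝ) * (1 / (N:ℝ)) ^ p + exp (-(t * 2 ^ b)) ≤ E := fun t ht => by
    rw [hE]; gcongr
  have hE0 : 0 ≤ E := by positivity
  have hεE : C * E * (2 * (2 * h) * √d) ≤ εq := by linarith
  refine ⟨⟨w₀, v₀, w₁, v₁⟩, hv₀, hv₁, hw₀, hw₁, ?_, ?_, ?_⟩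
  · refine (mul_le_mul_of_nonneg_right (hm₀.trans (mul_le_mul_of_nonneg_left
      (hmono _ (by linarith)) hC)) (by positivity)).trans ?_
    nlinarith [mul_nonneg (mul_nonneg hC hE0) (show 0 ≤ h * √d by positivity)]
  all_goals
    intro W G H hW hG0
    have hη : 0 ≤ 2 * h := by linarith
    have hI := integral_sq_grad_le hW hη hG0
  · have h := he₀ hW.contDiff_grad (hW.lipschitz hη)
    rw [neg_neg, exp_log hk0] at h
    refine h.trans ((mul_le_mul (pow_le_pow_left₀ (by positivity) (mul_le_mul_of_nonneg_left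
      (hmono _ (by linarith)) hC) 2) hI (integral_nonneg fun x => sq_nonneg _)
      (sq_nonneg _)).trans ?_)
    rw [← mul_pow]
    exact pow_le_pow_left₀ (by positivity) hεE 2
  · have h := he₁ hW.contDiff_grad (hW.lipschitz hη)
    rw [neg_neg, exp_log (by linarith)] at h
    refine h.trans ((mul_le_mul (pow_le_pow_left₀ (by positivity) (mul_le_mul_of_nonneg_left
      (hmono _ (by linarith)) hC) 2) hI (integral_nonneg fun x => sq_nonneg _)
      (sq_nonneg _)).trans ?_)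
    rw [← mul_pow]
    exact pow_le_pow_left₀ (by positivity) hεE 2

/-- Large `x`. -/
lemma eventually_large {a ε : ℝ} (ha : 0 < a) (hε : 0 < ε) :
    ∀ᶠ x : ℝ in atTop, 1 ≤ x ∧ 4 ≤ log x ∧ 20 * log x ≤ x ∧ log x ≤ ε * x ^ a ∧
      50 ≤ x ^ (1 / 4 : ℝ) := by
  refine (eventually_ge_atTop 1).and ((tendsto_log_atTop.eventually_ge_atTop 4).and (?_ :
    ∀ᶠ x : ℝ in atTop, 20 * log x ≤ x ∧ log x ≤ ε * x ^ a ∧ 50 ≤ x ^ (1 / 4 : ℝ)))
  refine Eventually.and ?_ (Eventually.and ?_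
    ((tendsto_rpow_atTop (by norm_num)).eventually_ge_atTop 50))
  · filter_upwards [isLittleO_log_id_atTop.bound (by norm_num : (0:ℝ) < 1 / 20),
      eventually_ge_atTop 0] with x hx hx0
    simp only [norm_eq_abs, id] at hx
    rw [abs_of_nonneg hx0] at hx
    linarith [le_abs_self (log x)]
  · filter_upwards [(isLittleO_log_rpow_atTop ha).bound hε, eventually_ge_atTop 0] with x hx hx0
    simp only [norm_eq_abs, abs_of_nonneg (rpow_nonneg hx0 a)] at hx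
    exact (le_abs_self _).trans hx

/-- The size of one step error. -/
lemma err_le {d : ℕ} {h εq : ℝ} (hh : 0 ≤ h) (hh4 : h ≤ 1 / 4) (hε : 0 ≤ εq) :
    meanErr d (2 * h) (2 * h) εq ≤ √h * (24 * (h ^ 2 * √d) + 4 * h) + εq * (2 * h) ∧
      stepErr d h εq ≤ 30 * (h ^ 2 * √d) + 6 * h + 2 * εq := by
  have hs : √h ≤ 1 := sqrt_le_one.2 (by linarith)
  have hs2 : √2 ≤ 2 := by rw [sqrt_le_left two_pos.le]; norm_num
  have hmain : meanErr d (2 * h) (2 * h) εq ≤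
      √h * (24 * (h ^ 2 * √d) + 4 * h) + εq * (2 * h) := by
    rcases eq_or_lt_of_le hh with rfl | hh'
    · simp [meanErr]
    have e1 : (2 * h) ^ 2 * √(2 * h * d) ≤ √h * (8 * (h ^ 2 * √d)) := by
      rw [sqrt_mul (by linarith), sqrt_mul two_pos.le]
      calc _ = 4 * √2 * (√h * (h ^ 2 * √d)) := by ring
        _ ≤ 4 * 2 * (√h * (h ^ 2 * √d)) := by gcongr
        _ = _ := by ring
    have e2 : (2 * h) ^ 3 * √((d:ℝ) / (2 * h)) = (2 * h) ^ 2 * √(2 * h * d) := by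
      have hd : (d:ℝ) / (2 * h) = (2 * h * d) / (2 * h) ^ 2 := by field_simp
      rw [hd, sqrt_div (by positivity), sqrt_sq (by linarith)]
      field_simp
    have hh2 : h ≤ √h := le_sqrt_of_sq_le (by nlinarith)
    have e3 : (2 * h) ^ 2 ≤ √h * (4 * h) := by
      calc (2 * h) ^ 2 = h * (4 * h) := by ring
        _ ≤ √h * (4 * h) := by gcongr
    have e4 : (2 * h) ^ 3 * √d ≤ √h * (8 * (h ^ 2 * √d)) := by
      calc (2 * h) ^ 3 * √d = h * (8 * (h ^ 2 * √d)) := by ring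
        _ ≤ √h * (8 * (h ^ 2 * √d)) := by gcongr
    unfold meanErr
    linarith
  refine ⟨hmain, ?_⟩
  have hme := meanErr_nonneg (d := d) (s := 2 * h) (η := 2 * h) (by linarith) hε
  have hm1 : meanErr d (2 * h) (2 * h) εq ≤ 24 * (h ^ 2 * √d) + 4 * h + εq := by
    refine hmain.trans (add_le_add (mul_le_of_le_one_left (by positivity) hs)
      (mul_le_of_le_one_right hε (by linarith)))
  rw [stepErr, sqrt_le_left (by positivity)]
  set u := h ^ 2 * √d with hu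
  have hu2 : (2 * h) ^ 4 * d = 16 * u ^ 2 := by
    rw [hu, mul_pow, mul_pow, sq_sqrt (Nat.cast_nonneg d)]; ring
  have hu0 : 0 ≤ u := by positivity
  rw [hu2]
  linarith [pow_le_pow_left₀ hme hm1 2, sq_nonneg u, sq_nonneg εq, sq_nonneg h,
    mul_nonneg hu0 hh, mul_nonneg hu0 hε, mul_nonneg hh hε]

/-- The numerical facts about the parameters. -/
lemma params_err {d n K : ℕ} {h εq R x L A : ℝ} {ρ : ℝ} (hx : x = d) (hx1 : 1 ≤ x) (hL : 4 ≤ L)
    (hLx : L = log x) (h20 : 20 * L ≤ x) (hh : 0 < h) (hh4 : h ≤ 1 / 4) (hhρ : h ≤ ρ)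
    (hhx : h ^ 2 * √x ≤ ρ) (hh2 : 1 / √x ≤ h) (hρx : 1 / √x ≤ ρ) (hε : 0 ≤ εq) (hA : 1 ≤ A)
    (hεA : εq ≤ A * L * ρ) (hn : (n:ℝ) ≤ 5 * L / h) (hn1 : 4 * L / h ≤ (n - 1 : ℕ))
    (hK : (K:ℝ) ≤ 3 * L) (hK2 : x ≤ 2 ^ K) (hR : R = x ^ 5) :
    stepErr d h εq ≤ 40 * A * L * ρ ∧ (h / 2 ^ K) ^ 2 * d ≤ ρ ∧
      chainErr d h εq n ≤ 400 * A * L ^ 2 * ρ ∧ totalErr d h εq R n K ≤ 1000 * A * L ^ 2 * ρ := by
  subst hx
  set x : ℝ := (d:ℝ)
  have hx0 : 0 < x := by linarith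
  have hsx : 0 < √x := sqrt_pos.2 hx0
  have hsx1 : 1 ≤ √x := one_le_sqrt.2 hx1
  have hsxx : √x ≤ x := by nlinarith [sq_sqrt hx0.le]
  have hρ : 0 ≤ ρ := hh.le.trans hhρ
  obtain ⟨hme, hse⟩ := err_le (d := d) hh.le hh4 hε
  have hLρ : ρ ≤ A * L * ρ :=
    le_mul_of_one_le_left hρ (one_le_mul_of_one_le_of_one_le hA (by linarith))
  have hse' : stepErr d h εq ≤ 40 * A * L * ρ := hse.trans (by linarith)
  have hn' : (n:ℝ) * h ≤ 5 * L := (le_div_iff₀ hh).1 hn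
  have hinv : 1 / h ≤ √x := by
    rw [div_le_iff₀ hh]
    rwa [div_le_iff₀ hsx, mul_comm] at hh2
  have hnx : (n:ℝ) ≤ 5 * L * √x := hn.trans (by
    rw [div_eq_mul_one_div]; exact mul_le_mul_of_nonneg_left hinv (by linarith))
  have hlog : log ((n:ℝ) + 2) ≤ 2 * L := by
    have : (n:ℝ) + 2 ≤ x ^ 2 := by
      have h1 : L * √x ≤ x / 20 * x := mul_le_mul (by linarith) hsxx (sqrt_nonneg _) (by positivity)
      have h2 : 80 ≤ x := by linarith
      have h3 : x ≤ x ^ 2 := le_self_pow₀ hx1 two_ne_zero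
      linarith [show x / 20 * x = x ^ 2 / 20 by ring]
    refine (log_le_log (by positivity) this).trans_eq ?_
    rw [log_pow, hLx]; norm_num
  have hlog0 : 0 ≤ log ((n:ℝ) + 2) := log_nonneg (by linarith [Nat.cast_nonneg (α := ℝ) n])
  have hsq : √(n * h * log ((n:ℝ) + 2)) ≤ 4 * L := by
    rw [sqrt_le_left (by linarith)]
    linarith [mul_le_mul hn' hlog hlog0 (by linarith : 0 ≤ 5 * L), sq_nonneg L]
  have hsn : √h * √(n:ℝ) ≤ 2 * L := by
    rw [← sqrt_mul hh.le, sqrt_le_left (by linarith)]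
    linarith [mul_le_mul_of_nonneg_right hL (by linarith : 0 ≤ L)]
  have hhn : h * √(n:ℝ) ≤ 2 * L := by
    refine le_trans (mul_le_mul_of_nonneg_right ?_ (sqrt_nonneg _)) hsn
    exact le_sqrt_of_sq_le (by rw [sq]; exact mul_le_of_le_one_left hh.le (by linarith))
  have hLAL : L ≤ A * L ^ 2 :=
    (le_self_pow₀ (by linarith) two_ne_zero).trans (le_mul_of_one_le_left (sq_nonneg _) hA)
  have h1AL : 1 ≤ A * L ^ 2 := le_trans (by linarith) hLAL
  have hAL0 : 0 ≤ A * L ^ 2 * ρ := by positivity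
  have hmn : meanErr d (2 * h) (2 * h) εq * √(n:ℝ) ≤ 60 * A * L ^ 2 * ρ := by
    refine (mul_le_mul_of_nonneg_right hme (sqrt_nonneg _)).trans ?_
    have e1 : 24 * (h ^ 2 * √x) + 4 * h ≤ 28 * ρ := by linarith
    calc (√h * (24 * (h ^ 2 * √x) + 4 * h) + εq * (2 * h)) * √(n:ℝ)
        = (√h * √(n:ℝ)) * (24 * (h ^ 2 * √x) + 4 * h) + 2 * εq * (h * √(n:ℝ)) := by ring
      _ ≤ 2 * L * (28 * ρ) + 2 * (A * L * ρ) * (2 * L) := by gcongr
      _ ≤ _ := by linarith [mul_le_mul_of_nonneg_left hLAL hρ, hAL0]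
  have hse0 : 0 ≤ stepErr d h εq := sqrt_nonneg _
  have hchain : chainErr d h εq n ≤ 400 * A * L ^ 2 * ρ := by
    unfold chainErr
    have := mul_le_mul hse' (add_le_add hlog hsq) (by positivity) (by positivity)
    linarith
  have hlast : h / 2 ^ K ≤ h / x := div_le_div_of_nonneg_left hh.le hx0 hK2
  refine ⟨hse', ?_, hchain, ?_⟩
  · calc (h / 2 ^ K) ^ 2 * x ≤ (h / x) ^ 2 * x := by gcongr
      _ = h * (h / x) := by field_simp
      _ ≤ h * 1 := by gcongr; rw [div_le_one hx0]; linarith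
      _ ≤ ρ := by linarith
  have hch0 : 0 ≤ chainErr d h εq n := by
    have := meanErr_nonneg (d := d) (s := 2 * h) (η := 2 * h) (εq := εq) (by linarith) hε
    unfold chainErr; positivity
  have hR' : √x / R ≤ 1 / x ^ 4 := by
    rw [hR, div_le_div_iff₀ (by positivity) (by positivity), one_mul]
    calc √x * x ^ 4 ≤ x * x ^ 4 := by gcongr
      _ = _ := by ring
  have hnR : (n:ℝ) * √(√x / R) ≤ 1 := by
    calc (n:ℝ) * √(√x / R) ≤ 5 * L * √x * √(1 / x ^ 4) :=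
          mul_le_mul hnx (sqrt_le_sqrt hR') (sqrt_nonneg _) (by positivity)
      _ = 5 * L * √x / x ^ 2 := by
          rw [show 1 / x ^ 4 = (1 / x ^ 2) ^ 2 by ring, sqrt_sq (by positivity)]; ring
      _ ≤ 1 := by
          rw [div_le_one (by positivity)]
          calc 5 * L * √x ≤ x * x := mul_le_mul (by linarith) hsxx (sqrt_nonneg _) hx0.le
            _ = x ^ 2 := by ring
  have hmix : √(x / h) * (1 + h)⁻¹ ^ (n - 1) ≤ ρ := by
    have h1 : (1 + h)⁻¹ ≤ exp (-(h / 2)) := by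
      rw [exp_neg]
      refine inv_anti₀ (exp_pos _) ?_
      have := exp_bound_div_one_sub_of_interval (x := h / 2) (by linarith) (by linarith)
      refine this.trans ?_
      rw [div_le_iff₀ (by linarith)]
      linarith [mul_le_mul_of_nonneg_right (show h ≤ 1 by linarith) hh.le]
    have h2 : (1 + h)⁻¹ ^ (n - 1) ≤ 1 / x ^ 2 := by
      refine (pow_le_pow_left₀ (by positivity) h1 _).trans ?_
      rw [← exp_nat_mul, show 1 / x ^ 2 = exp (-(2 * L)) by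
        rw [exp_neg, two_mul, exp_add, hLx, exp_log hx0, one_div, sq], exp_le_exp]
      linarith [(div_le_iff₀ hh).1 hn1]
    have h3 : √(x / h) ≤ x := by
      rw [sqrt_le_left hx0.le, div_eq_mul_one_div, sq]
      exact mul_le_mul_of_nonneg_left (hinv.trans hsxx) hx0.le
    calc √(x / h) * (1 + h)⁻¹ ^ (n - 1) ≤ x * (1 / x ^ 2) :=
          mul_le_mul h3 h2 (by positivity) hx0.le
      _ = 1 / x := by field_simp
      _ ≤ 1 / √x := one_div_le_one_div_of_le hsx hsxx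
      _ ≤ ρ := hρx
  have hlast' : h / 2 ^ K * √x ≤ ρ := by
    calc h / 2 ^ K * √x ≤ h / x * √x := by gcongr
      _ = h * (√x / x) := by ring
      _ ≤ h * 1 := by gcongr; rwa [div_le_one hx0]
      _ ≤ ρ := by linarith
  have htail : ((n:ℝ) + K + 1) * (√x / R) ≤ 9 * L * ρ := by
    have hn9 : (n:ℝ) + K + 1 ≤ 9 * L * √x := by
      linarith [le_mul_of_one_le_right (show 0 ≤ L by linarith) hsx1]
    calc ((n:ℝ) + K + 1) * (√x / R) ≤ 9 * L * √x * (1 / x ^ 4) :=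
          mul_le_mul hn9 hR' (by rw [hR]; positivity) (by positivity)
      _ ≤ 9 * L * x * (1 / x ^ 4) := by gcongr
      _ = 9 * L * (1 / x ^ 3) := by field_simp
      _ ≤ 9 * L * (1 / √x) := by
          gcongr
          exact hsxx.trans (le_self_pow₀ hx1 (by norm_num))
      _ ≤ 9 * L * ρ := by gcongr
  have hKs : (K:ℝ) * stepErr d h εq ≤ 3 * L * (40 * A * L * ρ) :=
    mul_le_mul hK hse' hse0 (by linarith)
  unfold totalErr
  have hch : chainErr d h εq n * (1 + n * √(√x / R)) ≤ 400 * A * L ^ 2 * ρ * 2 :=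
    mul_le_mul hchain (by linarith) (by positivity) (by positivity)
  linarith [mul_le_mul_of_nonneg_left hLAL hρ, mul_le_mul_of_nonneg_left h1AL hρ]

/-- The chosen integers. -/
lemma choose_counts {x a L h : ℝ} {p : ℕ} (hx1 : 1 ≤ x) (hL : 4 ≤ L) (hLx : L = log x)
    (ha : 0 < a) (hh : 0 < h) (hh4 : h ≤ 1 / 4) (hp : 2 / a ≤ p) :
    ∃ N b K n : ℕ, 1 ≤ N ∧ (N:ℝ) ≤ 2 * x ^ a ∧ (b:ℝ) ≤ 7 * L ∧ x ^ 4 ≤ 2 ^ b ∧
      (1 / (N:ℝ)) ^ p ≤ 1 / x ^ 2 ∧ (K:ℝ) ≤ 3 * L ∧ x ≤ 2 ^ K ∧ (2:ℝ) ^ K ≤ 2 * x ^ 2 ∧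
      1 ≤ n ∧ (n:ℝ) ≤ 5 * L / h ∧ 4 * L / h ≤ (n - 1 : ℕ) := by
  have hx0 : 0 < x := by linarith
  have hxa : 1 ≤ x ^ a := one_le_rpow hx1 ha.le
  have hl2 := log_two_gt_d9
  have hl2' := log_two_lt_d9
  have hpow : ∀ (m : ℕ) (c : ℝ), c * L ≤ m * log 2 → exp (c * L) ≤ 2 ^ m := fun m c h => by
    rw [← exp_log (by positivity : (0:ℝ) < 2 ^ m), log_pow]; exact exp_le_exp.2 h
  refine ⟨⌈x ^ a⌉₊, ⌈6 * L⌉₊, ⌈2 * L⌉₊, ⌈4 * L / h⌉₊ + 1, Nat.ceil_pos.2 (by linarith), ?_, ?_,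
    ?_, ?_, ?_, ?_, ?_, by omega, ?_, ?_⟩
  · linarith [Nat.ceil_lt_add_one (show 0 ≤ x ^ a by linarith)]
  · linarith [Nat.ceil_lt_add_one (show 0 ≤ 6 * L by linarith)]
  · refine le_trans (le_of_eq ?_) (hpow ⌈6 * L⌉₊ 4 ?_)
    · rw [hLx, mul_comm, ← rpow_def_of_pos hx0]; norm_cast
    · nlinarith [Nat.le_ceil (6 * L)]
  · have hN := Nat.le_ceil (x ^ a)
    rw [one_div_pow]
    refine one_div_le_one_div_of_le (by positivity) ?_
    calc x ^ 2 = x ^ (2:ℝ) := by norm_cast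
      _ ≤ x ^ (a * p) := rpow_le_rpow_of_exponent_le hx1 (by
          rw [div_le_iff₀ ha] at hp; linarith)
      _ = (x ^ a) ^ p := by rw [rpow_mul hx0.le, rpow_natCast]
      _ ≤ _ := pow_le_pow_left₀ (by linarith) hN p
  · linarith [Nat.ceil_lt_add_one (show 0 ≤ 2 * L by linarith)]
  · refine le_trans (le_of_eq ?_) (hpow ⌈2 * L⌉₊ 1 ?_)
    · rw [one_mul, hLx, exp_log hx0]
    · nlinarith [Nat.le_ceil (2 * L)]
  · rw [← exp_log (by positivity : (0:ℝ) < 2 ^ ⌈2 * L⌉₊), log_pow,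
      ← exp_log (by positivity : (0:ℝ) < 2 * x ^ 2), exp_le_exp,
      log_mul two_ne_zero (by positivity), log_pow, ← hLx]
    push_cast
    nlinarith [Nat.ceil_lt_add_one (show 0 ≤ 2 * L by linarith)]
  · push_cast
    have h1 := Nat.ceil_lt_add_one (show 0 ≤ 4 * L / h by positivity)
    have h2 : 4 * L / h + 2 ≤ 5 * L / h := by
      rw [div_add' _ _ _ hh.ne']
      gcongr
      nlinarith
    linarith
  · simpa using Nat.le_ceil (4 * L / h)

/-- Rules for all halvings with the error `40 C L ρ`. -/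
lemma rules_halving {C h x L ρ : ℝ} {d N b p K : ℕ} (hx : x = d) (hC : 0 ≤ C)
    (hrule : ∀ {d : ℕ} {h : ℝ}, 0 < h → h ≤ 1 / 25 → ∀ N b : ℕ, 1 ≤ N → ∀ εq : ℝ,
      4 * C * h * √d * (b * (1 / (N:ℝ)) ^ p + exp (-(2 * h * 2 ^ b))) ≤ εq →
      ∃ r : Rule (N * p * b), IsRule d C h εq r)
    (hN : 1 ≤ N) (hx1 : 1 ≤ x) (hL : 4 ≤ L) (hh0 : 0 < h) (hh25 : h ≤ 1 / 25) (hhx1 : 1 ≤ h * x)
    (hρx : 1 / √x ≤ ρ) (hbL : (b:ℝ) ≤ 7 * L) (hb2 : x ^ 4 ≤ 2 ^ b)
    (hNp : (1 / (N:ℝ)) ^ p ≤ 1 / x ^ 2) (hK3 : (2:ℝ) ^ K ≤ 2 * x ^ 2) :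
    ∀ k, ∃ r : Rule (N * p * b), k ≤ K → IsRule d C (h / 2 ^ k) (40 * C * L * ρ) r := by
  intro k
  by_cases hk : k ≤ K
  swap
  · exact ⟨⟨0, 0, 0, 0⟩, fun h => absurd h hk⟩
  have hx0 : 0 < x := by linarith
  have hsx : 0 < √x := sqrt_pos.2 hx0
  have hsxx : √x ≤ x := (sqrt_le_left hx0.le).2 (le_self_pow₀ hx1 two_ne_zero)
  have hk2 : h / 2 ^ k ≤ h := div_le_self hh0.le (one_le_pow₀ one_le_two)
  have hexp : exp (-(2 * (h / 2 ^ k) * 2 ^ b)) ≤ 2 / x ^ 2 := by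
    have h1 : x ≤ 2 * (h / 2 ^ k) * 2 ^ b := by
      have h2 : h / (2 * x ^ 2) ≤ h / 2 ^ k := by
        refine div_le_div_of_nonneg_left hh0.le (pow_pos two_pos k) (le_trans ?_ hK3)
        exact pow_le_pow_right₀ one_le_two hk
      refine le_trans ?_ (mul_le_mul (mul_le_mul_of_nonneg_left h2 two_pos.le) hb2
        (by positivity) (by positivity))
      rw [show 2 * (h / (2 * x ^ 2)) * x ^ 4 = h * x * x by field_simp]
      exact le_mul_of_one_le_left hx0.le hhx1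
    refine (exp_le_exp.2 (neg_le_neg h1)).trans ?_
    rw [exp_neg, ← inv_div]
    refine inv_anti₀ (by positivity) ?_
    linarith [quadratic_le_exp_of_nonneg hx0.le]
  obtain ⟨r, hr⟩ := hrule (d := d) (div_pos hh0 (pow_pos two_pos k)) (hk2.trans hh25) N b hN
    (40 * C * L * ρ) (by
      subst hx
      calc 4 * C * (h / 2 ^ k) * √(d:ℝ) *
            (b * (1 / (N:ℝ)) ^ p + exp (-(2 * (h / 2 ^ k) * 2 ^ b)))
          ≤ 4 * C * 1 * d * (7 * L * (1 / (d:ℝ) ^ 2) + 2 / (d:ℝ) ^ 2) := by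
            gcongr
            linarith
        _ = C * (28 * L + 8) * (1 / (d:ℝ)) := by field_simp; ring
        _ ≤ C * (40 * L) * ρ := by
            refine mul_le_mul (mul_le_mul_of_nonneg_left (by linarith) hC) ?_ (by positivity)
              (by positivity)
            exact (one_div_le_one_div_of_le hsx hsxx).trans hρx
        _ = 40 * C * L * ρ := by ring)
  exact ⟨r, fun _ => hr⟩

/-- For every exponent above one quarter there is a mass bound `C₀` such that for all large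
dimensions rules and parameters exist with small error and few queries. -/
theorem exists_params {δ : ℝ} (hδ : 0 < δ) : ∃ C₀ : ℝ, ∀ c : ℝ, 0 < c →
    ∃ d₀ : ℕ, ∀ d : ℕ, d₀ ≤ d → ∃ (N M n K : ℕ) (r : ℕ → Rule N) (h εq R : ℝ),
      1 ≤ d ∧ 0 < h ∧ h ≤ 1 / 4 ∧ 0 ≤ εq ∧ (∀ k ≤ K, IsRule d C₀ (h / 2 ^ k) εq (r k)) ∧
      0 < R ∧ (2 * h) ^ M * R ≤ √(h / 2 ^ K * d) ∧ 1 ≤ n ∧
      stepErr d h εq ^ 2 ≤ c ∧ (h / 2 ^ K) ^ 2 * d ≤ c ∧ chainErr d h εq n ≤ c ∧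
      totalErr d h εq R n K ≤ c ∧
      (((n + K) * (M + 3 * N + 2) + M + 1 : ℕ) : ℝ) ≤ (d:ℝ) ^ (1 / 4 + δ) := by
  set a := min (δ / 4) (1 / 8) with hadef
  have ha : 0 < a := lt_min (by linarith) (by norm_num)
  have ha8 : a ≤ 1 / 8 := min_le_right _ _
  have haδ : 4 * a ≤ δ := by linarith [min_le_left (δ / 4) (1 / 8 : ℝ)]
  set p := ⌈2 / a⌉₊ with hpdef
  obtain ⟨C, hC, hrule⟩ := exists_isRule (p := p) (Nat.ceil_pos.2 (by positivity))
  refine ⟨C, fun c hc => ?_⟩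
  set A := 40 * C + 1 with hA
  set Q := 1000 * A + 10 * (53 + 42 * (p:ℝ)) with hQ
  have hQ1 : 1 ≤ Q := by linarith [Nat.cast_nonneg (α := ℝ) p]
  set c' := min c 1 with hc'
  have hc'0 : 0 < c' := lt_min hc one_pos
  obtain ⟨d₀, hd₀⟩ := eventually_atTop.1 (tendsto_natCast_atTop_atTop.eventually
    (eventually_large ha (show 0 < √(c' / Q) by positivity)))
  refine ⟨d₀, fun d hd => ?_⟩
  obtain ⟨hx1, hL, h20, hLa, h50⟩ := hd₀ d hd
  set x : ℝ := (d:ℝ) with hx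
  set L := log x with hLx
  have hx0 : 0 < x := by linarith
  set h := x ^ (-(1 / 4 + a)) with hh
  have hh0 : 0 < h := rpow_pos_of_pos hx0 _
  set ρ := x ^ (-(2 * a)) with hρdef
  have hρ0 : 0 ≤ ρ := (rpow_pos_of_pos hx0 _).le
  have hle : ∀ {u v : ℝ}, u ≤ v → x ^ u ≤ x ^ v := fun h => rpow_le_rpow_of_exponent_le hx1 h
  have hsqrt : √x = x ^ (1 / 2 : ℝ) := sqrt_eq_rpow x
  have hisq : 1 / √x = x ^ (-(1 / 2) : ℝ) := by rw [hsqrt, rpow_neg hx0.le, one_div]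
  have hh50 : h * 50 ≤ 1 := by
    refine le_trans (mul_le_mul_of_nonneg_left h50 hh0.le) ?_
    rw [hh, ← rpow_add hx0]
    exact (hle (show _ ≤ (0:ℝ) by linarith)).trans_eq (rpow_zero x)
  have hh4 : h ≤ 1 / 4 := by linarith
  have hhρ : h ≤ ρ := hle (by linarith)
  have hhx : h ^ 2 * √x ≤ ρ := by
    rw [hh, hρdef, hsqrt, ← rpow_natCast (x ^ (-(1 / 4 + a))), ← rpow_mul hx0.le,
      ← rpow_add hx0]
    exact hle (by push_cast; linarith)
  have hh2 : 1 / √x ≤ h := hisq ▸ hle (by linarith)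
  have hρx : 1 / √x ≤ ρ := hh2.trans hhρ
  have hxs : 1 ≤ √x := one_le_sqrt.2 hx1
  have hsxx : √x ≤ x := (sqrt_le_left hx0.le).2 (le_self_pow₀ hx1 two_ne_zero)
  have hhx1 : 1 ≤ h * x := by
    refine le_trans ?_ (mul_le_mul_of_nonneg_right hh2 hx0.le)
    rw [div_mul_eq_mul_div, one_mul, le_div_iff₀ (by linarith), one_mul]
    exact hsxx
  obtain ⟨N, b, K, n, hN, hNx, hbL, hb2, hNp, hK, hK2, hK3, hn1, hn, hn'⟩ :=
    choose_counts (p := p) hx1 hL hLx ha hh0 hh4 (Nat.le_ceil _)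
  have hKpos : (0:ℝ) < 2 ^ K := by positivity
  set εq := 40 * C * L * ρ with hεq
  have hA1 : 1 ≤ A := by linarith
  have hεA : εq ≤ A * L * ρ := by
    rw [hεq, hA]; linarith [mul_nonneg (show 0 ≤ L by linarith) hρ0]
  have hrules := rules_halving (d := d) hx hC hrule hN hx1 hL hh0 (by linarith) hhx1 hρx hbL hb2
    hNp hK3
  choose r hr using hrules
  obtain ⟨hse, hlast, hchain, htot⟩ := params_err (n := n) (K := K) (A := A) (εq := εq)
    (R := x ^ 5) rfl hx1 hL rfl h20 hh0 hh4 hhρ hhx hh2 hρx (by positivity) hA1 hεA hn hn' hK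
    hK2 rfl
  have hmain : Q * L ^ 2 ≤ c' * x ^ (2 * a) := by
    have h2 := pow_le_pow_left₀ (by linarith) hLa 2
    rw [mul_pow, sq_sqrt (by positivity)] at h2
    have e : x ^ (2 * a) = (x ^ a) ^ 2 := by
      rw [← rpow_natCast (x ^ a), ← rpow_mul hx0.le]; push_cast; ring_nf
    calc Q * L ^ 2 ≤ Q * (c' / Q * (x ^ a) ^ 2) :=
          mul_le_mul_of_nonneg_left h2 (by linarith)
      _ = _ := by rw [e]; field_simp
  have hsmall : ∀ u : ℝ, u ≤ 1000 * A * L ^ 2 * ρ → u ≤ c' := by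
    intro u hu
    refine hu.trans ?_
    have hρx2 : ρ * x ^ (2 * a) = 1 := by rw [hρdef, ← rpow_add hx0, neg_add_cancel, rpow_zero]
    calc 1000 * A * L ^ 2 * ρ ≤ Q * L ^ 2 * ρ := by
          gcongr; linarith [Nat.cast_nonneg (α := ℝ) p]
      _ ≤ c' * x ^ (2 * a) * ρ := by gcongr
      _ = c' := by rw [mul_assoc, mul_comm _ ρ, hρx2, mul_one]
  have hAL : 0 ≤ A * L ^ 2 * ρ := by positivity
  have hse0 : 0 ≤ stepErr d h εq := sqrt_nonneg _
  have hse' : stepErr d h εq ≤ c' := hsmall _ (hse.trans (by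
    linarith [mul_le_mul_of_nonneg_left (show (1:ℝ) ≤ L by linarith)
      (show 0 ≤ A * L * ρ by positivity), hAL]))
  refine ⟨N * p * b, 50, n, K, r, h, εq, x ^ 5, Nat.one_le_cast.1 (hx ▸ hx1), hh0, hh4, by positivity,
    fun k hk => hr k hk, by positivity, ?_, hn1, ?_, ?_, ?_, (hsmall _ htot).trans (min_le_left _ _),
    ?_⟩
  · refine le_trans ?_ (sqrt_le_sqrt (show h / (2 * x ^ 2) * x ≤ h / 2 ^ K * x by gcongr))
    refine le_sqrt_of_sq_le ?_
    have h1 : 2 * h ≤ x ^ (-(1 / 4) : ℝ) * 2 := by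
      have := hle (show -(1 / 4 + a) ≤ -(1 / 4 : ℝ) by linarith)
      rw [← hh] at this; linarith
    set u := x ^ (-(1 / 4) : ℝ) with hu
    have hu0 : 0 < u := rpow_pos_of_pos hx0 _
    have hu4 : u ^ 4 * x = 1 := by
      rw [hu, ← rpow_natCast (x ^ (-(1 / 4) : ℝ)), ← rpow_mul hx0.le,
        show -(1 / 4 : ℝ) * ((4:ℕ):ℝ) = -1 by norm_num, rpow_neg_one, inv_mul_cancel₀ hx0.ne']
    have hu50 : u * 50 ≤ 1 := by
      calc u * 50 ≤ u * x ^ (1 / 4 : ℝ) := by gcongr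
        _ = 1 := by rw [hu, ← rpow_add hx0, neg_add_cancel, rpow_zero]
    calc ((2 * h) ^ 50 * x ^ 5) ^ 2 ≤ ((u * 2) ^ 50 * x ^ 5) ^ 2 := by gcongr
      _ = (2 * u) ^ 52 * 2 ^ 48 * (u ^ 4 * x) ^ 10 * u ^ 8 := by ring
      _ = (2 * u) ^ 52 * 2 ^ 48 * u ^ 8 := by rw [hu4]; ring
      _ ≤ (1 / 25) ^ 52 * 2 ^ 48 * u ^ 8 := by gcongr; linarith
      _ ≤ 1 / 2 * u ^ 8 := by gcongr; norm_num
      _ = 1 / (2 * x ^ 2) := by
          rw [show u ^ 8 = (u ^ 4) ^ 2 by ring, eq_one_div_of_mul_eq_one_left hu4]; field_simp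
      _ ≤ h / (2 * x ^ 2) * x := by
          rw [div_mul_eq_mul_div]
          gcongr
  · calc stepErr d h εq ^ 2 ≤ c' * c' := by rw [sq]; gcongr
      _ ≤ c * 1 := mul_le_mul (min_le_left _ _) (min_le_right _ _) hc'0.le hc.le
      _ = c := mul_one c
  · refine (hlast.trans ((hsmall ρ ?_))).trans (min_le_left _ _)
    exact le_mul_of_one_le_left hρ0 (one_le_mul_of_one_le_of_one_le (by linarith)
      (one_le_pow₀ (by linarith)))
  · exact (hsmall _ (hchain.trans (by linarith))).trans (min_le_left _ _)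
  -- the count
  have hxa : 1 ≤ x ^ a := one_le_rpow hx1 ha.le
  have hinv : 1 / h = x ^ (1 / 4 + a) := by rw [hh, rpow_neg hx0.le, one_div, inv_inv]
  have h1h : 1 ≤ 1 / h := by rw [le_div_iff₀ hh0]; linarith
  have hnK : (n:ℝ) + K ≤ 8 * L * (1 / h) := by
    have h' : (K:ℝ) ≤ 3 * L * (1 / h) := hK.trans (le_mul_of_one_le_right (by linarith) h1h)
    rw [div_eq_mul_one_div] at hn
    linarith
  have hper : (50:ℝ) + 3 * ((N:ℝ) * p * b) + 2 ≤ (52 + 42 * p) * (L * x ^ a) := by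
    have h1 : (1:ℝ) ≤ L * x ^ a := one_le_mul_of_one_le_of_one_le (by linarith) hxa
    have h2 : (N:ℝ) * p * b ≤ 2 * x ^ a * p * (7 * L) := by gcongr
    linarith
  push_cast
  calc ((n:ℝ) + K) * (50 + 3 * ((N:ℝ) * p * b) + 2) + 50 + 1
      ≤ 8 * L * (1 / h) * ((52 + 42 * p) * (L * x ^ a)) + 50 + 1 := by gcongr
    _ ≤ Q * L ^ 2 * ((1 / h) * x ^ a) := by
        have h1 : 1 ≤ L ^ 2 * ((1 / h) * x ^ a) :=
          one_le_mul_of_one_le_of_one_le (one_le_pow₀ (by linarith))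
            (one_le_mul_of_one_le_of_one_le h1h hxa)
        rw [hQ, hA]
        linarith [mul_nonneg hC (zero_le_one.trans h1),
          mul_nonneg (Nat.cast_nonneg (α := ℝ) p) (zero_le_one.trans h1)]
    _ ≤ 1 * x ^ (2 * a) * ((1 / h) * x ^ a) :=
        mul_le_mul_of_nonneg_right
          (hmain.trans (mul_le_mul_of_nonneg_right (min_le_right _ _) (rpow_nonneg hx0.le _)))
          (by positivity)
    _ = x ^ (1 / 4 + 4 * a) := by rw [hinv, one_mul, ← rpow_add hx0, ← rpow_add hx0]; ring_nf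
    _ ≤ _ := hle (by linarith)

end Vale.Agent.P347.Quarter
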