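import Vale.Agent.P347.Quarter.Compose
import Vale.Agent.P347.Quarter.Oracle
import Vale.Agent.P347.Quarter.Params

/-! # P347: the upper bound with exponent one quarter -/

open MeasureTheory ProbabilityTheory Real
open scoped RealInnerProductSpace

namespace Vale.Agent.P347.Quarter

/-- For every `δ > 0` and all large `d` some program with at most `d ^ (1/4 + δ)` queries samples
every target to within one tenth in total variation. -/
theorem quarter {δ : ℝ} (hδ : 0 < δ) : ∃ d₀ : ℕ, ∀ d : ℕ, d₀ ≤ d →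
    ∃ p : Prog (Sp d) (ℝ × Sp d) Unit (Sp d), (p.cost : ℝ) ≤ (d:ℝ) ^ (1 / 4 + δ) ∧
      ∀ V : Sp d → ℝ, ContDiff ℝ 2 V → gradient V 0 = 0 →
        (∀ x v, ‖v‖ ^ 2 ≤ iteratedFDeriv ℝ 2 V x ![v, v] ∧
          iteratedFDeriv ℝ 2 V x ![v, v] ≤ 2 * ‖v‖ ^ 2) →
        ∀ B : Set (Sp d), MeasurableSet B →
          |(p.law (fun x => (V x, gradient V x)) ()).real B -
              (∫ x in B, exp (-V x)) / ∫ x, exp (-V x)| ≤ 1 / 10 := by
  obtain ⟨C₀, hpar⟩ := exists_params hδ
  obtain ⟨C, c₀, hC, hc₀, hcomp⟩ := compose_main C₀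
  obtain ⟨d₀, hd₀⟩ := hpar (min c₀ (1 / (10 * (C + 1)))) (lt_min hc₀ (by positivity))
  refine ⟨d₀, fun d hd => ?_⟩
  obtain ⟨N, M, n, K, r, h, εq, R, hd1, hh, hh4, hεq, hr, hR, hMR, hn, hse, hlast, hchain, htot,
    hq⟩ := hd₀ d hd
  obtain ⟨p, hpc, hlaw⟩ := exists_prog (d := d) r h M n K
  refine ⟨p, le_trans (by exact_mod_cast hpc) hq, fun V hV hV0 hH B hB => ?_⟩
  have hP : IsPot V (gradient V) (fderiv ℝ (gradient V)) 1 2 :=
    isPot_of_contDiff hV fun x v => by simpa using hH x v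
  have hf : ∀ x, |B.indicator (1 : Sp d → ℝ) x| ≤ 1 := fun x => by
    by_cases hx : x ∈ B <;> simp [hx]
  have hm : Measurable (B.indicator (1 : Sp d → ℝ)) := measurable_one.indicator hB
  have h1 := hlaw hV.continuous hP.continuous_grad hm hf
  have h2 := hcomp hd1 hh hh4 hεq hr hR hMR hn (hse.trans (min_le_left _ _))
    (hlast.trans (min_le_left _ _)) (hchain.trans (min_le_left _ _)) hP hV0 hm hf
  have hO : Measurable fun x => (V x, gradient V x) :=
    (hV.continuous.prodMk hP.continuous_grad).measurable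
  have := p.isProbabilityMeasure_law hO ()
  have := (isProb_rgo hP le_rfl (0 : Sp d)).2.2
  rw [integral_indicator_one hB] at h1 h2
  rw [← piLaw_apply hP hB, h1]
  refine h2.trans ((mul_le_mul_of_nonneg_left (htot.trans (min_le_right _ _)) hC).trans ?_)
  rw [mul_one_div, div_le_div_iff₀ (by positivity) (by norm_num)]
  linarith

end Vale.Agent.P347.Quarter
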