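import Vale.Agent.P347.Quarter.Mean.Steps

/-! # P347: the mean of the gradient at the evaluation point -/

open MeasureTheory ProbabilityTheory Real
open scoped RealInnerProductSpace

namespace Vale.Agent.P347.Quarter

private theorem norm_sub_tri {E : Type*} [SeminormedAddCommGroup E] (A B C D F : E) :
    ‖A - F‖ ≤ ‖A - B‖ + (‖B - C‖ + (‖C - D‖ + ‖D - F‖)) :=
  (norm_sub_le_norm_sub_add_norm_sub A B F).trans (add_le_add le_rfl
    ((norm_sub_le_norm_sub_add_norm_sub B C F).trans (add_le_add le_rfl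
      (norm_sub_le_norm_sub_add_norm_sub C D F))))

private theorem mean_arith {K C p1 p2 p3 p4 x1 x2 x3 x4 : ℝ} (hK : 1 ≤ K) (hC : 0 ≤ C)
    (n1 : 0 ≤ p1) (n2 : 0 ≤ p2) (n3 : 0 ≤ p3) (n4 : 0 ≤ p4) (h1 : x1 ≤ K * p1)
    (h2 : x2 ≤ p3 + 3 * p2) (h3 : x3 ≤ 2 * p2) (h4 : x4 ≤ C * p4) :
    x1 + (x2 + (x3 + x4)) ≤ (5 + C) * K * (p2 + p1 + p3 + p4) := by
  have k : 5 + C ≤ (5 + C) * K := le_mul_of_one_le_right (by linarith) hK
  have q1 : K * p1 ≤ (5 + C) * K * p1 :=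
    mul_le_mul_of_nonneg_right (le_mul_of_one_le_left (by linarith) (by linarith)) n1
  nlinarith [mul_le_mul_of_nonneg_right k n2, mul_le_mul_of_nonneg_right k n3,
    mul_le_mul_of_nonneg_right k n4, mul_nonneg hC n2, mul_nonneg hC n3]

theorem mean_point : ∃ C c₀ : ℝ, 0 ≤ C ∧ 0 < c₀ ∧ ∀ {d N : ℕ} {W : Sp d → ℝ} {G : Sp d → Sp d}
    {H : Sp d → Sp d →L[ℝ] Sp d} {η s C₀ εq : ℝ} {w v : Fin N → ℝ}, 1 ≤ d →
    IsPot W G H 0 η → ‖G 0‖ ≤ η * √d → η ^ 2 + η ^ 4 * d ≤ c₀ → 0 < s → s ≤ 1 / 2 →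
    (∀ j, 0 ≤ v j ∧ v j ≤ 1) → ∑ j, |w j| ≤ C₀ → 0 ≤ εq →
    ∫ x, ‖flow (1 - s) G x - qflow w v G x‖ ^ 2 ∂gd d ≤ εq ^ 2 →
    ‖(∫ p : Sp d × Sp d × Sp d,
          G (√(1 - s) • p.1 + √s • p.2.1 - qsamp w v G p.1 p.2.2)
            ∂(gd d).prod ((gd d).prod (gd d))) - ∫ x, G x ∂gibbs W‖ ≤
      C * (1 + C₀) ^ 2 *
        (η ^ 2 * √(s * d) + η ^ 3 * √((d : ℝ) / s) + η * εq + η ^ 2 + η ^ 3 * √d) := by
  obtain ⟨C₁, c₁, hC₁, hc₁, htilt⟩ := MeanPt.step_tilt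
  refine ⟨5 + C₁, c₁, by positivity, hc₁, ?_⟩
  intro d N W G H η s C₀ εq w v hd1 hW hG0 hc hs hs2 hv hw hε hq
  have hη : 0 ≤ η := hW.hess_nonneg_const (by omega)
  have hC : 0 ≤ C₀ := (Finset.sum_nonneg fun j _ => abs_nonneg (w j)).trans hw
  set a := √(1 - s) with ha
  set b := √s with hb
  have hb0 : 0 < b := sqrt_pos.2 hs
  have ha0 : 0 ≤ a := sqrt_nonneg _
  have ha2 : a ^ 2 = 1 - s := sq_sqrt (by linarith)
  have hb2 : b ^ 2 = s := sq_sqrt hs.le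
  have hb1 : b ≤ 1 := sqrt_le_one.2 (by linarith)
  obtain ⟨hi0, hM⟩ := MeanPt.mean_eq hW hη hv hw (a := a) (b := b)
  rw [hM]
  set R1 := C₀ ^ 2 * η ^ 3 * (√(d : ℝ) / b) with hR1
  have hi1 : Integrable (fun x => smth 1 b G (a • x - qflow w v G x)) (gd d) := by
    refine MeanPt.integrable_lin ((contDiff_smth hW hη 1 b).1.continuous.comp
      ((continuous_id.const_smul a).sub (MeanPt.continuous_qflow hW hη hv hw)))
      integrable_norm_gd (a := ‖smth 1 b G 0‖ + η * (C₀ * (‖G 0‖ + η * √(d : ℝ))))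
      (b := η * (a + C₀ * η)) fun x => (MeanPt.norm_smth_le hW hη b _).trans ?_
    have h := (norm_sub_le (a • x) (qflow w v G x)).trans
      (add_le_add (norm_smul_le a x) (MeanPt.qflow_growth hW hη hv hw x))
    rw [Real.norm_eq_abs, abs_of_nonneg ha0] at h
    nlinarith [mul_le_mul_of_nonneg_left h hη]
  have s1 : ‖(∫ x, ∫ z, smth 1 b G (a • x - qsamp w v G x z) ∂gd d ∂gd d) -
      ∫ x, smth 1 b G (a • x - qflow w v G x) ∂gd d‖ ≤ R1 := by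
    rw [← integral_sub hi0 hi1]
    exact (norm_integral_le_of_norm_le_const (C := R1)
      (ae_of_all _ fun x => MeanPt.step_noise hW hη hv hw hb0 _ x)).trans_eq (by simp)
  have s2 := MeanPt.step_flow hW hη hv hw hG0 hs.le (by linarith) hε hq a b
  have s3 := MeanPt.step_merge hW hη ha0 hb0.le (by rw [ha2, hb2]; ring)
  have s4 := htilt hW hη hG0 hc
  have hdb : √((d : ℝ) / s) = √(d : ℝ) / b := sqrt_div' _ hs.le
  have hsd : √(s * d) = b * √(d : ℝ) := sqrt_mul hs.le _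
  have hsb : s ≤ b := by nlinarith
  have hab : 1 - a + b ≤ 2 * b := by nlinarith
  have hD0 : 0 ≤ √(d : ℝ) := sqrt_nonneg _
  refine (le_trans (norm_sub_tri _ _ _ _ _) (mean_arith (one_le_pow₀ (n := 2) (by linarith : (1 : ℝ) ≤ 1 + C₀)) hC₁
    (p1 := η ^ 3 * (√(d : ℝ) / b)) (p2 := η ^ 2 * (b * √(d : ℝ))) (p3 := η * εq)
    (p4 := η ^ 2 + η ^ 3 * √(d : ℝ)) (by positivity) (by positivity) (by positivity)
    (by positivity) (s1.trans ?_) (s2.trans ?_) (s3.trans ?_) s4)).trans_eq ?_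
  · rw [hR1, mul_assoc]
    exact mul_le_mul_of_nonneg_right (pow_le_pow_left₀ hC (by linarith) 2) (by positivity)
  · nlinarith [mul_le_mul_of_nonneg_left hsb (by positivity : 0 ≤ η ^ 2 * √(d : ℝ))]
  · nlinarith [mul_le_mul_of_nonneg_left hab (by positivity : 0 ≤ η ^ 2 * √(d : ℝ))]
  · rw [hdb, hsd]; ring

end Vale.Agent.P347.Quarter
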