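import Vale.Agent.P347.Quarter.Tilt
import Vale.Agent.P347.Quarter.Flow
import Vale.Agent.P347.Quarter.Absorb
import Vale.Agent.P347.Quarter.Mean
import Vale.Agent.P347.Quarter.Blocks
import Vale.Agent.P347.Quarter.Smooth

/-!
# P347: one step in whitened coordinates

The output has the exact mean `-E G(z')` and is close in chi square to the tilted law plus half of
the forward noise.
-/

open MeasureTheory ProbabilityTheory Real Filter
open scoped RealInnerProductSpace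

namespace Vale.Agent.P347.Quarter

/-- The correlation of the target with half noise. -/
noncomputable def kap0 : ℝ := 2 / √5

/-- Its inverse. -/
noncomputable def scl : ℝ := √5 / 2

lemma kap0_pos : 0 < kap0 := by unfold kap0; positivity

lemma kap0_sq : kap0 ^ 2 = 4 / 5 := by
  rw [kap0, div_pow, sq_sqrt (by norm_num : (0:ℝ) ≤ 5)]; norm_num

lemma kap0_le_one : kap0 ≤ 1 := by nlinarith [kap0_sq, kap0_pos]

lemma scl_pos : 0 < scl := by unfold scl; positivity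

lemma scl_mul_kap0 : scl * kap0 = 1 := by
  unfold scl kap0; field_simp

lemma scl_le : scl ≤ 2 := by
  have : √5 ≤ 4 := by rw [sqrt_le_left (by norm_num)]; norm_num
  unfold scl; linarith

lemma scl_mul_sqrt : scl * √(1 - kap0 ^ 2) = 1 / 2 := by
  rw [kap0_sq, scl, show (1:ℝ) - 4 / 5 = 1 / 5 by norm_num, div_mul_eq_mul_div,
    ← sqrt_mul (by norm_num : (0:ℝ) ≤ 5)]
  norm_num

/-- Indices of the auxiliary Gaussian vectors of a step. -/
abbrev StepI (d : ℕ) : Type := Fin d ⊕ ((Fin d ⊕ Fin d) ⊕ (Fin d ⊕ (Fin d ⊕ Fin d)))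

/-- The seed of a step. -/
abbrev Seed (d : ℕ) : Type := (Sp d × Sp d) × Eu (StepI d)

/-- The law of the seed. -/
noncomputable def seedGam (d : ℕ) : Measure (Seed d) :=
  ((gd d).prod (gd d)).prod (gam (StepI d))

instance instIsProbSeedGam (d : ℕ) : IsProbabilityMeasure (seedGam d) := by
  unfold seedGam; infer_instance

section defs

variable {d N₀ N₁ : ℕ} (w₀ v₀ : Fin N₀ → ℝ) (w₁ v₁ : Fin N₁ → ℝ) (s : ℝ) (G : Sp d → Sp d)

/-- The point at which the mean correction reads the gradient. -/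
noncomputable def evalPt (ω : Eu (StepI d)) : Sp d :=
  √(1 - s) • fstB (sndB (sndB ω)) + √s • fstB (sndB (sndB (sndB ω))) -
    qsamp w₁ v₁ G (fstB (sndB (sndB ω))) (sndB (sndB (sndB (sndB ω))))

/-- The mean correction. -/
noncomputable def stepC (ω : Eu (StepI d)) : Sp d :=
  scl • qsamp w₀ v₀ G (fstB (fstB (sndB ω))) (sndB (fstB (sndB ω))) - G (evalPt w₁ v₁ s G ω)

/-- The shift that half of the noise absorbs. -/
noncomputable def stepM (S : Sp d) (ω : Eu (StepI d)) : Sp d :=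
  scl • (flow kap0 G S - qsamp w₀ v₀ G S (fstB ω)) + stepC w₀ v₀ w₁ v₁ s G ω

/-- The output of a step. -/
noncomputable def stepZ (p : Seed d) : Sp d :=
  scl • (p.1.1 - qsamp w₀ v₀ G p.1.1 (fstB p.2)) + (1 / 2 : ℝ) • p.1.2 +
    stepC w₀ v₀ w₁ v₁ s G p.2

end defs

variable {d N N₀ : ℕ} {W : Sp d → ℝ} {G : Sp d → Sp d} {H : Sp d → Sp d →L[ℝ] Sp d} {η : ℝ}

lemma stepZ_eq {N₁ : ℕ} (w₀ v₀ : Fin N₀ → ℝ) (w₁ v₁ : Fin N₁ → ℝ) (s : ℝ) (p : Seed d) :
    stepZ w₀ v₀ w₁ v₁ s G p =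
      scl • tmap kap0 G p.1.1 + (1 / 2 : ℝ) • p.1.2 + stepM w₀ v₀ w₁ v₁ s G p.1.1 p.2 := by
  simp only [stepZ, stepM, tmap]; module

lemma contDiff_flow_comp {ι : Type} [Fintype ι] (hW : IsPot W G H 0 η) (hη : 0 ≤ η)
    {w v : Fin N → ℝ} (hv : ∀ j, 0 ≤ v j ∧ v j ≤ 1) (A B : Eu ι →L[ℝ] Sp d) (hA : ‖A‖ ≤ 1)
    (hB : ‖B‖ ≤ 1) (c : Sp d) :
    ContDiff ℝ 1 (fun ω => qsamp w v G (c + A ω) (B ω)) ∧
      ∀ ω, ‖fderiv ℝ (fun ω => qsamp w v G (c + A ω) (B ω)) ω‖ ≤ 2 * (∑ j, |w j|) * η := by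
  have hd : ∀ j ω, HasFDerivAt (fun ω => w j • G (v j • (c + A ω) + √(1 - v j ^ 2) • B ω))
      (w j • (H (v j • (c + A ω) + √(1 - v j ^ 2) • B ω)).comp
        (v j • A + √(1 - v j ^ 2) • B)) ω := fun j ω =>
    ((hW.hasHess _).comp ω (((A.hasFDerivAt.const_add c).const_smul (v j)).add
      (B.hasFDerivAt.const_smul (√(1 - v j ^ 2))))).const_smul (w j)
  refine ⟨ContDiff.sum fun j _ => ((hW.contDiff_grad).comp
    (((contDiff_const.add A.contDiff).const_smul (v j)).add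
      (B.contDiff.const_smul (√(1 - v j ^ 2))))).const_smul (w j), fun ω => ?_⟩
  unfold qsamp
  rw [(HasFDerivAt.fun_sum fun j _ => hd j ω).fderiv, mul_comm 2 (∑ j, |w j|), mul_assoc,
    Finset.sum_mul]
  refine (norm_sum_le _ _).trans (Finset.sum_le_sum fun j _ => ?_)
  rw [norm_smul, norm_eq_abs]
  refine mul_le_mul_of_nonneg_left ?_ (abs_nonneg _)
  refine (ContinuousLinearMap.opNorm_comp_le _ _).trans ?_
  rw [mul_comm 2 η]
  refine mul_le_mul (hW.norm_hess hη _) ((norm_add_le _ _).trans ?_) (norm_nonneg _) hη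
  rw [norm_smul, norm_smul, norm_eq_abs, norm_eq_abs, abs_of_nonneg (hv j).1,
    abs_of_nonneg (sqrt_nonneg _)]
  have : √(1 - v j ^ 2) ≤ 1 := sqrt_le_one.2 (by nlinarith [sq_nonneg (v j)])
  nlinarith [(hv j).1, (hv j).2, sqrt_nonneg (1 - v j ^ 2), norm_nonneg A, norm_nonneg B]

lemma contDiff_qflow (hW : IsPot W G H 0 η) (hη : 0 ≤ η) {w v : Fin N → ℝ}
    (hv : ∀ j, 0 ≤ v j ∧ v j ≤ 1) :
    ContDiff ℝ 1 (qflow w v G) ∧ ∀ x, ‖fderiv ℝ (qflow w v G) x‖ ≤ (∑ j, |w j|) * η := by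
  have hs := fun j => contDiff_smth hW hη (v j) (√(1 - v j ^ 2))
  refine ⟨ContDiff.sum fun j _ => (hs j).1.const_smul (w j), fun x => ?_⟩
  have hd : HasFDerivAt (qflow w v G)
      (∑ j, w j • fderiv ℝ (smth (v j) (√(1 - v j ^ 2)) G) x) x :=
    HasFDerivAt.fun_sum fun j _ =>
      (((hs j).1.differentiable one_ne_zero x).hasFDerivAt).const_smul (w j)
  rw [hd.fderiv, Finset.sum_mul]
  refine (norm_sum_le _ _).trans (Finset.sum_le_sum fun j _ => ?_)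
  rw [norm_smul, norm_eq_abs]
  refine mul_le_mul_of_nonneg_left (((hs j).2 x).trans ?_) (abs_nonneg _)
  rw [abs_of_nonneg (hv j).1]
  exact mul_le_of_le_one_left hη (hv j).2

lemma stepC_spec {N₁ : ℕ} (hW : IsPot W G H 0 η) (hη : 0 ≤ η) (hη1 : η ≤ 1) {w₀ v₀ : Fin N₀ → ℝ}
    {w₁ v₁ : Fin N₁ → ℝ} (hv₀ : ∀ j, 0 ≤ v₀ j ∧ v₀ j ≤ 1) (hv₁ : ∀ j, 0 ≤ v₁ j ∧ v₁ j ≤ 1)
    {C₀ s : ℝ} (h₀ : ∑ j, |w₀ j| ≤ C₀) (h₁ : ∑ j, |w₁ j| ≤ C₀) (hs : 0 ≤ s) (hs1 : s ≤ 1) :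
    ContDiff ℝ 1 (stepC w₀ v₀ w₁ v₁ s G) ∧
      ∀ ω, ‖fderiv ℝ (stepC w₀ v₀ w₁ v₁ s G) ω‖ ≤ (6 * C₀ + 2) * η := by
  let P1 : Eu (StepI d) →L[ℝ] Sp d := fstB.comp (fstB.comp sndB)
  let P2 : Eu (StepI d) →L[ℝ] Sp d := sndB.comp (fstB.comp sndB)
  let P3 : Eu (StepI d) →L[ℝ] Sp d := fstB.comp (sndB.comp sndB)
  let P4 : Eu (StepI d) →L[ℝ] Sp d := fstB.comp (sndB.comp (sndB.comp sndB))
  let P5 : Eu (StepI d) →L[ℝ] Sp d := sndB.comp (sndB.comp (sndB.comp sndB))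
  have hc : ∀ {E₁ E₂ E₃ : Type} [NormedAddCommGroup E₁] [NormedSpace ℝ E₁]
      [NormedAddCommGroup E₂] [NormedSpace ℝ E₂] [NormedAddCommGroup E₃] [NormedSpace ℝ E₃]
      (f : E₂ →L[ℝ] E₃) (g : E₁ →L[ℝ] E₂), ‖f‖ ≤ 1 → ‖g‖ ≤ 1 → ‖f.comp g‖ ≤ 1 :=
    fun f g hf hg => (f.opNorm_comp_le g).trans (mul_le_one₀ hf (norm_nonneg _) hg)
  obtain ⟨c1, d1⟩ := contDiff_flow_comp (w := w₀) hW hη hv₀ P1 P2
    (hc _ _ fstB_opNorm (hc _ _ fstB_opNorm sndB_opNorm))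
    (hc _ _ sndB_opNorm (hc _ _ fstB_opNorm sndB_opNorm)) 0
  obtain ⟨c2, d2⟩ := contDiff_flow_comp (w := w₁) hW hη hv₁ P3 P5
    (hc _ _ fstB_opNorm (hc _ _ sndB_opNorm sndB_opNorm))
    (hc _ _ sndB_opNorm (hc _ _ sndB_opNorm (hc _ _ sndB_opNorm sndB_opNorm))) 0
  simp only [zero_add] at c1 d1 c2 d2
  set F1 := fun ω => qsamp w₀ v₀ G (P1 ω) (P2 ω)
  set F2 := fun ω => qsamp w₁ v₁ G (P3 ω) (P5 ω)
  have he : evalPt w₁ v₁ s G = fun ω => (√(1 - s) • P3 + √s • P4) ω - F2 ω := rfl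
  have hC : stepC w₀ v₀ w₁ v₁ s G = fun ω => scl • F1 ω - G (evalPt w₁ v₁ s G ω) := rfl
  have ce : ContDiff ℝ 1 (evalPt w₁ v₁ s G) := by
    rw [he]; exact (√(1 - s) • P3 + √s • P4).contDiff.sub c2
  refine ⟨by rw [hC]; exact (c1.const_smul scl).sub (hW.contDiff_grad.comp ce), fun ω => ?_⟩
  have hde : HasFDerivAt (evalPt w₁ v₁ s G) ((√(1 - s) • P3 + √s • P4) - fderiv ℝ F2 ω) ω := by
    rw [he]
    exact (√(1 - s) • P3 + √s • P4).hasFDerivAt.sub
      (c2.differentiable one_ne_zero ω).hasFDerivAt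
  have hd := ((c1.differentiable one_ne_zero ω).hasFDerivAt.const_smul scl).sub
    ((hW.hasHess _).comp ω hde)
  rw [hC, show (fun ω => scl • F1 ω - G (evalPt w₁ v₁ s G ω)) =
    scl • F1 - G ∘ evalPt w₁ v₁ s G from rfl, hd.fderiv]
  have hC0 : 0 ≤ C₀ := (Finset.sum_nonneg fun j _ => abs_nonneg _).trans h₀
  have n1 : ‖scl • fderiv ℝ F1 ω‖ ≤ 2 * (2 * C₀ * η) := by
    rw [norm_smul, norm_eq_abs, abs_of_pos scl_pos]
    exact mul_le_mul scl_le ((d1 ω).trans (by gcongr)) (norm_nonneg _) zero_le_two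
  have n2 : ‖(√(1 - s) • P3 + √s • P4) - fderiv ℝ F2 ω‖ ≤ 2 + 2 * C₀ := by
    refine (norm_sub_le _ _).trans (add_le_add ((norm_add_le _ _).trans ?_) ?_)
    · rw [norm_smul, norm_smul, norm_eq_abs, norm_eq_abs, abs_of_nonneg (sqrt_nonneg _),
        abs_of_nonneg (sqrt_nonneg _)]
      have a1 : √(1 - s) * ‖P3‖ ≤ 1 := mul_le_one₀ (sqrt_le_one.2 (by linarith)) (norm_nonneg _)
        (hc _ _ fstB_opNorm (hc _ _ sndB_opNorm sndB_opNorm))
      have a2 : √s * ‖P4‖ ≤ 1 := mul_le_one₀ (sqrt_le_one.2 hs1) (norm_nonneg _)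
        (hc _ _ fstB_opNorm (hc _ _ sndB_opNorm (hc _ _ sndB_opNorm sndB_opNorm)))
      linarith
    · refine (d2 ω).trans ?_
      calc 2 * (∑ j, |w₁ j|) * η ≤ 2 * C₀ * 1 := by gcongr
        _ = 2 * C₀ := mul_one _
  refine (norm_sub_le _ _).trans ((add_le_add n1 ((ContinuousLinearMap.opNorm_comp_le _ _).trans
    (mul_le_mul (hW.norm_hess hη _) n2 (norm_nonneg _) hη))).trans_eq (by ring))

lemma integrable_qsamp (hW : IsPot W G H 0 η) (hη : 0 ≤ η) (w v : Fin N → ℝ) (x : Sp d) :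
    Integrable (fun z => qsamp w v G x z) (gd d) ∧ ∫ z, qsamp w v G x z ∂gd d = qflow w v G x := by
  refine ⟨integrable_finsetSum _ fun j _ => (integrable_grad_comp hW hη _ _ x).smul (w j), ?_⟩
  simp only [qsamp, qflow, pv, smth]
  rw [integral_finsetSum _ fun j _ => (integrable_grad_comp hW hη _ _ x).fun_smul (w j)]
  simp [integral_smul]

lemma integral_qsamp_pair (hW : IsPot W G H 0 η) (hη : 0 ≤ η) {w v : Fin N → ℝ}
    (hv : ∀ j, 0 ≤ v j ∧ v j ≤ 1) :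
    Integrable (fun p : Sp d × Sp d => qsamp w v G p.1 p.2) ((gd d).prod (gd d)) ∧
      ∫ p : Sp d × Sp d, qsamp w v G p.1 p.2 ∂(gd d).prod (gd d) =
        (∑ j, w j) • ∫ x, G x ∂gd d := by
  have hGi : Integrable G (gd d) := by
    simpa using integrable_grad_comp hW hη 0 1 (0 : Sp d)
  have hj : ∀ j, Integrable (fun p : Sp d × Sp d => G (v j • p.1 + √(1 - v j ^ 2) • p.2))
        ((gd d).prod (gd d)) ∧
      ∫ p : Sp d × Sp d, G (v j • p.1 + √(1 - v j ^ 2) • p.2) ∂(gd d).prod (gd d) =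
        ∫ x, G x ∂gd d := by
    intro j
    have hmap := gauss_combine (ι := Fin d) (v j) (√(1 - v j ^ 2))
    rw [sq_sqrt (by nlinarith [(hv j).1, (hv j).2]), add_sub_cancel, sqrt_one] at hmap
    simp only [one_smul, Measure.map_id'] at hmap
    change _ = gd d at hmap
    have hm : Measurable fun p : Sp d × Sp d => v j • p.1 + √(1 - v j ^ 2) • p.2 := by fun_prop
    constructor
    · have h := (integrable_map_measure (μ := (gd d).prod (gd d)) (g := G)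
        hW.continuous_grad.aestronglyMeasurable hm.aemeasurable).1 (by rw [hmap]; exact hGi)
      exact h
    · conv_rhs => rw [← hmap, integral_map hm.aemeasurable hW.continuous_grad.aestronglyMeasurable]
  refine ⟨integrable_finsetSum _ fun j _ => (hj j).1.smul (w j), ?_⟩
  simp only [qsamp]
  rw [integral_finsetSum _ fun j _ => (hj j).1.fun_smul (w j), Finset.sum_smul]
  exact Finset.sum_congr rfl fun j _ => by rw [integral_smul, (hj j).2]

lemma integral_id_gd : ∫ x, x ∂gd d = 0 := integral_id_stdGaussian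

lemma norm_mean_grad (hW : IsPot W G H 0 η) (hη : 0 ≤ η) :
    ‖∫ x, G x ∂gd d‖ ≤ ‖G 0‖ + η * √d := by
  have hn : ∫ x : Sp d, ‖x‖ ∂gd d ≤ √d := by
    obtain ⟨hi, he⟩ := integral_norm_sq (ι := Fin d)
    have h2 : MemLp (fun x : Sp d => ‖x‖) 2 (gd d) :=
      (memLp_two_iff_integrable_sq continuous_norm.aestronglyMeasurable).2 hi
    have h := variance_eq_sub h2 ▸ variance_nonneg (fun x : Sp d => ‖x‖) (gd d)
    simp only [Pi.pow_apply] at h
    rw [he, Fintype.card_fin] at h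
    exact le_sqrt_of_sq_le (by linarith)
  refine (norm_integral_le_of_norm_le ((integrable_const ‖G 0‖).add
    (integrable_norm_gd.const_mul η))
    (Eventually.of_forall fun x => hW.norm_grad_le hη x)).trans ?_
  rw [integral_add' (integrable_const _) (integrable_norm_gd.const_mul η), integral_const,
    integral_const_mul]
  simp only [probReal_univ, smul_eq_mul, one_mul]
  gcongr

/-- The mean of the correction, before the evaluation point is used. -/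
lemma integral_stepC (hW : IsPot W G H 0 η) (hη : 0 ≤ η) {w₀ v₀ : Fin N₀ → ℝ} {w₁ v₁ : Fin N → ℝ}
    (hv₀ : ∀ j, 0 ≤ v₀ j ∧ v₀ j ≤ 1) {s L : ℝ}
    (hc : ContDiff ℝ 1 (stepC w₀ v₀ w₁ v₁ s G) ∧
      ∀ ω, ‖fderiv ℝ (stepC w₀ v₀ w₁ v₁ s G) ω‖ ≤ L) :
    ∫ ω, stepC w₀ v₀ w₁ v₁ s G ω ∂gam (StepI d) =
      (scl * ∑ j, w₀ j) • (∫ x, G x ∂gd d) -
        ∫ p : Sp d × Sp d × Sp d,
          G (√(1 - s) • p.1 + √s • p.2.1 - qsamp w₁ v₁ G p.1 p.2.2)
            ∂(gd d).prod ((gd d).prod (gd d)) := by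
  obtain ⟨hqi, hq⟩ := integral_qsamp_pair (w := w₀) hW hη hv₀
  have hP : MeasurePreserving
      (fun ω : Eu (StepI d) => (fstB (fstB (sndB ω)), sndB (fstB (sndB ω))))
      (gam (StepI d)) ((gd d).prod (gd d)) := (gam_split.comp gam_fstB).comp gam_sndB
  have hT : MeasurePreserving
      (fun ω : Eu (StepI d) => (fstB (sndB (sndB ω)),
        fstB (sndB (sndB (sndB ω))), sndB (sndB (sndB (sndB ω)))))
      (gam (StepI d)) ((gd d).prod ((gd d).prod (gd d))) :=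
    (((MeasurePreserving.id (gd d)).prod gam_split).comp gam_split).comp
      (gam_sndB.comp gam_sndB)
  have hqm : Continuous fun p : Sp d × Sp d => qsamp w₀ v₀ G p.1 p.2 :=
    continuous_finsetSum _ fun j _ => (hW.continuous_grad.comp (by fun_prop)).const_smul (w₀ j)
  have h1i : Integrable (fun ω : Eu (StepI d) =>
      scl • qsamp w₀ v₀ G (fstB (fstB (sndB ω))) (sndB (fstB (sndB ω)))) (gam (StepI d)) :=
    ((hP.integrable_comp hqm.aestronglyMeasurable).2 hqi).smul scl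
  have h2i : Integrable (fun ω : Eu (StepI d) => G (evalPt w₁ v₁ s G ω)) (gam (StepI d)) := by
    refine (h1i.sub (integrable_of_lip hc.1 hc.2).1).congr (Eventually.of_forall fun ω => ?_)
    simp [stepC]
  have hgm : Continuous fun p : Sp d × Sp d × Sp d =>
      G (√(1 - s) • p.1 + √s • p.2.1 - qsamp w₁ v₁ G p.1 p.2.2) :=
    hW.continuous_grad.comp (.sub (by fun_prop) (continuous_finsetSum _ fun j _ =>
      (hW.continuous_grad.comp (by fun_prop)).const_smul (w₁ j)))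
  simp only [stepC]
  rw [integral_sub h1i h2i, integral_smul, mul_smul, ← hq]
  congr 1
  · congr 1
    rw [← hP.map_eq, integral_map hP.measurable.aemeasurable hqm.aestronglyMeasurable]
  · rw [← hT.map_eq, integral_map hT.measurable.aemeasurable hgm.aestronglyMeasurable]
    rfl

/-- The target of the whitened step through the transport map. -/
lemma map_target {r : Sp d → ℝ} [IsProbabilityMeasure (gibbs W)] [IsProbabilityMeasure (gibbs r)]
    (hr : (gibbs r).map (tmap kap0 G) =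
      ((gibbs W).prod (gd d)).map fun p => kap0 • p.1 + √(1 - kap0 ^ 2) • p.2)
    (hT : Continuous (tmap kap0 G)) :
    ((gibbs r).prod (gd d)).map (fun p => scl • tmap kap0 G p.1 + (1 / 2 : ℝ) • p.2) =
      ((gibbs W).prod (gd d)).map fun p => p.1 + √(1 / 2) • p.2 := by
  have hl : ((gibbs r).map (tmap kap0 G)).prod (gd d) =
      ((gibbs r).prod (gd d)).map (Prod.map (tmap kap0 G) id) := by
    simpa using Measure.map_prod_map (gibbs r) (gd d) hT.measurable measurable_id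
  have hr' : (((gibbs W).prod (gd d)).map fun p => kap0 • p.1 + √(1 - kap0 ^ 2) • p.2).prod
      (gd d) = (((gibbs W).prod (gd d)).prod (gd d)).map
        (Prod.map (fun p => kap0 • p.1 + √(1 - kap0 ^ 2) • p.2) id) := by
    simpa using Measure.map_prod_map ((gibbs W).prod (gd d)) (gd d)
      (f := fun p => kap0 • p.1 + √(1 - kap0 ^ 2) • p.2) (by fun_prop) measurable_id
  have hw : (gibbs W).prod (((gd d).prod (gd d)).map
      fun q => (1 / 2 : ℝ) • q.1 + (1 / 2 : ℝ) • q.2) =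
      ((gibbs W).prod ((gd d).prod (gd d))).map
        (Prod.map id fun q => (1 / 2 : ℝ) • q.1 + (1 / 2 : ℝ) • q.2) := by
    simpa using Measure.map_prod_map (gibbs W) ((gd d).prod (gd d))
      (g := fun q => (1 / 2 : ℝ) • q.1 + (1 / 2 : ℝ) • q.2) measurable_id (by fun_prop)
  have hg : (gibbs W).prod ((gd d).map fun x => √(1 / 2) • x) =
      ((gibbs W).prod (gd d)).map (Prod.map id fun x => √(1 / 2) • x) := by
    simpa using Measure.map_prod_map (gibbs W) (gd d) (g := fun x => √(1 / 2 : ℝ) • x)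
      measurable_id (by fun_prop)
  calc _ = (((gibbs r).map (tmap kap0 G)).prod (gd d)).map
        (fun p => scl • p.1 + (1 / 2 : ℝ) • p.2) := by
        rw [hl, Measure.map_map (by fun_prop) (by fun_prop)]; rfl
    _ = (((gibbs W).prod (gd d)).prod (gd d)).map
        (fun p => scl • (kap0 • p.1.1 + √(1 - kap0 ^ 2) • p.1.2) + (1 / 2 : ℝ) • p.2) := by
        rw [hr, hr', Measure.map_map (by fun_prop) (by fun_prop)]; rfl
    _ = ((gibbs W).prod ((gd d).prod (gd d))).map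
        (fun p => p.1 + ((1 / 2 : ℝ) • p.2.1 + (1 / 2 : ℝ) • p.2.2)) := by
        rw [← Measure.prodAssoc_prod, Measure.map_map (by fun_prop) (by fun_prop)]
        congr 1
        funext p
        simp only [Function.comp_apply, MeasurableEquiv.prodAssoc, smul_add, smul_smul,
          scl_mul_kap0, scl_mul_sqrt, one_smul]
        simp [add_assoc]
    _ = ((gibbs W).prod (((gd d).prod (gd d)).map
        fun q => (1 / 2 : ℝ) • q.1 + (1 / 2 : ℝ) • q.2)).map (fun p => p.1 + p.2) := by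
        rw [hw, Measure.map_map (by fun_prop) (by fun_prop)]; rfl
    _ = _ := by
        rw [gauss_combine, show √((1 / 2 : ℝ) ^ 2 + (1 / 2) ^ 2) = √(1 / 2) by norm_num, hg,
          Measure.map_map (by fun_prop) (by fun_prop)]
        rfl

/-- The error of the mean of one step. -/
noncomputable def meanErr (d : ℕ) (η s εq : ℝ) : ℝ :=
  η ^ 2 * √(s * d) + η ^ 3 * √((d : ℝ) / s) + η * εq + η ^ 2 + η ^ 3 * √d

lemma meanErr_nonneg {s εq : ℝ} (hη : 0 ≤ η) (hε : 0 ≤ εq) : 0 ≤ meanErr d η s εq := by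
  unfold meanErr; positivity

/-- The shift is Lipschitz in the seed, and so is its mean. -/
lemma stepM_spec (hW : IsPot W G H 0 η) (hη : 0 ≤ η) (hη1 : η ≤ 1) {w₀ v₀ : Fin N₀ → ℝ}
    {w₁ v₁ : Fin N → ℝ} (hv₀ : ∀ j, 0 ≤ v₀ j ∧ v₀ j ≤ 1) (hv₁ : ∀ j, 0 ≤ v₁ j ∧ v₁ j ≤ 1)
    {C s : ℝ} (h₀ : ∑ j, |w₀ j| ≤ C) (h₁ : ∑ j, |w₁ j| ≤ C) (hs : 0 ≤ s) (hs1 : s ≤ 1) :
    Continuous (Function.uncurry (stepM w₀ v₀ w₁ v₁ s G)) ∧
    (∀ x, ContDiff ℝ 1 (stepM w₀ v₀ w₁ v₁ s G x) ∧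
      ∀ ω, ‖fderiv ℝ (stepM w₀ v₀ w₁ v₁ s G x) ω‖ ≤ (10 * C + 4) * η) ∧
    (∀ x, ∫ ω, stepM w₀ v₀ w₁ v₁ s G x ω ∂gam (StepI d) =
      scl • (flow kap0 G x - qflow w₀ v₀ G x) + ∫ ω, stepC w₀ v₀ w₁ v₁ s G ω ∂gam (StepI d)) ∧
    ContDiff ℝ 1 (fun x => ∫ ω, stepM w₀ v₀ w₁ v₁ s G x ω ∂gam (StepI d)) ∧
    (∀ x, ‖fderiv ℝ (fun y => ∫ ω, stepM w₀ v₀ w₁ v₁ s G y ω ∂gam (StepI d)) x‖ ≤
      (10 * C + 4) * η) ∧
    Integrable (fun x => ‖flow kap0 G x - qflow w₀ v₀ G x‖ ^ 2) (gd d) := by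
  obtain ⟨hc, hdc⟩ := stepC_spec hW hη hη1 hv₀ hv₁ h₀ h₁ hs hs1
  obtain ⟨hfl, hdfl, -, -⟩ := flow_spec hW hη kap0_pos.le kap0_le_one
  obtain ⟨hqf, hdqf⟩ := contDiff_qflow (w := w₀) hW hη hv₀
  have hC : 0 ≤ C := (Finset.sum_nonneg fun j _ => abs_nonneg _).trans h₀
  have hw : (∑ j, |w₀ j|) * η ≤ C * η := mul_le_mul_of_nonneg_right h₀ hη
  have hCη : 0 ≤ C * η := mul_nonneg hC hη
  set μ := ∫ ω, stepC w₀ v₀ w₁ v₁ s G ω ∂gam (StepI d) with hμ
  have hMeq : ∀ x, ∫ ω, stepM w₀ v₀ w₁ v₁ s G x ω ∂gam (StepI d) =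
      scl • (flow kap0 G x - qflow w₀ v₀ G x) + μ := by
    intro x
    have hqi := integrable_qsamp hW hη w₀ v₀ x
    have hqm : Continuous fun z : Sp d => qsamp w₀ v₀ G x z :=
      continuous_finsetSum _ fun j _ => (hW.continuous_grad.comp (by fun_prop)).const_smul (w₀ j)
    have i1 : Integrable (fun ω : Eu (StepI d) => qsamp w₀ v₀ G x (fstB ω)) (gam (StepI d)) :=
      (gam_fstB.integrable_comp hqm.aestronglyMeasurable).2 hqi.1
    have i2 : Integrable (fun ω : Eu (StepI d) =>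
        flow kap0 G x - qsamp w₀ v₀ G x (fstB ω)) (gam (StepI d)) :=
      (integrable_const _).sub i1
    simp only [stepM]
    rw [integral_add (i2.fun_smul scl) (integrable_of_lip hc hdc).1, integral_smul,
      integral_sub (integrable_const _) i1, integral_const, probReal_univ, one_smul,
      ← integral_map gam_fstB.measurable.aemeasurable hqm.aestronglyMeasurable, gam_fstB.map_eq,
      hqi.2]
  refine ⟨?_, fun x => ?_, hMeq, ?_, fun x => ?_, ?_⟩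
  · have hq : Continuous fun p : Sp d × Eu (StepI d) => qsamp w₀ v₀ G p.1 (fstB p.2) :=
      continuous_finsetSum _ fun j _ => (hW.continuous_grad.comp (by fun_prop)).const_smul (w₀ j)
    exact (((hfl.continuous.comp continuous_fst).sub hq).const_smul scl).add
      (hc.continuous.comp continuous_snd)
  · obtain ⟨cq, dq⟩ := contDiff_flow_comp (w := w₀) hW hη hv₀ (0 : Eu (StepI d) →L[ℝ] Sp d) fstB
      (by simp) fstB_opNorm x
    simp only [zero_apply, add_zero] at cq dq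
    refine ⟨((contDiff_const.sub cq).const_smul scl).add hc, fun ω => ?_⟩
    have h := ((((cq.differentiable one_ne_zero ω).hasFDerivAt.const_sub
      (flow kap0 G x)).const_smul scl).add (hc.differentiable one_ne_zero ω).hasFDerivAt).fderiv
    refine (congrArg norm h).trans_le ((norm_add_le _ _).trans ?_)
    rw [norm_smul, norm_neg, norm_eq_abs, abs_of_pos scl_pos]
    refine (add_le_add (mul_le_mul scl_le ((dq ω).trans_eq (mul_assoc _ _ _)) (norm_nonneg _)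
      zero_le_two) (hdc ω)).trans ?_
    linarith
  · rw [funext hMeq]; exact ((hfl.sub hqf).const_smul scl).add contDiff_const
  · have h := ((((hfl.differentiable one_ne_zero x).hasFDerivAt.sub
      (hqf.differentiable one_ne_zero x).hasFDerivAt).const_smul scl).add_const μ).fderiv
    rw [funext hMeq]
    refine (congrArg norm h).trans_le ?_
    rw [norm_smul, norm_eq_abs, abs_of_pos scl_pos]
    refine (mul_le_mul scl_le ((norm_sub_le _ _).trans (add_le_add (hdfl x) (hdqf x)))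
      (norm_nonneg _) zero_le_two).trans ?_
    linarith
  · refine (integrable_of_lip (hfl.sub hqf) (L := η + (∑ j, |w₀ j|) * η) fun x => ?_).2
    have h := ((hfl.differentiable one_ne_zero x).hasFDerivAt.sub
      (hqf.differentiable one_ne_zero x).hasFDerivAt).fderiv
    exact (congrArg norm h).trans_le ((norm_sub_le _ _).trans (add_le_add (hdfl x) (hdqf x)))

/-- The mean of a step is minus the mean of the gradient at the evaluation point. -/
lemma integral_stepZ (hW : IsPot W G H 0 η) (hη : 0 ≤ η) {w₀ v₀ : Fin N₀ → ℝ}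
    {w₁ v₁ : Fin N → ℝ} (hv₀ : ∀ j, 0 ≤ v₀ j ∧ v₀ j ≤ 1) {s L : ℝ}
    (hc : ContDiff ℝ 1 (stepC w₀ v₀ w₁ v₁ s G) ∧
      ∀ ω, ‖fderiv ℝ (stepC w₀ v₀ w₁ v₁ s G) ω‖ ≤ L) :
    Integrable (stepZ w₀ v₀ w₁ v₁ s G) (seedGam d) ∧
      ∫ p, stepZ w₀ v₀ w₁ v₁ s G p ∂seedGam d = -∫ p : Sp d × Sp d × Sp d,
        G (√(1 - s) • p.1 + √s • p.2.1 - qsamp w₁ v₁ G p.1 p.2.2)
          ∂(gd d).prod ((gd d).prod (gd d)) := by
  have hS : MeasurePreserving (fun p : Seed d => p.1.1) (seedGam d) (gd d) :=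
    measurePreserving_fst.comp measurePreserving_fst
  have hg : MeasurePreserving (fun p : Seed d => p.1.2) (seedGam d) (gd d) :=
    measurePreserving_snd.comp measurePreserving_fst
  have hω : MeasurePreserving (fun p : Seed d => p.2) (seedGam d) (gam (StepI d)) :=
    measurePreserving_snd
  have hp : MeasurePreserving (fun p : Seed d => (p.1.1, fstB p.2)) (seedGam d)
      ((gd d).prod (gd d)) :=
    (measurePreserving_fst (μ := gd d) (ν := gd d)).prod gam_fstB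
  obtain ⟨hqi, hq⟩ := integral_qsamp_pair (w := w₀) hW hη hv₀
  have hqm : Continuous fun p : Sp d × Sp d => qsamp w₀ v₀ G p.1 p.2 :=
    continuous_finsetSum _ fun j _ => (hW.continuous_grad.comp (by fun_prop)).const_smul (w₀ j)
  have hid : Integrable (fun x : Sp d => x) (gd d) := IsGaussian.integrable_id
  have i1 : Integrable (fun p : Seed d => p.1.1) (seedGam d) :=
    (hS.integrable_comp hid.aestronglyMeasurable).2 hid
  have i2 : Integrable (fun p : Seed d => p.1.2) (seedGam d) :=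
    (hg.integrable_comp hid.aestronglyMeasurable).2 hid
  have i3 : Integrable (fun p : Seed d => qsamp w₀ v₀ G p.1.1 (fstB p.2)) (seedGam d) :=
    (hp.integrable_comp hqm.aestronglyMeasurable).2 hqi
  have i4 : Integrable (fun p : Seed d => stepC w₀ v₀ w₁ v₁ s G p.2) (seedGam d) :=
    (hω.integrable_comp hc.1.continuous.aestronglyMeasurable).2 (integrable_of_lip hc.1 hc.2).1
  have i13 : Integrable (fun p : Seed d => p.1.1 - qsamp w₀ v₀ G p.1.1 (fstB p.2)) (seedGam d) :=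
    i1.sub i3
  have i12 : Integrable (fun p : Seed d =>
      scl • (p.1.1 - qsamp w₀ v₀ G p.1.1 (fstB p.2)) + (1 / 2 : ℝ) • p.1.2) (seedGam d) :=
    (i13.fun_smul scl).add (i2.fun_smul _)
  refine ⟨i12.add i4, ?_⟩
  have a1 : ∫ p : Seed d, p.1.1 ∂seedGam d = 0 := by
    rw [← integral_map (f := fun x => x) hS.measurable.aemeasurable aestronglyMeasurable_id,
      hS.map_eq, integral_id_gd]
  have a2 : ∫ p : Seed d, p.1.2 ∂seedGam d = 0 := by
    rw [← integral_map (f := fun x => x) hg.measurable.aemeasurable aestronglyMeasurable_id,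
      hg.map_eq, integral_id_gd]
  have a3 : ∫ p : Seed d, qsamp w₀ v₀ G p.1.1 (fstB p.2) ∂seedGam d =
      (∑ j, w₀ j) • ∫ x, G x ∂gd d := by
    rw [← integral_map hp.measurable.aemeasurable hqm.aestronglyMeasurable, hp.map_eq, hq]
  have a4 : ∫ p : Seed d, stepC w₀ v₀ w₁ v₁ s G p.2 ∂seedGam d =
      ∫ ω, stepC w₀ v₀ w₁ v₁ s G ω ∂gam (StepI d) := by
    rw [← integral_map hω.measurable.aemeasurable hc.1.continuous.aestronglyMeasurable, hω.map_eq]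
  simp only [stepZ]
  rw [integral_add i12 i4, integral_add (i13.fun_smul scl) (i2.fun_smul _), integral_smul,
    integral_smul, integral_sub i1 i3, a1, a2, a3, a4, integral_stepC hW hη hv₀ hc]
  module

/-- The size of the mean correction. -/
lemma norm_corr {εq me Cμ : ℝ} {a : ℝ} {EG EW J : Sp d}
    (hEG : ‖EG‖ ≤ 2 * (η * √d)) (ha : |a - kap0| * (η * √d) ≤ εq)
    (hEW : ‖EW - EG‖ ≤ 8 * η ^ 2 * √d) (hJ : ‖J - EW‖ ≤ Cμ * me) :
    ‖(scl * a) • EG - J‖ ≤ 4 * εq + 8 * η ^ 2 * √d + Cμ * me := by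
  have e : (scl * a) • EG - J = (scl * (a - kap0)) • EG + (EG - EW) - (J - EW) := by
    rw [mul_sub, scl_mul_kap0, sub_smul, one_smul]; abel
  rw [e]
  refine (norm_sub_le _ _).trans (add_le_add ((norm_add_le _ _).trans (add_le_add ?_ ?_)) hJ)
  · rw [norm_smul, norm_eq_abs, abs_mul, abs_of_pos scl_pos, mul_assoc]
    refine (mul_le_mul scl_le (mul_le_mul_of_nonneg_left hEG (abs_nonneg _))
      (by positivity) zero_le_two).trans ?_
    linarith
  · rwa [norm_sub_rev]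

/-- The arithmetic of the chi square budget. -/
lemma budget_le {CT CL Cμ n εq me μn : ℝ} {η : ℝ} (hn : 1 ≤ n) (hμ0 : 0 ≤ μn)
    (hμ : μn ≤ 4 * εq + 8 * η ^ 2 * √n + Cμ * me) :
    (2 * CT * η ^ 2 * √n) ^ 2 + (CT * η ^ 2) ^ 2 * n + (CT * η ^ 2) ^ 2 +
        (CL * η) ^ 4 * (6 * n) + (CL * η) ^ 2 + (8 * εq ^ 2 + 2 * μn ^ 2) ≤
      (6 * CT ^ 2 + 6 * CL ^ 4 + CL ^ 2 + 8 + 6 * (16 + 64 + Cμ ^ 2)) *
        (η ^ 2 + η ^ 4 * n + εq ^ 2 + me ^ 2) := by
  have hs : √n ^ 2 = n := sq_sqrt (by linarith)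
  have h1 := pow_le_pow_left₀ hμ0 hμ 2
  have h2 : (4 * εq + 8 * η ^ 2 * √n + Cμ * me) ^ 2 ≤
      3 * (16 * εq ^ 2 + 64 * (η ^ 4 * n) + Cμ ^ 2 * me ^ 2) := by
    have e : (8 * η ^ 2 * √n) ^ 2 = 64 * (η ^ 4 * n) := by rw [mul_pow, hs]; ring
    linarith [sq_nonneg (4 * εq - 8 * η ^ 2 * √n), sq_nonneg (4 * εq - Cμ * me),
      sq_nonneg (8 * η ^ 2 * √n - Cμ * me), e]
  have e1 : (2 * CT * η ^ 2 * √n) ^ 2 = 4 * CT ^ 2 * (η ^ 4 * n) := by rw [mul_pow, hs]; ring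
  have hη4 : 0 ≤ η ^ 4 := by positivity
  have h3 : CT ^ 2 * η ^ 4 ≤ CT ^ 2 * (η ^ 4 * n) :=
    mul_le_mul_of_nonneg_left (le_mul_of_one_le_right hη4 hn) (sq_nonneg _)
  set E := η ^ 2 + η ^ 4 * n + εq ^ 2 + me ^ 2 with hE
  have hb : 0 ≤ η ^ 4 * n := by positivity
  have b : ∀ {a t : ℝ}, 0 ≤ a → t ≤ E → a * t ≤ a * E := fun ha ht =>
    mul_le_mul_of_nonneg_left ht ha
  have k1 : η ^ 2 ≤ E := by linarith [sq_nonneg εq, sq_nonneg me]
  have k2 : η ^ 4 * n ≤ E := by linarith [sq_nonneg εq, sq_nonneg me, sq_nonneg η]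
  have k3 : εq ^ 2 ≤ E := by linarith [sq_nonneg me, sq_nonneg η]
  have k4 : me ^ 2 ≤ E := by linarith [sq_nonneg εq, sq_nonneg η]
  linarith [b (sq_nonneg CT) k2, b (show 0 ≤ CL ^ 4 by positivity) k2, b (sq_nonneg CL) k1,
    b (sq_nonneg Cμ) k4]

/-- The transported tilt and its gradient. -/
lemma exists_tilt {CT : ℝ} (hW : IsPot W G H 0 η) (hη : η ≤ 1 / 100)
    (hG0 : ‖G 0‖ ≤ η * √d) (hη0 : 0 ≤ η) (hCT : 0 ≤ CT)
    (htr : ∀ {Φ : Sp d → ℝ} {Φ' : Sp d → Sp d}, Continuous Φ' →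
      (∀ x, HasFDerivAt Φ (innerSL ℝ (Φ' x)) x) →
      (∀ x, ‖Φ' x - kap0 • pv kap0 G x‖ ≤ 4 * η * (‖G 0‖ + η * (√d + ‖x‖))) →
      ∃ r : Sp d → ℝ, ContDiff ℝ 1 r ∧
        (∀ x, ‖fderiv ℝ r x‖ ≤ CT * η * (‖G 0‖ + η * (√d + ‖x‖))) ∧
        (gibbs r).map (tmap kap0 G) = gibbs Φ) :
    ∃ r : Sp d → ℝ, ContDiff ℝ 1 r ∧
      (∀ x, ‖fderiv ℝ r x‖ ≤ 2 * CT * η ^ 2 * √d + CT * η ^ 2 * ‖x‖) ∧
      ((gibbs r).prod (gd d)).map (fun p => scl • tmap kap0 G p.1 + (1 / 2 : ℝ) • p.2) =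
        ((gibbs W).prod (gd d)).map fun p => p.1 + √(1 / 2) • p.2 := by
  obtain ⟨Φ', hΦc, hΦd, hΦb, hΦl⟩ := smPot_spec hW (by linarith) kap0_pos kap0_le_one
  obtain ⟨r, hrc, hrd, hrl⟩ := htr hΦc hΦd hΦb
  have hTc : Continuous (tmap kap0 G) :=
    continuous_id.sub (flow_spec hW hη0 kap0_pos.le kap0_le_one).1.continuous
  have := isProb_gibbs hW le_rfl
  have hprob : IsProbabilityMeasure (gibbs r) := by
    have : IsProbabilityMeasure ((gibbs r).map (tmap kap0 G)) := by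
      rw [hrl, ← hΦl]; exact Measure.isProbabilityMeasure_map (by fun_prop)
    exact ⟨by
      have h := this.measure_univ
      rwa [Measure.map_apply hTc.measurable MeasurableSet.univ, Set.preimage_univ] at h⟩
  refine ⟨r, hrc, fun x => (hrd x).trans ((mul_le_mul_of_nonneg_left
    (add_le_add_left hG0 _) (by positivity)).trans_eq (by ring)), ?_⟩
  exact map_target (hrl.trans hΦl.symm) hTc

/-- **One step.** -/
theorem step_whitened (C₀ : ℝ) : ∃ C c₀ : ℝ, 0 ≤ C ∧ 0 < c₀ ∧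
    ∀ {d N₀ N₁ : ℕ} {W : Sp d → ℝ} {G : Sp d → Sp d} {H : Sp d → Sp d →L[ℝ] Sp d} {η s εq : ℝ}
      {w₀ v₀ : Fin N₀ → ℝ} {w₁ v₁ : Fin N₁ → ℝ}, 1 ≤ d → IsPot W G H 0 η →
    ‖G 0‖ ≤ η * √d → 0 < s → s ≤ 1 / 2 → 0 ≤ εq →
    (∀ j, 0 ≤ v₀ j ∧ v₀ j ≤ 1) → (∀ j, 0 ≤ v₁ j ∧ v₁ j ≤ 1) →
    ∑ j, |w₀ j| ≤ C₀ → ∑ j, |w₁ j| ≤ C₀ →
    |∑ j, w₀ j - kap0| * (η * √d) ≤ εq →
    ∫ x, ‖flow kap0 G x - qflow w₀ v₀ G x‖ ^ 2 ∂gd d ≤ εq ^ 2 →
    ∫ x, ‖flow (1 - s) G x - qflow w₁ v₁ G x‖ ^ 2 ∂gd d ≤ εq ^ 2 →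
    η ^ 2 + η ^ 4 * d + εq ^ 2 + meanErr d η s εq ^ 2 ≤ c₀ →
    (∀ φ : Sp d → ℝ, Measurable φ →
      MemLp φ 2 (((gibbs W).prod (gd d)).map fun p => p.1 + √(1 / 2) • p.2) →
      Integrable (fun p => φ (stepZ w₀ v₀ w₁ v₁ s G p)) (seedGam d) ∧
        |(∫ p, φ (stepZ w₀ v₀ w₁ v₁ s G p) ∂seedGam d) -
            ∫ x, φ x ∂((gibbs W).prod (gd d)).map fun p => p.1 + √(1 / 2) • p.2| ≤
          C * √(η ^ 2 + η ^ 4 * d + εq ^ 2 + meanErr d η s εq ^ 2) *
            √(∫ x, φ x ^ 2 ∂((gibbs W).prod (gd d)).map fun p => p.1 + √(1 / 2) • p.2)) ∧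
      Integrable (stepZ w₀ v₀ w₁ v₁ s G) (seedGam d) ∧
      ‖(∫ p, stepZ w₀ v₀ w₁ v₁ s G p ∂seedGam d) - ∫ x, x ∂gibbs W‖ ≤
        C * meanErr d η s εq := by
  obtain ⟨CT, hCT, htr⟩ := transport
  obtain ⟨CA, cA, hCA, hcA, habs⟩ := absorb
  obtain ⟨CM, cM, hCM, hcM, hmean⟩ := mean_point
  set C := |C₀| with hCdef
  set CL := 10 * C + 4 with hCL
  set Cμ := CM * (1 + C) ^ 2 with hCμ
  set K := 6 * CT ^ 2 + 6 * CL ^ 4 + CL ^ 2 + 8 + 6 * (16 + 64 + Cμ ^ 2) with hK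
  have hK1 : 1 ≤ K := by
    have h1 : 0 ≤ CT ^ 2 := sq_nonneg _
    have h2 : 0 ≤ CL ^ 4 := by positivity
    have h3 : 0 ≤ CL ^ 2 := sq_nonneg _
    have h4 : 0 ≤ Cμ ^ 2 := sq_nonneg _
    linarith
  refine ⟨CA * √K + Cμ, min (min (cA / K) cM) (1 / 10000), by positivity,
    lt_min (lt_min (div_pos hcA (by linarith)) hcM) (by norm_num), ?_⟩
  intro d N₀ N₁ W G H η s εq w₀ v₀ w₁ v₁ hd hW hG0 hs hs2 hεq hv₀ hv₁ h₀ h₁ hw hq₀ hq₁ hsmall
  have hη : 0 ≤ η := hW.hess_nonneg_const hd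
  have hd1 : (1:ℝ) ≤ d := by exact_mod_cast hd
  set me := meanErr d η s εq
  have hη4 : 0 ≤ η ^ 4 * d := by positivity
  obtain ⟨hsAM, hs10⟩ := le_min_iff.1 hsmall
  obtain ⟨hsA, hsM⟩ := le_min_iff.1 hsAM
  have hη100 : η ≤ 1 / 100 := by
    have : η ^ 2 ≤ (1 / 100 : ℝ) ^ 2 := by linarith [sq_nonneg εq, sq_nonneg me]
    exact (abs_le_of_sq_le_sq' this (by norm_num)).2
  have hC0 : 0 ≤ C := abs_nonneg _
  replace h₀ : ∑ j, |w₀ j| ≤ C := h₀.trans (le_abs_self _)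
  replace h₁ : ∑ j, |w₁ j| ≤ C := h₁.trans (le_abs_self _)
  have hc := stepC_spec hW hη (by linarith) hv₀ hv₁ h₀ h₁ hs.le (by linarith : s ≤ 1)
  obtain ⟨hmc, hmω, hMeq, hMc, hMd, hfi⟩ :=
    stepM_spec hW hη (by linarith) hv₀ hv₁ h₀ h₁ hs.le (by linarith : s ≤ 1)
  have hJ := hmean hd hW hG0 (by linarith [sq_nonneg εq, sq_nonneg me]) hs hs2 hv₁ h₁ hεq hq₁
  have hμn := norm_corr ((norm_mean_grad hW hη).trans (by linarith)) hw
    ((tilt_diff hW (by linarith)).trans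
      ((mul_le_mul_of_nonneg_left (add_le_add_left hG0 _) (by positivity)).trans_eq (by ring)))
    hJ
  rw [← integral_stepC hW hη hv₀ hc] at hμn
  set μ := ∫ ω, stepC w₀ v₀ w₁ v₁ s G ω ∂gam (StepI d)
  have hMε : ∫ x, ‖∫ ω, stepM w₀ v₀ w₁ v₁ s G x ω ∂gam (StepI d)‖ ^ 2 ∂gd d ≤
      √(8 * εq ^ 2 + 2 * ‖μ‖ ^ 2) ^ 2 := by
    rw [sq_sqrt (by positivity)]
    refine (integral_mono_of_nonneg (Eventually.of_forall fun x => sq_nonneg _)
      ((hfi.const_mul 8).add (integrable_const (2 * ‖μ‖ ^ 2)))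
      (Eventually.of_forall fun x => ?_)).trans ?_
    · simp only [hMeq, Pi.add_apply]
      have h := norm_add_le (scl • (flow kap0 G x - qflow w₀ v₀ G x)) μ
      rw [norm_smul, norm_eq_abs, abs_of_pos scl_pos] at h
      have h' := h.trans (add_le_add_left
        (mul_le_mul_of_nonneg_right scl_le (norm_nonneg _)) _)
      have h2 := pow_le_pow_left₀ (norm_nonneg _) h' 2
      linarith [sq_nonneg (2 * ‖flow kap0 G x - qflow w₀ v₀ G x‖ - ‖μ‖)]
    · rw [integral_add' (hfi.const_mul 8) (integrable_const _), integral_const_mul,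
        integral_const, probReal_univ, one_smul]
      linarith
  obtain ⟨r, hrc, hrb, hlaw⟩ :=
    exists_tilt hW hη100 hG0 hη hCT (fun {Φ Φ'} => htr hW hη100 kap0_pos.le kap0_le_one)
  have hTc : Continuous (tmap kap0 G) :=
    continuous_id.sub (flow_spec hW hη kap0_pos.le kap0_le_one).1.continuous
  have hbudget : (2 * CT * η ^ 2 * √d) ^ 2 + (CT * η ^ 2) ^ 2 * d + (CT * η ^ 2) ^ 2 +
      (CL * η) ^ 4 * Fintype.card (StepI d) + (CL * η) ^ 2 +
        √(8 * εq ^ 2 + 2 * ‖μ‖ ^ 2) ^ 2 ≤ K * (η ^ 2 + η ^ 4 * d + εq ^ 2 + me ^ 2) := by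
    rw [sq_sqrt (by positivity), show (Fintype.card (StepI d) : ℝ) = 6 * d by simp; ring]
    exact budget_le hd1 (norm_nonneg μ) hμn
  have hcA' : K * (η ^ 2 + η ^ 4 * d + εq ^ 2 + me ^ 2) ≤ cA := by
    rwa [le_div_iff₀' (by linarith : 0 < K)] at hsA
  refine ⟨fun φ hφ hφ2 => ?_, (integral_stepZ hW hη hv₀ hc).1, ?_⟩
  · rw [← hlaw] at hφ2 ⊢
    obtain ⟨hi, hb⟩ := habs (c := scl) hTc hrc (by positivity) (by positivity) (by positivity)
      (sqrt_nonneg _) hrb hmc hmω hMc hMd hMε (hbudget.trans hcA') φ hφ hφ2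
    simp only [stepZ_eq, seedGam]
    refine ⟨hi, ?_⟩
    rw [integral_map (by fun_prop) hφ.aestronglyMeasurable,
      integral_map (by fun_prop) (hφ.pow_const 2).aestronglyMeasurable]
    refine hb.trans (mul_le_mul_of_nonneg_right ?_ (sqrt_nonneg _))
    refine (mul_le_mul_of_nonneg_left (sqrt_le_sqrt hbudget) hCA).trans ?_
    rw [sqrt_mul (zero_le_one.trans hK1), ← mul_assoc]
    exact mul_le_mul_of_nonneg_right (le_add_of_nonneg_right (by positivity)) (sqrt_nonneg _)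
  · rw [(integral_stepZ hW hη hv₀ hc).2, gibbs_mean hW le_rfl, neg_sub_neg, norm_sub_rev]
    exact hJ.trans (mul_le_mul_of_nonneg_right (le_add_of_nonneg_left (by positivity))
      (meanErr_nonneg hη hεq))

end Vale.Agent.P347.Quarter
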