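import Vale.Agent.P347.Quarter.Gauss
import Vale.Agent.P347.Quarter.Tilt.Smoothed

/-! # P347: log-concave tilts of the Gaussian law -/

open MeasureTheory ProbabilityTheory Real
open scoped RealInnerProductSpace

namespace Vale.Agent.P347.Quarter

variable {d : ℕ} {W : Sp d → ℝ} {G : Sp d → Sp d} {H : Sp d → Sp d →L[ℝ] Sp d} {lo η : ℝ}

theorem isProb_gibbs (hW : IsPot W G H lo η) (hlo : 0 ≤ lo) :
    IsProbabilityMeasure (gibbs W) :=
  hW.isProb hlo

theorem gibbs_exp_norm (hW : IsPot W G H lo η) (hlo : 0 ≤ lo) (K : ℝ) :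
    Integrable (fun x => exp (K * ‖x‖)) (gibbs W) :=
  hW.integrable_gibbs_of_le hlo (by fun_prop) (C := 1) (K := K) fun x => by
    rw [norm_eq_abs, abs_exp, one_mul]

/-- The Poincaré inequality. -/
theorem gibbs_poincare (hW : IsPot W G H lo η) (hlo : 0 ≤ lo) {f : Sp d → ℝ}
    (hf : ContDiff ℝ 1 f) {A B : ℝ} (hbd : ∀ x, ‖fderiv ℝ f x‖ ≤ A + B * ‖x‖) :
    MemLp f 2 (gibbs W) ∧
      ∫ x, (f x - ∫ y, f y ∂gibbs W) ^ 2 ∂gibbs W ≤
        (1 + lo)⁻¹ * ∫ x, ‖fderiv ℝ f x‖ ^ 2 ∂gibbs W := by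
  have := hW.isProb hlo
  have hA : 0 ≤ A := by simpa using (norm_nonneg _).trans (hbd 0)
  have hb : ∀ x, |f x| ≤ |f 0| + (A + |B| * ‖x‖) * ‖x‖ := fun x => by
    have h := (convex_closedBall (0 : Sp d) ‖x‖).norm_image_sub_le_of_norm_fderiv_le
      (f := f) (C := A + |B| * ‖x‖) (fun y _ => hf.differentiable one_ne_zero y) (fun y hy => by
        rw [mem_closedBall_zero_iff] at hy
        refine (hbd y).trans ?_
        nlinarith [mul_le_mul_of_nonneg_right (le_abs_self B) (norm_nonneg y),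
          mul_le_mul_of_nonneg_left hy (abs_nonneg B)])
      (Metric.mem_closedBall_self (norm_nonneg x)) (mem_closedBall_zero_iff.2 le_rfl)
    rw [sub_zero, norm_eq_abs] at h
    linarith [abs_sub_abs_le_abs_sub (f x) (f 0)]
  set c := 3 * (|f 0| + A + |B|) with hc
  have hb' : ∀ x, |f x| ≤ c * exp ‖x‖ := fun x => by
    have hn := norm_nonneg x
    have h0 := abs_nonneg (f 0)
    have hB := abs_nonneg B
    have h1 : |f x| ≤ (|f 0| + A + |B|) * (1 + ‖x‖ + ‖x‖ ^ 2) := by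
      nlinarith [hb x, mul_nonneg h0 hn, mul_nonneg h0 (sq_nonneg ‖x‖),
        mul_nonneg hA (sq_nonneg ‖x‖), mul_nonneg hB hn]
    refine h1.trans ((mul_le_mul_of_nonneg_left (le_two_exp _ hn) (by positivity)).trans ?_)
    rw [hc]
    exact le_of_eq (by ring)
  have h2 : Integrable (fun x => f x ^ 2) (gibbs W) :=
    hW.integrable_gibbs_of_le hlo (hf.continuous.pow 2) (C := c ^ 2) (K := 2) fun x => by
      rw [norm_pow, norm_eq_abs]
      refine (pow_le_pow_left₀ (abs_nonneg _) (hb' x) 2).trans (le_of_eq ?_)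
      rw [mul_pow, ← exp_nat_mul]; norm_num
  have hD : Integrable (fun x => ‖fderiv ℝ f x‖ ^ 2) (gibbs W) :=
    hW.integrable_gibbs_of_le hlo ((hf.continuous_fderiv one_ne_zero).norm.pow 2)
      (C := (A + |B|) ^ 2) (K := 2) fun x => by
      rw [norm_pow, norm_norm]
      have h1 : ‖fderiv ℝ f x‖ ≤ (A + |B|) * exp ‖x‖ := (hbd x).trans (by
        nlinarith [mul_le_mul_of_nonneg_right (le_abs_self B) (norm_nonneg x),
          add_one_le_exp ‖x‖, abs_nonneg B, mul_nonneg hA (norm_nonneg x)])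
      refine (pow_le_pow_left₀ (norm_nonneg _) h1 2).trans (le_of_eq ?_)
      rw [mul_pow, ← exp_nat_mul]; norm_num
  have hm : MemLp f 2 (gibbs W) :=
    (memLp_two_iff_integrable_sq hf.continuous.aestronglyMeasurable).2 h2
  refine ⟨hm, le_of_eq_of_le ?_ (hW.poincare hlo hf h2 hD)⟩
  rw [← variance_eq_integral hf.continuous.aemeasurable, variance_eq_sub hm]
  simp only [Pi.pow_apply]

/-- Integration by parts against the tilt. -/
theorem gibbs_ibp (hW : IsPot W G H lo η) (hlo : 0 ≤ lo) {F : Sp d → ℝ} (hF : ContDiff ℝ 1 F)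
    {C K : ℝ} (h0 : ∀ x, |F x| ≤ C * exp (K * ‖x‖))
    (h1 : ∀ x, ‖fderiv ℝ F x‖ ≤ C * exp (K * ‖x‖)) (v : Sp d) :
    ∫ x, fderiv ℝ F x v ∂gibbs W = ∫ x, F x * ⟪x + G x, v⟫ ∂gibbs W :=
  hW.ibp hlo hF h0 h1 v

/-- The mean of the tilt. -/
theorem gibbs_mean (hW : IsPot W G H lo η) (hlo : 0 ≤ lo) :
    ∫ x, x ∂gibbs W = -∫ x, G x ∂gibbs W :=
  hW.mean hlo

/-- The tilt moves the mean of the gradient by the square of the smoothness only. -/
theorem tilt_diff (hW : IsPot W G H 0 η) (hη : η ≤ 1 / 2) :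
    ‖(∫ x, G x ∂gibbs W) - ∫ x, G x ∂gd d‖ ≤ 4 * η * (‖G 0‖ + η * √d) :=
  hW.tilt_norm hη

/-- The smoothed target. -/
theorem smPot_spec (hW : IsPot W G H 0 η) (hη : η ≤ 1 / 2) {κ : ℝ} (hκ : 0 < κ) (hκ1 : κ ≤ 1) :
    ∃ Φ' : Sp d → Sp d, Continuous Φ' ∧
      (∀ x, HasFDerivAt (smPot κ W) (innerSL ℝ (Φ' x)) x) ∧
      (∀ x, ‖Φ' x - κ • pv κ G x‖ ≤ 4 * η * (‖G 0‖ + η * (√d + ‖x‖))) ∧
      ((gibbs W).prod (gd d)).map (fun p => κ • p.1 + √(1 - κ ^ 2) • p.2) =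
        gibbs (smPot κ W) :=
  hW.smooth_spec hη hκ hκ1

end Vale.Agent.P347.Quarter
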